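import Vale.Agent.P275CC.Tw

/-! Flags: symmetric functions of the line classes descend, and iterated top coefficients. -/

set_option linter.unusedSectionVars false
set_option backward.isDefEq.respectTransparency false

open Set Matrix Topology Filter Polynomial

noncomputable section

namespace P275CC

variable {X Y Z : Type} [TopologicalSpace X] [TopologicalSpace Y] [TopologicalSpace Z]
variable {n m k : Type} [Fintype n] [DecidableEq n] [Fintype m] [DecidableEq m] [Fintype k]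
  [DecidableEq k]

section alg

variable {R S : Type} [CommRing R] [CommRing S]

theorem ex_of_lh (φ : R →+* S) (y : S) {N : ℕ}
    (h : Function.Surjective fun a : Fin N → R => ∑ i, φ (a i) * y ^ (i : ℕ)) :
    ∃ χ : R[X], (χ - Polynomial.X ^ N).degree < (N : WithBot ℕ) ∧ χ.eval₂ φ y = 0 := by
  obtain ⟨a, ha⟩ := h (y ^ N)
  refine ⟨Polynomial.X ^ N - ∑ i, C (a i) * Polynomial.X ^ (i : ℕ), ?_, ?_⟩
  · rw [sub_sub_cancel_left, degree_neg]
    exact degree_sum_fin_lt a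
  · rw [eval₂_sub, eval₂_pow, eval₂_X, ← ha, eval₂_finsetSum]
    simp

theorem uniq_of_lh (φ : R →+* S) (y : S) {N : ℕ}
    (h : Function.Injective fun a : Fin N → R => ∑ i, φ (a i) * y ^ (i : ℕ)) {χ χ' : R[X]}
    (d : (χ - Polynomial.X ^ N).degree < (N : WithBot ℕ))
    (d' : (χ' - Polynomial.X ^ N).degree < (N : WithBot ℕ)) (e : χ.eval₂ φ y = 0)
    (e' : χ'.eval₂ φ y = 0) : χ = χ' := by
  have h1 : (χ - χ').degree < N := by
    rw [← sub_sub_sub_cancel_right χ χ' (Polynomial.X ^ N)]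
    exact (degree_sub_le _ _).trans_lt (max_lt d d')
  have h2 := Th.eval₂_of_lt φ y h1
  rw [eval₂_sub, e, e', sub_zero] at h2
  have h3 := h (a₁ := fun i => (χ - χ').coeff i) (a₂ := 0) (by simpa using h2.symm)
  rw [← sub_eq_zero]
  ext1 j
  by_cases hj : j < N
  · exact congrFun h3 ⟨j, hj⟩
  · exact coeff_eq_zero_of_degree_lt (h1.trans_le (by exact_mod_cast not_lt.1 hj))

theorem deg_prod (y : k → R) (s : Finset k) :
    (∏ a ∈ s, (Polynomial.X - C (y a)) - Polynomial.X ^ s.card).degree < (s.card : WithBot ℕ) := by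
  rcases subsingleton_or_nontrivial R with hs | hs
  · rw [Subsingleton.elim (_ - _) 0, degree_zero]
    exact WithBot.bot_lt_coe _
  · have h1 := monic_prod_X_sub_C y s
    have h2 : (∏ a ∈ s, (Polynomial.X - C (y a))).degree = (s.card : WithBot ℕ) := by
      rw [degree_eq_natDegree h1.ne_zero, natDegree_finsetProd_X_sub_C_eq_card]
    rw [← h2]
    exact degree_sub_lt_left (by rw [h2, degree_X_pow]) h1.ne_zero
      (by rw [h1.leadingCoeff, leadingCoeff_X_pow])

/-- the coefficient which gives the sum of the values at the roots -/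
theorem coeff_mod_prod [Nontrivial R] (y : k → R) (s : Finset k) (g : R[X]) :
    ((g * derivative (∏ a ∈ s, (Polynomial.X - C (y a)))) %ₘ
      ∏ a ∈ s, (Polynomial.X - C (y a))).coeff (s.card - 1) = ∑ a ∈ s, g.eval (y a) := by
  have h1 := monic_prod_X_sub_C y s
  have hd : ∀ a ∈ s, (∏ b ∈ s.erase a, (Polynomial.X - C (y b))).natDegree = s.card - 1 :=
    fun a ha => by rw [natDegree_finsetProd_X_sub_C_eq_card, Finset.card_erase_of_mem ha]
  have h2 : (g * derivative (∏ a ∈ s, (Polynomial.X - C (y a)))) %ₘ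
      (∏ a ∈ s, (Polynomial.X - C (y a))) =
      ∑ a ∈ s, C (g.eval (y a)) * ∏ b ∈ s.erase a, (Polynomial.X - C (y b)) := by
    refine (div_modByMonic_unique (∑ a ∈ s, g /ₘ (Polynomial.X - C (y a))) _ h1 ⟨?_, ?_⟩).2
    · rw [derivative_prod_finset, Finset.mul_sum, Finset.mul_sum, ← Finset.sum_add_distrib]
      refine Finset.sum_congr rfl fun a ha => ?_
      rw [← Finset.mul_prod_erase s _ ha, derivative_X_sub_C, mul_one,
        ← modByMonic_X_sub_C_eq_C_eval]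
      conv_rhs => rw [← modByMonic_add_div g (Polynomial.X - C (y a))]
      ring
    · rw [degree_eq_natDegree h1.ne_zero, natDegree_finsetProd_X_sub_C_eq_card]
      refine (degree_sum_le _ _).trans_lt ((Finset.sup_lt_iff (WithBot.bot_lt_coe _)).2
        fun a ha => (degree_mul_le _ _).trans_lt ?_)
      refine (add_le_add degree_C_le degree_le_natDegree).trans_lt ?_
      rw [hd a ha, zero_add]
      exact_mod_cast Nat.sub_lt (Finset.card_pos.2 ⟨a, ha⟩) one_pos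
  rw [h2, finsetSum_coeff]
  refine Finset.sum_congr rfl fun a ha => ?_
  rw [coeff_C_mul, ← hd a ha, (monic_prod_X_sub_C y _).coeff_natDegree, mul_one]

theorem eval_der_prod (y : k → R) {s : Finset k} {a : k} (ha : a ∈ s) :
    (derivative (∏ b ∈ s, (Polynomial.X - C (y b)))).eval (y a) = ∏ b ∈ s.erase a, (y a - y b) := by
  rw [← Finset.mul_prod_erase s _ ha, derivative_mul, derivative_X_sub_C]
  simp [eval_prod]

theorem lift_shift [Algebra ℂ R] [Algebra ℂ S] (φ : R →ₐ[ℂ] S) {χ : R[X]} {z : k → S}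
    (h : χ.map φ.toRingHom = ∏ a, (Polynomial.X - C (z a))) {s : ℂ} (hs : s ≠ 0) (w : R) :
    ∃ χ' : R[X], χ'.map φ.toRingHom = ∏ a, (Polynomial.X - C (s • z a + φ w)) := by
  refine ⟨C (algebraMap ℂ R s) ^ Fintype.card k *
    χ.comp (C (algebraMap ℂ R s⁻¹) * (Polynomial.X - C w)), ?_⟩
  rw [Polynomial.map_mul, Polynomial.map_pow, Polynomial.map_comp, h, prod_comp,
    ← Finset.card_univ, ← Finset.prod_const, ← Finset.prod_mul_distrib]
  refine Finset.prod_congr rfl fun a _ => ?_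
  have e : (C (algebraMap ℂ S s) : S[X]) * C (algebraMap ℂ S s⁻¹) = 1 := by
    rw [← C_mul, ← map_mul, mul_inv_cancel₀ hs, map_one, C_1]
  simp only [map_C, sub_comp, X_comp, C_comp, Polynomial.map_mul, Polynomial.map_sub, map_X,
    AlgHom.toRingHom_eq_coe, RingHom.coe_coe, AlgHom.commutes, Algebra.smul_def, map_add, map_mul]
  linear_combination (Polynomial.X - C (φ w)) * e

end alg

/-! ### parabolic cocycles -/

/-- the first `k` columns are triangular -/
def pab (N k : ℕ) : Set (Matrix (Fin N) (Fin N) ℂ) :=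
  {g | ∀ a b : Fin N, (b : ℕ) < k → b < a → g a b = 0}

/-- the lower right block -/
def blkQ {N : ℕ} (k : ℕ) (g : Matrix (Fin N) (Fin N) ℂ) :
    Matrix {a : Fin N // k ≤ a} {a : Fin N // k ≤ a} ℂ := g.submatrix Subtype.val Subtype.val

section par

variable {N k : ℕ} {g h : Matrix (Fin N) (Fin N) ℂ}

theorem tri_pab : tri (Fin N) ⊆ pab N k := fun _ hg _ _ _ e => hg e

theorem blkQ_mul (hg : g ∈ pab N k) (h : Matrix (Fin N) (Fin N) ℂ) :
    blkQ k (g * h) = blkQ k g * blkQ k h := by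
  ext a b
  change ∑ c, g a c * h c b = ∑ c : {a : Fin N // k ≤ a}, g a c * h c b
  rw [← Finset.sum_subtype (Finset.univ.filter fun c : Fin N => k ≤ c) (by simp)
    fun c => g a c * h c b, Finset.sum_filter]
  refine Finset.sum_congr rfl fun c _ => ?_
  split_ifs with e
  · rfl
  · rw [hg a c (not_le.1 e) (Fin.lt_def.2 ((not_le.1 e).trans_le a.2)), zero_mul]

theorem det_blkQ (hg : g ∈ pab N k) (hd : g.det ≠ 0) : (blkQ k g).det ≠ 0 := by
  have := congrArg Matrix.det (blkQ_mul hg g⁻¹)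
  rw [mul_nonsing_inv _ hd.isUnit, blkQ, submatrix_one _ Subtype.val_injective, det_one,
    det_mul] at this
  exact left_ne_zero_of_mul_eq_one this.symm

theorem ct_blkQ : Continuous (blkQ k : Matrix (Fin N) (Fin N) ℂ → _) :=
  continuous_id.matrix_submatrix _ _

theorem chr_blkQ : Chr (pab N k) (Fintype.card {a : Fin N // k ≤ a}) fun g => (blkQ k g).det :=
  ⟨ct_blkQ.matrix_det.continuousOn, fun _ hg h _ _ _ => by rw [blkQ_mul hg, det_mul],
    fun s g => det_smul (blkQ k g) s, fun _ hg hd => det_blkQ hg hd⟩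

/-- the quotient by the `k`-th step of the flag -/
def TB.quo (T : TB X (Fin N)) (hT : T.In (pab N k)) : TB X {a : Fin N // k ≤ a} where
  toCov := T.toCov
  g i j x := blkQ k (T.g i j x)
  ct i j := ct_blkQ.comp_continuousOn (T.ct i j)
  nz i j x hi hj := det_blkQ (hT i j x hi hj) (T.nz i j x hi hj)
  cc i j l x hi hj hl := by
    obtain ⟨s, e⟩ := T.cc i j l x hi hj hl
    exact ⟨s, by rw [← blkQ_mul (hT i j x hi hj), e]; rfl⟩

theorem TB.LI.quo {T T' : TB X (Fin N)} (h : TB.LI (pab N k) T T') (hT : T.In (pab N k))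
    (hT' : T'.In (pab N k)) : TB.LI univ (T.quo hT) (T'.quo hT') := by
  obtain ⟨κ, O, a, b, f, h1, h2, h3, h4, h5, h6, h7⟩ := h
  refine ⟨κ, O, a, b, fun c x => blkQ k (f c x), h1, h2, h3, h4,
    fun c => ct_blkQ.comp_continuousOn (h5 c),
    fun c x hx => ⟨trivial, det_blkQ (h6 c x hx).1 (h6 c x hx).2⟩, fun c c' x hc hc' => ?_⟩
  obtain ⟨s, e⟩ := h7 c c' x hc hc'
  refine ⟨s, (blkQ_mul (h6 c x hc).1 _).symm.trans ?_⟩
  rw [e]
  exact congrArg (s • ·) (blkQ_mul (hT' _ _ x (h4 _ hc) (h4 _ hc')) _)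

/-- the honest quotient -/
def VB.quo (V : VB X (Fin N)) (hV : V.tb.In (pab N k)) : VB X {a : Fin N // k ≤ a} where
  toCov := V.toCov
  g i j x := blkQ k (V.g i j x)
  ct i j := ct_blkQ.comp_continuousOn (V.ct i j)
  id i x hi := by rw [V.id i x hi, blkQ, submatrix_one _ Subtype.val_injective]
  cc i j l x hi hj hl := (blkQ_mul (hV i j x hi hj) _).symm.trans
    (congrArg _ (V.cc i j l x hi hj hl))

end par

theorem TB.Ln.hom_vec {T : TB X n} {f : C(Y, X)} (L : T.Ln f) :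
    VB.Hom (LB.vb (Co.one Y ℂ)) L.vb fun _ j y => cm (L.vec j y) :=
  ⟨fun _ j => ctOn_cm ((TB.Ln.ct_vec j).mono fun _ h => h.1.2), fun i i' j j' y _ _ hj hj' _ => by
    rw [LB.vb_g, mul_cm, L.vb_vec hj hj']
    exact (congrArg _ (one_smul _ _)).trans (Matrix.mul_one _)⟩

namespace Th

variable {τ : Th}

theorem lhE_lam [Nc X] [Nonempty n] (T : TB X n) :
    Function.Bijective fun a : Fin (Fintype.card n) → τ.E X =>
      ∑ i, τ.pe T.π (a i) * τ.c T.taut.lam ^ (i : ℕ) := by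
  refine lhE _ _ (dg_c1 _) _ ?_
  obtain ⟨r, h⟩ := Nat.exists_eq_succ_of_ne_zero (Fintype.card_ne_zero (α := n))
  rw [h]
  exact lh_lam T h

theorem c_lam [Nc X] [Nc Y] {T : TB X n} {f : C(Y, X)} (L : T.Ln f) :
    τ.c L.lam = τ.pe L.lift (τ.c T.taut.lam) := by
  rw [TB.Ln.lam, TB.Ln.lam, c_dual, c_dual, map_neg, ← c_pb, c_iso L.iso_vb_lift.det]
  rfl

theorem lam_root [Nc X] [Nc Y] {T : TB X n} {χ : (τ.E X)[X]}
    (e : χ.eval₂ (τ.pe T.π).toRingHom (τ.c T.taut.lam) = 0) {f : C(Y, X)} (L : T.Ln f) :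
    χ.eval₂ (τ.pe f).toRingHom (τ.c L.lam) = 0 := by
  have := congrArg (τ.pe L.lift).toRingHom e
  rw [hom_eval₂, map_zero] at this
  rw [c_lam, ← this]
  congr 1
  exact RingHom.ext fun a => pe_comp L.lift T.π a

variable (τ) in
/-- the normalised Chern polynomial of a twisted bundle -/
theorem exists_chiT [Nc X] [Nonempty n] (T : TB X n) : ∃ χ : (τ.E X)[X],
    ∀ (Y : Type) [TopologicalSpace Y] [Nc Y] (f : C(Y, X)) (L : n → LB Y),
      TB.LI univ (T.pb f) (VB.diag L).tb → χ.map (τ.pe f).toRingHom =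
        ∏ a, (Polynomial.X - C (Fintype.card n • τ.c (L a) - ∑ b, τ.c (L b))) := by
  obtain ⟨χ, d, e⟩ := ex_of_lh (τ.pe T.π).toRingHom _ (lhE_lam (τ := τ) T).2
  refine ⟨χ, fun Y _ _ f L h => uniq_of_lh (τ.pe (T.pb f).π).toRingHom _
    (lhE_lam (τ := τ) (T.pb f)).1 ?_ (deg_prod _ _) ?_ ?_⟩
  · have := (degree_map_le (f := (τ.pe f).toRingHom)).trans_lt d
    rwa [Polynomial.map_sub, Polynomial.map_pow, map_X] at this
  · rw [eval₂_map, ← lam_root e (TB.Ln.down (T := T) (f := f) (T.pb f).taut)]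
    congr 1
    exact RingHom.ext fun a => (pe_comp _ f a).symm
  · obtain ⟨M, hM⟩ := VB.ex_tw (V := (T.pb f).taut.vb) (V' := (VB.diag L).pb (T.pb f).π)
      ((T.pb f).taut.iso_vb.li.symm.trans (h.pb _))
    have h1 := hM.trans (((VB.diag_pb L _).tw M).trans (VB.tw_diag _ _))
    have h2 := prod_sub_eq_zero (τ := τ) (T.pb f).taut.hom_vec
      (fun _ _ _ _ hj => inj_cm (TB.Ln.vec_ne hj)) h1
    have h3 : τ.c (T.pb f).taut.lam =
        -(Fintype.card n • τ.c M + ∑ b, τ.pe (T.pb f).π (τ.c (L b))) := by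
      rw [TB.Ln.lam, c_dual, ← p1_det, p1_diag h1]
      simp [c_mul, c_pb, Finset.sum_add_distrib]
    rw [eval₂_finsetProd, Finset.prod_congr rfl (g := fun a => (Fintype.card n : τ.E _) *
      (τ.c (Co.one _ ℂ) - τ.c (M.mul ((L a).pb (T.pb f).π)))) fun a _ => ?_,
      Finset.prod_mul_distrib, h2, mul_zero]
    rw [eval₂_sub, eval₂_X, eval₂_C, h3]
    simp only [c_one, c_mul, c_pb, AlgHom.toRingHom_eq_coe,
      RingHom.coe_coe, map_sub, map_sum, nsmul_eq_mul, map_mul, map_natCast]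
    ring

section sym

variable {N : ℕ} [Nc Z] {T' : TB Z (Fin N)} {Y : Fin N → LB Z}

/-- a triangular cocycle comes from a sum of line bundles -/
theorem exists_tri (o : Fin N) (hT' : T'.In (tri (Fin N)))
    (hY : ∀ a, T'.Ch (fun g => g a a ^ N) Matrix.det (Y a)) :
    ∃ (V : VB Z (Fin N)) (x : Fin N → LB Z), V.tb.In (tri (Fin N)) ∧
      TB.LI (tri (Fin N)) V.tb T' ∧ (∀ a, V.tb.Ch (fun g => g a a) (fun _ => 1) (x a)) ∧
      ∀ a, τ.c (Y a) = N • τ.c (x a) - ∑ b, τ.c (x b) := by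
  have h1 : (T'.nm hT' (chr_tri o)).tb.In (tri (Fin N)) := fun i j x hi hj a b e => by
    change _ * T'.g i j x a b = 0
    rw [hT' i j x hi hj e, mul_zero]
  have h2 : ∀ a, (T'.nm hT' (chr_tri o)).tb.Ch (fun g => g a a) (fun _ => 1)
      (T'.lb hT' (chr_tri a) (chr_tri o)) := fun a =>
    ⟨fun i => i, fun _ => subset_rfl, fun i j x _ _ => (div_eq_inv_mul _ _).trans (div_one _).symm⟩
  refine ⟨_, _, h1, TB.li_nm blockTriangular_one hT' _, h2, fun a => ?_⟩
  obtain ⟨e, e1, e2⟩ := hY a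
  rw [← p1_diag (VB.tri_iso _ h1 h2), p1_det, eq_sub_iff_add_eq, ← c_mul, ← c_pow]
  refine c_iso (LB.iso_ref _ _ T'.U (fun i => (e i, i)) (fun i => i) T'.op T'.cov
    (fun i x h => ⟨e1 i h, h⟩) (fun _ => subset_rfl) fun i j x hi hj => ?_)
  change (Y a).g (e i) (e j) x * ((T'.g i j x o o)⁻¹ • T'.g i j x).det =
    (T'.g i j x a a / T'.g i j x o o) ^ N
  rw [e2 i j x hi hj, det_smul, Fintype.card_fin, mul_comm _ (T'.g i j x).det, ← mul_assoc,
    div_mul_cancel₀ _ (T'.nz i j x hi hj), div_eq_mul_inv, mul_pow]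

theorem sum_y (o : Fin N) (hT' : T'.In (tri (Fin N)))
    (hY : ∀ a, T'.Ch (fun g => g a a ^ N) Matrix.det (Y a)) : ∑ a, τ.c (Y a) = 0 := by
  obtain ⟨V, x, -, -, -, h⟩ := exists_tri (τ := τ) o hT' hY
  simp [h, Finset.sum_sub_distrib, Finset.mul_sum]

theorem sum_y_sq (o : Fin N) (hT' : T'.In (tri (Fin N)))
    (hY : ∀ a, T'.Ch (fun g => g a a ^ N) Matrix.det (Y a)) :
    2 * ∑ a, τ.c (Y a) ^ 2 = N • τ.p2 T'.End := by
  obtain ⟨V, x, h1, h2, h3, h⟩ := exists_tri (τ := τ) o hT' hY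
  rw [p2_end_diag ((h2.mono (subset_univ _)).symm.trans (VB.tri_iso _ h1 h3).li), sum_sub_sq]
  simp only [h, sub_sq, Finset.sum_add_distrib, Finset.sum_sub_distrib, Finset.sum_const,
    Finset.card_univ, Fintype.card_fin, nsmul_eq_mul, mul_pow, ← Finset.mul_sum,
    ← Finset.sum_mul]
  ring

variable (τ) in
/-- the symmetric functions of the last classes come from the partial flags -/
theorem sym [Nc X] {k : ℕ} (hk : k < N) (T : TB X (Fin N)) (hT : T.In (pab N k)) (f : C(Z, X))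
    (hT' : T'.In (tri (Fin N))) (li : TB.LI (pab N k) (T.pb f) T')
    (hY : ∀ a, T'.Ch (fun g => g a a ^ N) Matrix.det (Y a)) : ∃ χ : (τ.E X)[X],
      χ.map (τ.pe f).toRingHom = ∏ a ∈ Finset.univ.filter fun a : Fin N => k ≤ a,
        (Polynomial.X - C (τ.c (Y a))) := by
  have : Nonempty {a : Fin N // k ≤ a} := ⟨⟨⟨k, hk⟩, le_rfl⟩⟩
  obtain ⟨V, x, h1, h2, h3, h⟩ := exists_tri (τ := τ) ⟨k, hk⟩ hT' hY
  have h4 : V.tb.In (pab N k) := h1.mono tri_pab
  have h5 : (V.quo h4).Iso (VB.diag fun a : {a : Fin N // k ≤ a} => x a) :=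
    VB.tri_iso (V.quo h4) (fun i j y hi hj a b e => h1 i j y hi hj e) fun a => h3 a
  have h6 : TB.LI (pab N k) V.tb T' := h2.mono tri_pab
  obtain ⟨χ, hχ⟩ := exists_chiT τ (T.quo hT)
  have h7 := hχ Z f _ (((li.quo (hT.pb f) (hT'.mono tri_pab)).trans
    (h6.quo h4 (hT'.mono tri_pab)).symm).trans h5.li)
  set r := Fintype.card {a : Fin N // k ≤ a} with hr
  have c1 : Chr (pab N k) (r * N) _ := chr_blkQ.pow N
  have c2 : Chr (pab N k) (r * N) fun g => g.det ^ r := by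
    have := (chr_det (pab N k)).pow r
    rwa [Fintype.card_fin, mul_comm] at this
  have h8 : τ.pe f (τ.c (T.lb hT c1 c2)) =
      N • ∑ a : {a : Fin N // k ≤ a}, τ.c (x a) - r • ∑ a, τ.c (x a) := by
    rw [← c_pb, c_iso (((TB.ch_lb hT c1 c2).pb f).iso (TB.ch_lb (hT'.mono tri_pab) c1 c2) c1 c2
      (hT.pb f) (hT'.mono tri_pab) li), ← c_iso ((TB.ch_lb h4 c1 c2).iso
      (TB.ch_lb (hT'.mono tri_pab) c1 c2) c1 c2 h4 (hT'.mono tri_pab) h6), ← p1_diag h5,
      ← p1_diag (VB.tri_iso _ h1 h3), p1_det, p1_det, eq_sub_iff_add_eq, ← c_pow, ← c_pow,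
      ← c_mul]
    exact c_iso (LB.iso_ref _ _ V.U (fun i => (i, i)) (fun i => i) V.op V.cov
      (fun i x h => ⟨h, h⟩) (fun _ => subset_rfl) fun i j x hi hj =>
        div_mul_cancel₀ _ (pow_ne_zero _ (V.nz hi hj)))
  have r0 : (r : ℂ) ≠ 0 := Nat.cast_ne_zero.2 Fintype.card_ne_zero
  obtain ⟨χ', h9⟩ := lift_shift (τ.pe f) h7 (s := N / r)
    (div_ne_zero (Nat.cast_ne_zero.2 (by omega)) r0) ((r : ℂ)⁻¹ • τ.c (T.lb hT c1 c2))
  refine ⟨χ', h9.trans ?_⟩
  rw [Finset.prod_subtype (p := fun a : Fin N => k ≤ a) _ (by simp)]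
  refine Finset.prod_congr rfl fun a _ => ?_
  rw [map_smul, h8, h]
  congr 2
  simp only [← Nat.cast_smul_eq_nsmul ℂ]
  match_scalars <;> (field_simp; try ring)

end sym

/-- one step of a tower -/
theorem step [Nc X] [Nc Y] [Nc Z] (π : C(Y, X)) (P : C(Z, Y)) (hP : Function.Injective (τ.pb P))
    {y : τ.E Y} {z : k → τ.E Z} {s : Finset k} {o : k} (ho : o ∈ s) (hy : τ.pe P y = z o)
    {χ : (τ.E X)[X]} (hχ : χ.map (τ.pe (π.comp P)).toRingHom = ∏ a ∈ s, (Polynomial.X - C (z a)))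
    (G : τ.H Y →+ τ.H X) (hG : ∀ a, ∀ i < s.card,
      G (τ.pb π a * (y : τ.H Y) ^ i) = if i + 1 = s.card then a else 0) (g : (τ.E X)[X]) :
    Function.Injective (τ.pb (π.comp P)) ∧ ∃ (t : τ.E X) (w : τ.E Y),
      τ.pe (π.comp P) t = ∑ a ∈ s, g.eval₂ (τ.pe (π.comp P)).toRingHom (z a) ∧
      τ.pe P w = g.eval₂ (τ.pe (π.comp P)).toRingHom (z o) * ∏ b ∈ s.erase o, (z o - z b) ∧
      ∀ a, G (τ.pb π a * w) = a * t := by
  have h0 := Finset.card_pos.2 ⟨o, ho⟩
  have h1 : Function.Injective (τ.pb (π.comp P)) := fun a b e => by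
    rw [τ.pb_comp, τ.pb_comp] at e
    have := hG a (s.card - 1) (by omega)
    rw [hP e, hG b _ (by omega), if_pos (by omega), if_pos (by omega)] at this
    exact this.symm
  have h2 : ∀ p : (τ.E X)[X], τ.pe P (p.eval₂ (τ.pe π).toRingHom y) =
      (p.map (τ.pe (π.comp P)).toRingHom).eval (z o) := fun p => by
    rw [eval_map, ← hy]
    refine (hom_eval₂ p _ (τ.pe P).toRingHom y).trans ?_
    congr 1
    exact RingHom.ext fun a => (pe_comp P π a).symm
  refine ⟨h1, ((g * derivative χ) %ₘ χ).coeff (s.card - 1),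
    (g * derivative χ).eval₂ (τ.pe π).toRingHom y, ?_, ?_, fun a => ?_⟩
  · rcases subsingleton_or_nontrivial (τ.E Z) with hs | hs
    · exact Subsingleton.elim _ _
    have h3 : χ.Monic := monic_of_injective (pe_inj h1) (hχ ▸ monic_prod_X_sub_C z s)
    refine (coeff_map (τ.pe (π.comp P)).toRingHom _).symm.trans ?_
    rw [map_modByMonic _ h3, Polynomial.map_mul, ← derivative_map, hχ, coeff_mod_prod]
    simp only [eval_map]
  · rw [h2, Polynomial.map_mul, ← derivative_map, hχ, eval_mul, eval_der_prod _ ho, eval_map]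
  · rcases subsingleton_or_nontrivial (τ.E Z) with hs | hs
    · have : (1 : τ.H X) = 0 := congrArg Subtype.val (pe_inj h1 (Subsingleton.elim _ _) :
        (1 : τ.E X) = 0)
      exact (subsingleton_of_zero_eq_one this.symm).elim _ _
    have h3 : χ.Monic := monic_of_injective (pe_inj h1) (hχ ▸ monic_prod_X_sub_C z s)
    have : Nontrivial (τ.E X) := (τ.pe (π.comp P)).toRingHom.domain_nontrivial
    have h4 : χ.degree = s.card := by
      rw [← degree_map_eq_of_injective (f := (τ.pe (π.comp P)).toRingHom) (pe_inj h1), hχ,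
        degree_eq_natDegree (monic_prod_X_sub_C z s).ne_zero,
        natDegree_finsetProd_X_sub_C_eq_card]
    have h5 : χ.eval₂ (τ.pe π).toRingHom y = 0 := pe_inj hP (by
      rw [h2, hχ, map_zero, eval_prod]
      exact Finset.prod_eq_zero ho (by simp))
    rw [← eval₂_modByMonic_eq_self_of_root h5,
      eval₂_of_lt _ _ (h4 ▸ degree_modByMonic_lt _ h3), AddSubmonoidClass.coe_finsetSum,
      Finset.mul_sum, map_sum, Finset.sum_eq_single ⟨s.card - 1, by omega⟩]
    · refine (congrArg G ?_).trans ((hG _ (s.card - 1) (by omega)).trans (if_pos (by omega)))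
      rw [map_mul, mul_assoc]
      rfl
    · intro i _ hi
      refine (congrArg G ?_).trans ((hG (a * ((g * derivative χ) %ₘ χ).coeff i) i i.2).trans
        (if_neg fun e => hi (Fin.ext (by simp only; omega))))
      rw [map_mul, mul_assoc]
      rfl
    · simp

/-- the product of the positive roots of the last indices -/
def dis {R : Type} [CommRing R] {N : ℕ} (z : Fin N → R) (k : ℕ) : R :=
  ∏ a ∈ Finset.univ.filter fun a : Fin N => k ≤ a, ∏ b ∈ Finset.Ioi a, (z a - z b)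

theorem dis_succ {R : Type} [CommRing R] {N : ℕ} (z : Fin N → R) (o : Fin N) :
    dis z o = (∏ b ∈ (Finset.univ.filter fun a : Fin N => (o : ℕ) ≤ a).erase o, (z o - z b)) *
      dis z (o + 1) := by
  rw [dis, dis, ← Finset.mul_prod_erase _ _ (a := o) (by simp)]
  congr 1
  · refine Finset.prod_congr ?_ fun _ _ => rfl
    ext b
    simp only [Finset.mem_Ioi, Finset.mem_erase, Finset.mem_filter, Finset.mem_univ, true_and,
      Fin.lt_def, ne_eq, Fin.ext_iff]
    omega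
  · refine Finset.prod_congr ?_ fun _ _ => rfl
    ext b
    simp only [Finset.mem_erase, Finset.mem_filter, Finset.mem_univ, true_and, ne_eq, Fin.ext_iff]
    omega

theorem card_ge {N : ℕ} (o : Fin N) :
    (Finset.univ.filter fun a : Fin N => (o : ℕ) ≤ a).card = N - o := by
  rw [← Fin.card_Ici]
  congr 1
  ext a
  simp

/-- a tower of projective bundles with the maps given by the top coefficients -/
structure Tow (τ : Th) (N : ℕ) (F : ℕ → Type) [∀ k, TopologicalSpace (F k)] [∀ k, Nc (F k)]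
    (Z : Type) [TopologicalSpace Z] [Nc Z] where
  π : ∀ k, C(F (k + 1), F k)
  P : ∀ k, C(Z, F k)
  y : ∀ k, τ.E (F (k + 1))
  z : Fin N → τ.E Z
  G : ∀ k, τ.H (F (k + 1)) →+ τ.H (F k)
  Γ : ∀ k, τ.H Z →+ τ.H (F k)
  hP : ∀ k < N, (π k).comp (P (k + 1)) = P k
  hy : ∀ a : Fin N, τ.pe (P (a + 1)) (y a) = z a
  sym : ∀ k < N, ∃ χ : (τ.E (F k))[X], χ.map (τ.pe (P k)).toRingHom =
    ∏ a ∈ Finset.univ.filter fun a : Fin N => k ≤ a, (Polynomial.X - C (z a))
  hG : ∀ k < N, ∀ a, ∀ i < N - k,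
    G k (τ.pb (π k) a * (y k : τ.H _) ^ i) = if i + 1 = N - k then a else 0
  top : ∀ a, Γ N (τ.pb (P N) a) = a
  hΓ : ∀ k < N, ∀ b, Γ k b = G k (Γ (k + 1) b)

namespace Tow

variable {N : ℕ} {F : ℕ → Type} [∀ k, TopologicalSpace (F k)] [∀ k, Nc (F k)] [Nc Z]
  (W : Tow τ N F Z)

theorem one (o : Fin N) (h : ∀ a, W.Γ (o + 1) (τ.pb (W.P (o + 1)) a * (dis W.z (o + 1) : τ.E Z)) =
    (N - (o + 1)).factorial • a) (g : (τ.E (F o))[X]) : ∃ t : τ.E (F o),
      τ.pe (W.P o) t = ∑ a ∈ Finset.univ.filter fun a : Fin N => (o : ℕ) ≤ a,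
        g.eval₂ (τ.pe (W.P o)).toRingHom (W.z a) ∧ Function.Injective (τ.pb (W.P o)) ∧
      ∀ a, W.Γ o (τ.pb (W.P o) a * (g.eval₂ (τ.pe (W.P o)).toRingHom (W.z o) * dis W.z o :
        τ.E Z)) = (N - (o + 1)).factorial • (a * t) := by
  have h1 : Function.Injective (τ.pb (W.P (o + 1))) := fun a b e => by
    have := h a
    rw [e, h b, ← Nat.cast_smul_eq_nsmul ℂ, ← Nat.cast_smul_eq_nsmul ℂ] at this
    exact smul_right_injective _ (Nat.cast_ne_zero.2 (Nat.factorial_ne_zero _)) this.symm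
  obtain ⟨χ, hχ⟩ := W.sym o o.2
  rw [← W.hP o o.2] at hχ ⊢
  obtain ⟨h2, t, w, e1, e2, e3⟩ := step (W.π o) (W.P (o + 1)) h1 (o := o) (by simp) (W.hy o) hχ
    (W.G o) (by rw [card_ge]; exact W.hG o o.2) g
  refine ⟨t, e1, h2, fun a => ?_⟩
  rw [W.hΓ o o.2, dis_succ, ← mul_assoc, ← e2, τ.pb_comp, ← e3, ← map_nsmul, ← h,
    map_mul (τ.pb _), mul_assoc]
  rfl

theorem full (k : ℕ) (hk : k ≤ N) :
    ∀ a, W.Γ k (τ.pb (W.P k) a * (dis W.z k : τ.E Z)) = (N - k).factorial • a := by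
  induction hk using Nat.decreasingInduction with
  | self =>
    intro a
    rw [dis, Finset.filter_false_of_mem fun a _ => not_le.2 a.2]
    simp [W.top]
  | of_succ k hk ih =>
    intro a
    obtain ⟨t, e1, h1, e2⟩ := W.one ⟨k, hk⟩ ih 1
    have e3 : t = (N - k : ℕ) := pe_inj h1 (by
      rw [e1, map_natCast]
      simp [card_ge ⟨k, hk⟩])
    have := e2 a
    rw [eval₂_one, one_mul, e3] at this
    refine this.trans ?_
    rw [show N - k = N - (k + 1) + 1 by omega, Nat.factorial_succ, mul_comm, mul_smul]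
    congr 1
    rw [nsmul_eq_mul', SubringClass.coe_natCast]

theorem inj (k : ℕ) (hk : k ≤ N) : Function.Injective (τ.pb (W.P k)) := fun a b e => by
  have := W.full k hk a
  rw [e, W.full k hk b, ← Nat.cast_smul_eq_nsmul ℂ, ← Nat.cast_smul_eq_nsmul ℂ] at this
  exact smul_right_injective _ (Nat.cast_ne_zero.2 (Nat.factorial_ne_zero _)) this.symm

/-- the trace formula for powers of the first class -/
theorem pow (hN : 0 < N) (j : ℕ) {t : τ.E (F 0)} (ht : τ.pe (W.P 0) t = ∑ a, W.z a ^ j)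
    (a : τ.H (F 0)) : W.Γ 0 (τ.pb (W.P 0) a * (W.z ⟨0, hN⟩ ^ j * dis W.z 0 : τ.E Z)) =
      (N - 1).factorial • (a * t) := by
  obtain ⟨t', e1, h1, e2⟩ := W.one ⟨0, hN⟩ (W.full 1 hN) (Polynomial.X ^ j)
  have e3 : t = t' := pe_inj h1 (by
    rw [e1, ht]
    simp)
  have := e2 a
  rw [eval₂_pow, eval₂_X, ← e3] at this
  exact this

variable {T' : TB Z (Fin N)} {Y : Fin N → LB Z}

theorem pow_one (hN : 0 < N) (hT' : T'.In (tri (Fin N)))
    (hY : ∀ a, T'.Ch (fun g => g a a ^ N) Matrix.det (Y a)) (hz : ∀ a, W.z a = τ.c (Y a))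
    (a : τ.H (F 0)) : W.Γ 0 (τ.pb (W.P 0) a * (W.z ⟨0, hN⟩ * dis W.z 0 : τ.E Z)) = 0 := by
  have := W.pow hN 1 (t := 0) (by simp [hz, sum_y ⟨0, hN⟩ hT' hY]) a
  simpa using this

theorem pow_two (hN : 0 < N) (hT' : T'.In (tri (Fin N)))
    (hY : ∀ a, T'.Ch (fun g => g a a ^ N) Matrix.det (Y a)) (hz : ∀ a, W.z a = τ.c (Y a))
    {T : TB (F 0) (Fin N)} (li : T'.End.Iso (T.End.pb (W.P 0))) (a : τ.H (F 0)) :
    W.Γ 0 (τ.pb (W.P 0) a * (W.z ⟨0, hN⟩ ^ 2 * dis W.z 0 : τ.E Z)) =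
      (N.factorial / 2 : ℂ) • (a * τ.p2 T.End) := by
  rw [W.pow hN 2 (t := (N / 2 : ℂ) • τ.p2 T.End) ?_ a]
  · obtain ⟨r, rfl⟩ := Nat.exists_eq_succ_of_ne_zero hN.ne'
    rw [SetLike.val_smul, mul_smul_comm, ← Nat.cast_smul_eq_nsmul ℂ, smul_smul, Nat.factorial_succ]
    congr 1
    push_cast
    ring
  · have := sum_y_sq (τ := τ) ⟨0, hN⟩ hT' hY
    rw [map_smul, ← p2_pb, ← p2_iso li, div_eq_inv_mul, mul_smul, Nat.cast_smul_eq_nsmul, ← this,
      two_mul, ← two_smul ℂ, smul_smul, inv_mul_cancel₀ two_ne_zero, one_smul]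
    simp only [hz]

end Tow

end Th

end P275CC
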