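import Vale.Agent.P275CC.Ev

/-! The Chern polynomial, the splitting principle and the first two power sums. -/

set_option linter.unusedSectionVars false
set_option backward.isDefEq.respectTransparency false

open Set Matrix Topology Filter Polynomial

noncomputable section

namespace P275CC

variable {X Y Z : Type} [TopologicalSpace X] [TopologicalSpace Y] [TopologicalSpace Z]
variable {n m k : Type} [Fintype n] [DecidableEq n] [Fintype m] [DecidableEq m] [Fintype k]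
  [DecidableEq k]

/-! ### sums of line bundles -/

theorem VB.diag_g (L : k → LB X) (i j : (VB.diag L).ι) (x : X) :
    (VB.diag L).g i j x = Matrix.diagonal fun a => (L a).g (i a) (j a) x := rfl

theorem VB.mem_diag {L : k → LB X} {i : (VB.diag L).ι} {x : X} :
    x ∈ (VB.diag L).U i ↔ ∀ a, x ∈ (L a).U (i a) := mem_iInter

theorem VB.diag_pb (L : k → LB X) (f : C(Y, X)) :
    VB.Iso ((VB.diag L).pb f) (VB.diag fun a => (L a).pb f) :=
  VB.iso_ref _ _ ((VB.diag L).pb f).U (fun i => i) (fun i => i) ((VB.diag L).pb f).op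
    ((VB.diag L).pb f).cov (fun _ => subset_rfl)
    (fun _ x h => VB.mem_diag.2 ((VB.mem_diag (L := L) (x := f x)).1 h)) fun _ _ _ _ _ => rfl

theorem VB.diag_sum (L : n → LB X) (L' : m → LB X) :
    ((VB.diag L).sum (VB.diag L')).Iso (VB.diag (Sum.elim L L')) := by
  refine VB.iso_ref _ _ ((VB.diag L).sum (VB.diag L')).U (fun i => i)
    (fun i s => Sum.rec (motive := fun s => (Sum.elim L L' s).ι) i.1 i.2 s)
    ((VB.diag L).sum (VB.diag L')).op ((VB.diag L).sum (VB.diag L')).cov (fun _ => subset_rfl)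
    (fun i x h => VB.mem_diag.2 fun s => ?_) fun i j x _ _ => ?_
  · rcases s with s | s
    · exact VB.mem_diag.1 h.1 s
    · exact VB.mem_diag.1 h.2 s
  · change fromBlocks (Matrix.diagonal _) 0 0 (Matrix.diagonal _) = Matrix.diagonal _
    rw [fromBlocks_diagonal]
    congr 1
    funext s
    rcases s with s | s <;> rfl

theorem bij_perm (e : m ≃ n) : Function.Bijective ((1 : Matrix n n ℂ).submatrix e id).mulVec :=
  bij_of_inv (g := (1 : Matrix n n ℂ).submatrix id e)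
    (by rw [submatrix_mul_equiv, Matrix.one_mul, submatrix_id_id])
    (by rw [← submatrix_mul _ _ _ _ _ Function.bijective_id, Matrix.one_mul, submatrix_one_equiv])

theorem perm_mul (e : m ≃ n) (g : Matrix n n ℂ) :
    (1 : Matrix n n ℂ).submatrix e id * g = g.submatrix e e * (1 : Matrix n n ℂ).submatrix e id := by
  rw [submatrix_mul_equiv, Matrix.mul_one]
  have := submatrix_mul (1 : Matrix n n ℂ) g e id id Function.bijective_id
  rw [submatrix_id_id, Matrix.one_mul] at this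
  exact this.symm

theorem VB.diag_equiv (L : n → LB X) (e : m ≃ n) : (VB.diag L).Iso (VB.diag (L ∘ e)) :=
  VB.iso_loc _ _ (VB.diag L).U (fun i => i) (fun i a => i (e a))
    (fun _ _ => (1 : Matrix n n ℂ).submatrix e id) (VB.diag L).op (VB.diag L).cov
    (fun _ => subset_rfl) (fun _ _ h => VB.mem_diag.2 fun a => VB.mem_diag.1 h (e a))
    (fun _ => continuousOn_const)
    (fun i j x _ _ => by
      rw [perm_mul, VB.diag_g, submatrix_diagonal_equiv]
      rfl) fun _ _ _ => bij_perm e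

/-- renumbering -/
def VB.re (V : VB X n) (e : m ≃ n) : VB X m where
  toCov := V.toCov
  g i j x := (V.g i j x).submatrix e e
  ct i j := continuousOn_pi.2 fun _ => continuousOn_pi.2 fun _ => ctOn_ent (V.ct i j) _ _
  id i x h := by rw [V.id i x h, submatrix_one_equiv]
  cc i j l x hi hj hl := by rw [submatrix_mul_equiv, V.cc i j l x hi hj hl]

theorem VB.iso_re (V : VB X n) (e : m ≃ n) : V.Iso (V.re e) :=
  VB.iso_loc _ _ V.U (fun i => i) (fun i => i) (fun _ _ => (1 : Matrix n n ℂ).submatrix e id)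
    V.op V.cov (fun _ => subset_rfl) (fun _ => subset_rfl) (fun _ => continuousOn_const)
    (fun _ _ _ _ _ => perm_mul e _) fun _ _ _ => bij_perm e

theorem VB.iso_of_isEmpty [IsEmpty n] [IsEmpty m] (V : VB X n) (W : VB X m) : V.Iso W :=
  ⟨fun _ _ _ => 0, ⟨fun _ _ => continuousOn_const, fun _ _ _ _ _ _ _ _ _ _ =>
    Subsingleton.elim _ _⟩, fun _ _ _ _ _ => ⟨fun _ _ _ => Subsingleton.elim _ _,
      fun _ => ⟨0, Subsingleton.elim _ _⟩⟩⟩

theorem VB.diag_congr {L L' : k → LB X} (h : ∀ a, (L a).Iso (L' a)) :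
    (VB.diag L).Iso (VB.diag L') := by
  choose s hs nz using h
  refine ⟨fun i j x => Matrix.diagonal fun a => s a (j a, i a) x, ⟨fun i j => ?_, ?_⟩,
    fun i j x hi hj => bij_of_det ?_⟩
  · exact continuous_id.matrix_diagonal.comp_continuousOn (continuousOn_pi.2 fun a =>
      ((hs a).1 _).mono fun x h => ⟨⟨VB.mem_diag.1 h.1.2 a, VB.mem_diag.1 h.1.1 a⟩, trivial⟩)
  · intro i i' j j' x hi hi' hj hj' _
    rw [VB.diag_g, VB.diag_g, diagonal_mul_diagonal, diagonal_mul_diagonal]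
    congr 1
    funext a
    have e : s a (j a, i a) x = (L' a).g (j a) (j' a) x * (L a).g (i' a) (i a) x *
        s a (j' a, i' a) x := (hs a).2 (j a, i a) (j' a, i' a) x
      ⟨VB.mem_diag.1 hj a, VB.mem_diag.1 hi a⟩ ⟨VB.mem_diag.1 hj' a, VB.mem_diag.1 hi' a⟩ trivial
    have e' := (L a).inv (VB.mem_diag.1 hi' a) (VB.mem_diag.1 hi a)
    rw [e]
    linear_combination (L' a).g (j a) (j' a) x * s a (j' a, i' a) x * e'
  · rw [det_diagonal]
    exact Finset.prod_ne_zero_iff.2 fun a _ =>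
      nz a (j a, i a) x ⟨VB.mem_diag.1 hj a, VB.mem_diag.1 hi a⟩

/-- the projection of a sum of line bundles on one summand -/
theorem VB.hom_proj (L : k → LB X) (a : k) : (VB.diag L).Hom (L a).vb
    fun i j x => Matrix.of fun _ b => if b = a then (L a).g (j ()) (i a) x else 0 := by
  refine ⟨fun i j => continuousOn_pi.2 fun _ => continuousOn_pi.2 fun b => ?_, ?_⟩
  · by_cases e : b = a
    · simp only [Matrix.of_apply, if_pos e]
      exact ((L a).ct _ _).mono fun x h => ⟨LB.mem_vb.1 h.1.2, VB.mem_diag.1 h.1.1 a⟩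
    · simp only [Matrix.of_apply, if_neg e]
      exact continuousOn_const
  · intro i i' j j' x hi hi' hj hj' _
    rw [VB.diag_g, LB.vb_g]
    ext u b
    by_cases e : b = a
    · subst e
      simp [(L b).cc _ _ _ x (LB.mem_vb.1 hj) (VB.mem_diag.1 hi b) (VB.mem_diag.1 hi' b),
        (L b).cc _ _ _ x (LB.mem_vb.1 hj) (LB.mem_vb.1 hj') (VB.mem_diag.1 hi' b)]
    · simp [e]

theorem reflect_prod {R : Type} [CommRing R] (y : k → R) (s : Finset k) :
    (∏ a ∈ s, (Polynomial.X - C (y a))).natDegree ≤ s.card ∧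
    (reflect s.card (∏ a ∈ s, (Polynomial.X - C (y a)))).coeff 0 = 1 ∧
    (reflect s.card (∏ a ∈ s, (Polynomial.X - C (y a)))).coeff 1 = -∑ a ∈ s, y a ∧
    2 * (reflect s.card (∏ a ∈ s, (Polynomial.X - C (y a)))).coeff 2 =
      (∑ a ∈ s, y a) ^ 2 - ∑ a ∈ s, y a ^ 2 := by
  induction s using Finset.induction_on with
  | empty => simp [coeff_one]
  | insert a s ha ih =>
    obtain ⟨h0, h1, h2, h3⟩ := ih
    have e : reflect 1 (Polynomial.X - C (y a)) = 1 - C (y a) * Polynomial.X := by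
      rw [reflect_sub, reflect_one_X, reflect_C, pow_one]
    rw [Finset.prod_insert ha, Finset.card_insert_of_notMem ha, Finset.sum_insert ha,
      Finset.sum_insert ha, add_comm s.card 1,
      reflect_mul _ _ (natDegree_X_sub_C_le _) h0, e]
    refine ⟨natDegree_mul_le.trans (add_le_add (natDegree_X_sub_C_le _) h0), ?_, ?_, ?_⟩
    · simp [h1]
    · rw [sub_mul, one_mul, mul_assoc, coeff_sub, coeff_C_mul, coeff_X_mul, h1, h2]
      ring
    · rw [sub_mul, one_mul, mul_assoc, coeff_sub, coeff_C_mul, coeff_X_mul, mul_sub, h3, h2]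
      ring

namespace Th

variable {τ : Th}

/-- a line in a sum of line bundles -/
theorem prod_sub_eq_zero [Nc X] {l : LB X} {W : VB X n} {a} (ha : l.vb.Hom W a)
    (hi : ∀ i j x, x ∈ l.vb.U i → x ∈ W.U j → Function.Injective (a i j x).mulVec)
    {L : k → LB X} (h : W.Iso (VB.diag L)) : ∏ b, (τ.c l - τ.c (L b)) = 0 := by
  obtain ⟨f, hf, hb⟩ := h
  obtain ⟨F, hF, e⟩ := ha.comp hf
  choose G hG e' using fun b => hF.comp (VB.hom_proj L b)
  have := prod_eq_zero (τ := τ) (fun b => τ.c ((L b).mul l.dual)) _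
    (fun b => (LB.sec_of_hom (hG b)).isOpen_NZ) (fun x => ?_)
    fun b => vn_sec (LB.sec_of_hom (hG b))
  · simp only [c_mul, c_dual, ← sub_eq_add_neg] at this
    simp only [← neg_sub (τ.c (L _)), Finset.prod_neg, this, mul_zero]
  · obtain ⟨i, h1⟩ := l.cov x
    obtain ⟨j, h2⟩ := W.cov x
    obtain ⟨J, h3⟩ := (VB.diag L).cov x
    have h1' : x ∈ l.vb.U fun _ => i := LB.mem_vb.2 h1
    have h4 : Function.Injective (F (fun _ => i) J x).mulVec := by
      rw [e _ j J x h1' h2 h3 trivial, mulVec_mul]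
      exact (hb _ _ x h2 h3).1.comp (hi _ _ x h1' h2)
    obtain ⟨b, hb'⟩ := Function.ne_iff.1 (mulVec_ne h4 (v := 1) one_ne_zero)
    refine ⟨b, (J b, i), ⟨VB.mem_diag.1 h3 b, h1⟩, ?_⟩
    change G b (fun _ => i) (fun _ => J b) x () () ≠ 0
    rw [e' b _ J (fun _ => J b) x h1' h3 (LB.mem_vb.2 (VB.mem_diag.1 h3 b)) trivial]
    simpa [Matrix.mul_apply, (L b).id _ x (VB.mem_diag.1 h3 b), mulVec, dotProduct] using hb'

variable (τ) in
/-- `χ` is the Chern polynomial of `V` -/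
def Ch [Nc X] (V : VB X n) (χ : (τ.E X)[X]) : Prop :=
  (χ - Polynomial.X ^ Fintype.card n).degree < (Fintype.card n : WithBot ℕ) ∧
    χ.eval₂ (τ.pe V.tb.π).toRingHom (τ.c V.tb.taut.lb) = 0

theorem isEmpty_P [IsEmpty n] (T : TB X n) : IsEmpty T.P := ⟨fun p => by
  obtain ⟨i, hi⟩ := T.cov (T.π p)
  obtain ⟨a, -⟩ := PJ.ex (p.2.1 i hi)
  exact isEmptyElim a⟩

theorem lhE_lb [Nc X] (V : VB X n) : Function.Bijective fun a : Fin (Fintype.card n) → τ.E X =>
    ∑ i, τ.pe V.tb.π (a i) * τ.c V.tb.taut.lb ^ (i : ℕ) := by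
  refine lhE _ _ (dg_c1 _) _ ?_
  rcases h : Fintype.card n with _ | r
  · have : IsEmpty n := Fintype.card_eq_zero_iff.1 h
    have := isEmpty_P V.tb
    exact ⟨fun _ _ _ => Subsingleton.elim _ _,
      fun z => ⟨0, (τ.empty _ _).trans (τ.empty _ _).symm⟩⟩
  · exact lh_lb V h

theorem eval₂_of_lt {R S : Type} [CommRing R] [CommRing S] (φ : R →+* S) (y : S) {N : ℕ}
    {p : R[X]} (h : p.degree < N) : p.eval₂ φ y = ∑ i : Fin N, φ (p.coeff i) * y ^ (i : ℕ) := by
  rcases eq_or_ne p 0 with rfl | h0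
  · simp
  · rw [eval₂_eq_sum_range' φ ((natDegree_lt_iff_degree_lt h0).2 h),
      Fin.sum_univ_eq_sum_range fun i => φ (p.coeff i) * y ^ i]

theorem exists_ch [Nc X] (V : VB X n) : ∃ χ, τ.Ch V χ := by
  obtain ⟨a, ha⟩ := (lhE_lb (τ := τ) V).2 (τ.c V.tb.taut.lb ^ Fintype.card n)
  refine ⟨Polynomial.X ^ Fintype.card n - ∑ i, C (a i) * Polynomial.X ^ (i : ℕ), ?_, ?_⟩
  · rw [sub_sub_cancel_left, degree_neg]
    exact degree_sum_fin_lt a
  · rw [eval₂_sub, eval₂_pow, eval₂_X, ← ha, eval₂_finsetSum]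
    simp

theorem Ch.unique [Nc X] {V : VB X n} {χ χ' : (τ.E X)[X]} (h : τ.Ch V χ) (h' : τ.Ch V χ') :
    χ = χ' := by
  have h1 : (χ - χ').degree < Fintype.card n := by
    rw [← sub_sub_sub_cancel_right χ χ' (Polynomial.X ^ Fintype.card n)]
    exact (degree_sub_le _ _).trans_lt (max_lt h.1 h'.1)
  have h2 := eval₂_of_lt (τ.pe V.tb.π).toRingHom (τ.c V.tb.taut.lb) h1
  rw [eval₂_sub, h.2, h'.2, sub_zero] at h2
  have h3 := (lhE_lb (τ := τ) V).1 (a₁ := fun i => (χ - χ').coeff i) (a₂ := 0)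
    (by simpa using h2.symm)
  rw [← sub_eq_zero]
  ext1 j
  by_cases hj : j < Fintype.card n
  · exact congrFun h3 ⟨j, hj⟩
  · exact coeff_eq_zero_of_degree_lt (h1.trans_le (by exact_mod_cast not_lt.1 hj))

variable (τ) in
/-- the Chern polynomial -/
def chi [Nc X] (V : VB X n) : (τ.E X)[X] := (exists_ch V).choose

theorem ch_chi [Nc X] (V : VB X n) : τ.Ch V (τ.chi V) := (exists_ch V).choose_spec

theorem c_lb [Nc X] [Nc Y] {V : VB X n} {f : C(Y, X)} (L : V.tb.Ln f) :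
    τ.c L.lb = τ.pe L.lift (τ.c V.tb.taut.lb) := by rw [c_iso L.iso_lb, c_pb]

/-- the class of any line is a root of the Chern polynomial -/
theorem chi_ln [Nc X] [Nc Y] {V : VB X n} {f : C(Y, X)} (L : V.tb.Ln f) :
    (τ.chi V).eval₂ (τ.pe f).toRingHom (τ.c L.lb) = 0 := by
  have := congrArg (τ.pe L.lift).toRingHom (ch_chi (τ := τ) V).2
  rw [hom_eval₂, map_zero] at this
  rw [c_lb, ← this]
  congr 1
  exact RingHom.ext fun a => pe_comp L.lift V.tb.π a

theorem chi_pb [Nc X] [Nc Y] (V : VB X n) (f : C(Y, X)) :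
    τ.chi (V.pb f) = (τ.chi V).map (τ.pe f).toRingHom := by
  refine (ch_chi _).unique ⟨?_, ?_⟩
  · have := (degree_map_le (f := (τ.pe f).toRingHom)).trans_lt (ch_chi (τ := τ) V).1
    rwa [Polynomial.map_sub, Polynomial.map_pow, map_X] at this
  · rw [eval₂_map, ← chi_ln (τ := τ) (TB.Ln.down (T := V.tb) (f := f) (VB.tb (V.pb f)).taut)]
    congr 1
    exact RingHom.ext fun a => (pe_comp _ f a).symm

theorem chi_diag [Nc X] {V : VB X n} {L : n → LB X} (h : V.Iso (VB.diag L)) :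
    τ.chi V = ∏ a, (Polynomial.X - C (τ.c (L a))) := by
  refine (ch_chi _).unique ⟨?_, ?_⟩
  · rcases subsingleton_or_nontrivial (τ.E X) with hs | hs
    · rw [Subsingleton.elim (_ - _) 0, degree_zero]
      exact WithBot.bot_lt_coe _
    · have h1 := monic_prod_X_sub_C (fun a => τ.c (L a)) Finset.univ
      have h2 : (∏ a, (Polynomial.X - C (τ.c (L a)))).degree = (Fintype.card n : WithBot ℕ) := by
        rw [degree_eq_natDegree h1.ne_zero, natDegree_finsetProd_X_sub_C_eq_card,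
          Finset.card_univ]
      rw [← h2]
      exact degree_sub_lt_left (by rw [h2, degree_X_pow]) h1.ne_zero
        (by rw [h1.leadingCoeff, leadingCoeff_X_pow])
  · rw [eval₂_finsetProd]
    have := prod_sub_eq_zero (τ := τ) V.tb.taut.hom_lb (fun i j y hi hj => inj_cm
      (mulVec_ne (V.bij hj (LB.mem_vb.1 hi).1).1 (TB.Ln.vec_ne (LB.mem_vb.1 hi))))
      ((h.pb V.tb.π).trans (VB.diag_pb L _))
    simpa [c_pb] using this

theorem split_fin (r : ℕ) : ∀ (X : Type) [TopologicalSpace X] [Nc X] (V : VB X (Fin r)),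
    ∃ (Y : Type) (_ : TopologicalSpace Y) (_ : Nc Y) (f : C(Y, X)),
      Function.Injective (τ.pb f) ∧ ∃ L : Fin r → LB Y, VB.Iso (V.pb f) (VB.diag L) := by
  induction r with
  | zero =>
    intro X _ _ V
    exact ⟨X, _, inferInstance, ContinuousMap.id X, fun a b e => by rwa [τ.pb_id, τ.pb_id] at e,
      Fin.elim0, VB.iso_of_isEmpty _ _⟩
  | succ r ih =>
    intro X _ _ V
    obtain ⟨Y, _, _, f, hf, L, hL⟩ := ih _ V.tb.taut.quo
    refine ⟨Y, _, inferInstance, V.tb.π.comp f, fun a b e => ?_, _,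
      ((V.tb.taut.ex.split.pb f).trans ((VB.Iso.sum (VB.diag_pb _ f) hL).trans
        (VB.diag_sum _ _))).trans (VB.diag_equiv _ (Fintype.equivOfCardEq (by simp [add_comm])))⟩
    rw [τ.pb_comp, τ.pb_comp] at e
    exact inj_π V.tb (hf e)

variable (τ) in
/-- **Splitting principle.** -/
theorem split [Nc X] (V : VB X n) : ∃ (Y : Type) (_ : TopologicalSpace Y) (_ : Nc Y)
    (f : C(Y, X)), Function.Injective (τ.pb f) ∧ ∃ L : n → LB Y, VB.Iso (V.pb f) (VB.diag L) := by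
  obtain ⟨Y, _, _, f, hf, L, hL⟩ := split_fin (τ := τ) _ X (V.re (Fintype.equivFin n).symm)
  exact ⟨Y, _, inferInstance, f, hf, _,
    (((V.iso_re _).pb f).trans hL).trans (VB.diag_equiv _ (Fintype.equivFin n))⟩

variable (τ) in
theorem split₂ [Nc X] (V : VB X n) (W : VB X m) : ∃ (Y : Type) (_ : TopologicalSpace Y) (_ : Nc Y)
    (f : C(Y, X)), Function.Injective (τ.pb f) ∧ ∃ (L : n → LB Y) (L' : m → LB Y),
      VB.Iso (V.pb f) (VB.diag L) ∧ VB.Iso (W.pb f) (VB.diag L') := by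
  obtain ⟨Y, _, _, f, hf, L, hL⟩ := split τ V
  obtain ⟨Z, _, _, g, hg, L', hL'⟩ := split τ (W.pb f)
  refine ⟨Z, _, inferInstance, f.comp g, fun a b e => ?_, _, L',
    (hL.pb g).trans (VB.diag_pb L g), hL'⟩
  rw [τ.pb_comp, τ.pb_comp] at e
  exact hf (hg e)

variable (τ) in
/-- the sum of the Chern roots -/
def p1 [Nc X] (V : VB X n) : τ.E X := -(reflect (Fintype.card n) (τ.chi V)).coeff 1

variable (τ) in
/-- the sum of the squares of the Chern roots -/
def p2 [Nc X] (V : VB X n) : τ.E X :=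
  τ.p1 V ^ 2 - 2 * (reflect (Fintype.card n) (τ.chi V)).coeff 2

variable [Nc X]

theorem p1_pb [Nc Y] (V : VB X n) (f : C(Y, X)) : τ.p1 (V.pb f) = τ.pe f (τ.p1 V) := by
  rw [p1, p1, chi_pb, reflect_map, coeff_map, map_neg]
  rfl

theorem p2_pb [Nc Y] (V : VB X n) (f : C(Y, X)) : τ.p2 (V.pb f) = τ.pe f (τ.p2 V) := by
  rw [p2, p2, p1_pb, chi_pb, reflect_map, coeff_map, map_sub, map_pow, map_mul, map_ofNat]
  rfl

theorem p1_diag' {V : VB X n} {L : n → LB X} (h : V.Iso (VB.diag L)) :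
    τ.p1 V = ∑ a, τ.c (L a) := by
  rw [p1, chi_diag h, ← Finset.card_univ, (reflect_prod _ _).2.2.1, neg_neg]

theorem p2_diag' {V : VB X n} {L : n → LB X} (h : V.Iso (VB.diag L)) :
    τ.p2 V = ∑ a, τ.c (L a) ^ 2 := by
  rw [p2, p1_diag' h, chi_diag h, ← Finset.card_univ, (reflect_prod _ _).2.2.2, sub_sub_cancel]

theorem subs [IsEmpty X] : Subsingleton (τ.E X) :=
  ⟨fun _ _ => Subtype.ext ((τ.empty _ _).trans (τ.empty _ _).symm)⟩

theorem chi_diag' {V : VB X n} {L : m → LB X} (h : V.Iso (VB.diag L)) :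
    τ.chi V = ∏ a, (Polynomial.X - C (τ.c (L a))) := by
  rcases isEmpty_or_nonempty X with hX | ⟨⟨x⟩⟩
  · have := subs (τ := τ) (X := X)
    exact Subsingleton.elim _ _
  · have e := Fintype.equivOfCardEq (h.card x)
    rw [chi_diag (h.trans (VB.diag_equiv L e))]
    exact e.prod_comp fun a => Polynomial.X - C (τ.c (L a))

theorem p1_diag {V : VB X n} {L : m → LB X} (h : V.Iso (VB.diag L)) :
    τ.p1 V = ∑ a, τ.c (L a) := by
  rcases isEmpty_or_nonempty X with hX | ⟨⟨x⟩⟩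
  · exact subs.elim _ _
  · have e := Fintype.equivOfCardEq (h.card x)
    rw [p1_diag' (h.trans (VB.diag_equiv L e))]
    exact e.sum_comp fun a => τ.c (L a)

theorem p2_diag {V : VB X n} {L : m → LB X} (h : V.Iso (VB.diag L)) :
    τ.p2 V = ∑ a, τ.c (L a) ^ 2 := by
  rcases isEmpty_or_nonempty X with hX | ⟨⟨x⟩⟩
  · exact subs.elim _ _
  · have e := Fintype.equivOfCardEq (h.card x)
    rw [p2_diag' (h.trans (VB.diag_equiv L e))]
    exact e.sum_comp fun a => τ.c (L a) ^ 2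

theorem chi_iso {V : VB X n} {W : VB X m} (h : V.Iso W) : τ.chi V = τ.chi W := by
  obtain ⟨Y, _, _, f, hf, L, hL⟩ := split τ W
  refine map_injective (τ.pe f).toRingHom (pe_inj hf) ?_
  rw [← chi_pb, ← chi_pb, chi_diag hL, chi_diag' ((h.pb f).trans hL)]

theorem p1_iso {V : VB X n} {W : VB X m} (h : V.Iso W) : τ.p1 V = τ.p1 W := by
  obtain ⟨Y, _, _, f, hf, L, hL⟩ := split τ W
  refine pe_inj hf ?_
  rw [← p1_pb, ← p1_pb, p1_diag hL, p1_diag ((h.pb f).trans hL)]

theorem p2_iso {V : VB X n} {W : VB X m} (h : V.Iso W) : τ.p2 V = τ.p2 W := by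
  obtain ⟨Y, _, _, f, hf, L, hL⟩ := split τ W
  refine pe_inj hf ?_
  rw [← p2_pb, ← p2_pb, p2_diag hL, p2_diag ((h.pb f).trans hL)]

theorem chi_sum (V : VB X n) (W : VB X m) : τ.chi (V.sum W) = τ.chi V * τ.chi W := by
  obtain ⟨Y, _, _, f, hf, L, L', hL, hL'⟩ := split₂ τ V W
  refine map_injective (τ.pe f).toRingHom (pe_inj hf) ?_
  rw [Polynomial.map_mul, ← chi_pb, ← chi_pb, ← chi_pb, chi_diag hL, chi_diag hL',
    chi_diag (V := (V.sum W).pb f) ((hL.sum hL').trans (VB.diag_sum L L')), Fintype.prod_sum_type]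
  rfl

theorem p1_sum (V : VB X n) (W : VB X m) : τ.p1 (V.sum W) = τ.p1 V + τ.p1 W := by
  obtain ⟨Y, _, _, f, hf, L, L', hL, hL'⟩ := split₂ τ V W
  refine pe_inj hf ?_
  rw [map_add, ← p1_pb, ← p1_pb, ← p1_pb, p1_diag hL, p1_diag hL',
    p1_diag (V := (V.sum W).pb f) ((hL.sum hL').trans (VB.diag_sum L L')), Fintype.sum_sum_type]
  rfl

theorem p2_sum (V : VB X n) (W : VB X m) : τ.p2 (V.sum W) = τ.p2 V + τ.p2 W := by
  obtain ⟨Y, _, _, f, hf, L, L', hL, hL'⟩ := split₂ τ V W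
  refine pe_inj hf ?_
  rw [map_add, ← p2_pb, ← p2_pb, ← p2_pb, p2_diag hL, p2_diag hL',
    p2_diag (V := (V.sum W).pb f) ((hL.sum hL').trans (VB.diag_sum L L')), Fintype.sum_sum_type]
  rfl

theorem chi_ex {A : VB X n} {B : VB X m} {D : VB X k} (h : A.Ex B D) :
    τ.chi B = τ.chi A * τ.chi D := by rw [chi_iso h.split, chi_sum]

theorem p1_ex {A : VB X n} {B : VB X m} {D : VB X k} (h : A.Ex B D) :
    τ.p1 B = τ.p1 A + τ.p1 D := by rw [p1_iso h.split, p1_sum]

theorem p2_ex {A : VB X n} {B : VB X m} {D : VB X k} (h : A.Ex B D) :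
    τ.p2 B = τ.p2 A + τ.p2 D := by rw [p2_iso h.split, p2_sum]

theorem chi_vb (L : LB X) : τ.chi L.vb = Polynomial.X - C (τ.c L) := by
  rw [chi_diag (V := L.vb) (L := fun _ : Unit => L) (VB.Iso.refl _), Fintype.prod_unique]

theorem p1_vb (L : LB X) : τ.p1 L.vb = τ.c L := by
  rw [p1_diag (V := L.vb) (L := fun _ : Unit => L) (VB.Iso.refl _), Fintype.sum_unique]

theorem p2_vb (L : LB X) : τ.p2 L.vb = τ.c L ^ 2 := by
  rw [p2_diag (V := L.vb) (L := fun _ : Unit => L) (VB.Iso.refl _), Fintype.sum_unique]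

theorem p1_det (V : VB X n) : τ.p1 V = τ.c V.det := by
  obtain ⟨Y, _, _, f, hf, L, hL⟩ := split τ V
  refine pe_inj hf ?_
  rw [← p1_pb, ← c_pb, p1_diag hL, ← c_det_diag, ← c_iso hL.det]
  rfl

theorem dg_p1 (V : VB X n) : τ.Dg 2 (τ.p1 V : τ.H X) := by
  rw [p1_det]
  exact dg_c1 _

theorem dg_p2 (V : VB X n) : τ.Dg 4 (τ.p2 V : τ.H X) := by
  obtain ⟨Y, _, _, f, hf, L, hL⟩ := split τ V
  refine Dg.of_pb hf ?_
  rw [← coe_pe, ← p2_pb, p2_diag hL, AddSubmonoidClass.coe_finsetSum]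
  exact dg_sum fun a _ => (dg_c1 (L a)).pow 2

end Th

end P275CC
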