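import Vale.Agent.P275CC.Defs

/-! Maps of vector bundles: gluing, isomorphisms, splitting of exact sequences. -/

set_option linter.unusedSectionVars false

open Set Matrix Topology Filter
open scoped ComplexOrder

noncomputable section

namespace P275CC

variable {X Y : Type} [TopologicalSpace X] [TopologicalSpace Y]
variable {n m k l : Type} [Fintype n] [DecidableEq n] [Fintype m] [DecidableEq m] [Fintype k]
  [DecidableEq k] [Fintype l] [DecidableEq l]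

theorem ctOn_mul {s : Set X} {f : X → Matrix n m ℂ} {g : X → Matrix m k ℂ}
    (hf : ContinuousOn f s) (hg : ContinuousOn g s) : ContinuousOn (fun x => f x * g x) s :=
  (continuous_fst.matrix_mul continuous_snd).comp_continuousOn (hf.prodMk hg)

theorem ctOn_mulVec {s : Set X} {f : X → Matrix n m ℂ} {g : X → m → ℂ}
    (hf : ContinuousOn f s) (hg : ContinuousOn g s) : ContinuousOn (fun x => f x *ᵥ g x) s :=
  (continuous_fst.matrix_mulVec continuous_snd).comp_continuousOn (hf.prodMk hg)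

theorem ctOn_ct {s : Set X} {f : X → Matrix n m ℂ} (hf : ContinuousOn f s) :
    ContinuousOn (fun x => (f x)ᴴ) s :=
  continuous_id.matrix_conjTranspose.comp_continuousOn hf

theorem ctOn_ent {s : Set X} {f : X → Matrix n m ℂ} (hf : ContinuousOn f s) (a : n) (b : m) :
    ContinuousOn (fun x => f x a b) s := continuousOn_pi.1 (continuousOn_pi.1 hf a) b

theorem ctOn_det {s : Set X} {f : X → Matrix n n ℂ} (hf : ContinuousOn f s) :
    ContinuousOn (fun x => (f x).det) s := continuous_id.matrix_det.comp_continuousOn hf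

theorem ctOn_loc {F : Type} [TopologicalSpace F] {s : Set X} {f : X → F}
    (h : ∀ x ∈ s, ∃ t, IsOpen t ∧ x ∈ t ∧ ∃ g : X → F, ContinuousOn g (s ∩ t) ∧
      ∀ y ∈ s ∩ t, f y = g y) : ContinuousOn f s :=
  continuousOn_of_locally_continuousOn fun x hx => by
    obtain ⟨t, ht, hxt, g, hg, e⟩ := h x hx
    exact ⟨t, ht, hxt, hg.congr e⟩

theorem bij_of_inv {f : Matrix m n ℂ} {g : Matrix n m ℂ} (h1 : g * f = 1) (h2 : f * g = 1) :
    Function.Bijective f.mulVec :=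
  ⟨Function.LeftInverse.injective (g := g.mulVec) fun v => by rw [mulVec_mulVec, h1, one_mulVec],
    Function.RightInverse.surjective (g := g.mulVec) fun v => by
      rw [mulVec_mulVec, h2, one_mulVec]⟩

theorem bij_of_det {f : Matrix n n ℂ} (h : f.det ≠ 0) : Function.Bijective f.mulVec :=
  bij_of_inv (nonsing_inv_mul _ (Ne.isUnit h)) (mul_nonsing_inv _ (Ne.isUnit h))

theorem det_of_inj {f : Matrix n n ℂ} (h : Function.Injective f.mulVec) : f.det ≠ 0 :=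
  ((isUnit_iff_isUnit_det _).1 (mulVec_injective_iff_isUnit.1 h)).ne_zero

theorem mulVec_mul (f : Matrix m n ℂ) (g : Matrix n k ℂ) :
    (f * g).mulVec = f.mulVec ∘ g.mulVec := funext fun v => (mulVec_mulVec v f g).symm

theorem bij_mul {f : Matrix m n ℂ} {g : Matrix n k ℂ} (hf : Function.Bijective f.mulVec)
    (hg : Function.Bijective g.mulVec) : Function.Bijective (f * g).mulVec := by
  rw [mulVec_mul]
  exact hf.comp hg

theorem ext_mulVec {f g : Matrix m n ℂ} (h : ∀ v, f *ᵥ v = g *ᵥ v) : f = g :=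
  Matrix.ext_iff_mulVec.2 h

/-- the left inverse of an injective matrix -/
def linv (f : Matrix m n ℂ) : Matrix n m ℂ := (fᴴ * f)⁻¹ * fᴴ

theorem det_gram {f : Matrix m n ℂ} (h : Function.Injective f.mulVec) : (fᴴ * f).det ≠ 0 := by
  refine det_of_inj ((injective_iff_map_eq_zero (fᴴ * f).mulVecLin).2 fun v hv => ?_)
  have h1 : f *ᵥ v = 0 := (conjTranspose_mul_self_mulVec_eq_zero f v).1 hv
  exact h (by rw [h1, mulVec_zero])

theorem linv_mul {f : Matrix m n ℂ} (h : Function.Injective f.mulVec) : linv f * f = 1 := by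
  rw [linv, Matrix.mul_assoc, nonsing_inv_mul _ (Ne.isUnit (det_gram h))]

theorem mul_linv {f : Matrix m n ℂ} (h : Function.Bijective f.mulVec) : f * linv f = 1 := by
  refine ext_mulVec fun v => ?_
  obtain ⟨w, rfl⟩ := h.2 v
  rw [mulVec_mulVec, Matrix.mul_assoc, linv_mul h.1, Matrix.mul_one, one_mulVec]

theorem ctOn_linv {s : Set X} {f : X → Matrix m n ℂ} (hf : ContinuousOn f s)
    (h : ∀ x ∈ s, Function.Injective (f x).mulVec) : ContinuousOn (fun x => linv (f x)) s :=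
  ctOn_mul (ctOn_inv (ctOn_mul (ctOn_ct hf) hf) fun x hx => det_gram (h x hx)) (ctOn_ct hf)

theorem VB.bij (V : VB X n) {i j : V.ι} {x : X} (hi : x ∈ V.U i) (hj : x ∈ V.U j) :
    Function.Bijective (V.g i j x).mulVec := bij_of_det (V.nz hi hj)

theorem VB.HomOn.eq {V : VB X n} {V' : VB X m} {W : Set X} {f} (h : V.HomOn V' W f) {i i' j j'}
    {x : X} (hi : x ∈ V.U i) (hi' : x ∈ V.U i') (hj : x ∈ V'.U j) (hj' : x ∈ V'.U j')
    (hx : x ∈ W) : f i j x = V'.g j j' x * f i' j' x * V.g i' i x := by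
  rw [← h.2 i i' j j' x hi hi' hj hj' hx, Matrix.mul_assoc, V.inv hi hi', Matrix.mul_one]

theorem VB.HomOn.mono {V : VB X n} {V' : VB X m} {W W' : Set X} {f} (h : V.HomOn V' W f)
    (hW : W' ⊆ W) : V.HomOn V' W' f :=
  ⟨fun i j => (h.1 i j).mono fun _ hx => ⟨hx.1, hW hx.2⟩,
    fun i i' j j' x hi hi' hj hj' hx => h.2 i i' j j' x hi hi' hj hj' (hW hx)⟩

/-- Gluing of a map of bundles from local matrices. -/
theorem VB.homOn_loc (V : VB X n) (V' : VB X m) (W : Set X) {κ : Type} (O : κ → Set X)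
    (a : κ → V.ι) (b : κ → V'.ι) (f : κ → X → Matrix m n ℂ) (op : ∀ c, IsOpen (O c))
    (cov : ∀ x ∈ W, ∃ c, x ∈ O c) (ha : ∀ c, O c ⊆ V.U (a c)) (hb : ∀ c, O c ⊆ V'.U (b c))
    (ct : ∀ c, ContinuousOn (f c) (O c ∩ W))
    (law : ∀ c c' x, x ∈ O c → x ∈ O c' → x ∈ W →
      f c x * V.g (a c) (a c') x = V'.g (b c) (b c') x * f c' x) :
    ∃ F, V.HomOn V' W F ∧ ∀ c i j x, x ∈ O c → x ∈ V.U i → x ∈ V'.U j → x ∈ W →
      F i j x = V'.g j (b c) x * f c x * V.g (a c) i x := by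
  classical
  choose c hc using cov
  have key : ∀ c' i j x, x ∈ O c' → x ∈ V.U i → x ∈ V'.U j → ∀ hx : x ∈ W,
      V'.g j (b (c x hx)) x * f (c x hx) x * V.g (a (c x hx)) i x =
        V'.g j (b c') x * f c' x * V.g (a c') i x := by
    intro c' i j x h1 hi hj hx
    rw [← V.cc (a (c x hx)) (a c') i x (ha _ (hc x hx)) (ha _ h1) hi, ← Matrix.mul_assoc,
      Matrix.mul_assoc _ (f _ x), law _ _ x (hc x hx) h1 hx, ← Matrix.mul_assoc,
      V'.cc _ _ _ x hj (hb _ (hc x hx)) (hb _ h1)]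
  refine ⟨fun i j x => if hx : x ∈ W then
    V'.g j (b (c x hx)) x * f (c x hx) x * V.g (a (c x hx)) i x else 0, ⟨fun i j => ?_, ?_⟩, ?_⟩
  · refine ctOn_loc fun x hx => ⟨O (c x hx.2), op _, hc x hx.2,
      fun y => V'.g j (b (c x hx.2)) y * f (c x hx.2) y * V.g (a (c x hx.2)) i y, ?_, ?_⟩
    · exact ctOn_mul (ctOn_mul ((V'.ct _ _).mono fun y hy => ⟨hy.1.1.2, hb _ hy.2⟩)
        ((ct _).mono fun y hy => ⟨hy.2, hy.1.2⟩))
        ((V.ct _ _).mono fun y hy => ⟨ha _ hy.2, hy.1.1.1⟩)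
    · intro y hy
      exact (dif_pos hy.1.2).trans (key _ i j y hy.2 hy.1.1.1 hy.1.1.2 hy.1.2)
  · intro i i' j j' x hi hi' hj hj' hx
    simp only [dif_pos hx]
    rw [Matrix.mul_assoc, V.cc _ _ _ x (ha _ (hc x hx)) hi hi', ← Matrix.mul_assoc,
      ← Matrix.mul_assoc, V'.cc _ _ _ x hj hj' (hb _ (hc x hx))]
  · intro c' i j x h1 hi hj hx
    simp only [dif_pos hx]
    exact key c' i j x h1 hi hj hx

theorem VB.iso_loc (V : VB X n) (V' : VB X m) {κ : Type} (O : κ → Set X)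
    (a : κ → V.ι) (b : κ → V'.ι) (f : κ → X → Matrix m n ℂ) (op : ∀ c, IsOpen (O c))
    (cov : ∀ x, ∃ c, x ∈ O c) (ha : ∀ c, O c ⊆ V.U (a c)) (hb : ∀ c, O c ⊆ V'.U (b c))
    (ct : ∀ c, ContinuousOn (f c) (O c))
    (law : ∀ c c' x, x ∈ O c → x ∈ O c' →
      f c x * V.g (a c) (a c') x = V'.g (b c) (b c') x * f c' x)
    (bij : ∀ c, ∀ x ∈ O c, Function.Bijective (f c x).mulVec) : V.Iso V' := by
  obtain ⟨F, hF, e⟩ := V.homOn_loc V' univ O a b f op (fun x _ => cov x) ha hb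
    (fun c => (ct c).mono inter_subset_left) fun c c' x h h' _ => law c c' x h h'
  refine ⟨F, hF, fun i j x hi hj => ?_⟩
  obtain ⟨c, hc⟩ := cov x
  rw [e c i j x hc hi hj trivial]
  exact bij_mul (bij_mul (V'.bij hj (hb _ hc)) (bij c x hc)) (V.bij (ha _ hc) hi)

/-- two cocycles which agree on a common refinement -/
theorem VB.iso_ref (V V' : VB X n) {κ : Type} (O : κ → Set X)
    (a : κ → V.ι) (b : κ → V'.ι) (op : ∀ c, IsOpen (O c))
    (cov : ∀ x, ∃ c, x ∈ O c) (ha : ∀ c, O c ⊆ V.U (a c)) (hb : ∀ c, O c ⊆ V'.U (b c))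
    (law : ∀ c c' x, x ∈ O c → x ∈ O c' → V.g (a c) (a c') x = V'.g (b c) (b c') x) :
    V.Iso V' :=
  V.iso_loc V' O a b (fun _ _ => 1) op cov ha hb (fun _ => continuousOn_const)
    (fun c c' x h h' => by rw [Matrix.one_mul, Matrix.mul_one, law c c' x h h'])
    fun _ _ _ => bij_of_det (by simp)

theorem VB.Iso.refl (V : VB X n) : V.Iso V :=
  V.iso_ref V V.U (fun i => i) (fun i => i) V.op V.cov (fun _ => subset_rfl)
    (fun _ => subset_rfl) fun _ _ _ _ _ => rfl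

theorem VB.Iso.symm {V : VB X n} {V' : VB X m} (h : V.Iso V') : V'.Iso V := by
  obtain ⟨f, hf, hb⟩ := h
  refine V'.iso_loc V (fun c : V.ι × V'.ι => V.U c.1 ∩ V'.U c.2) Prod.snd Prod.fst
    (fun c x => linv (f c.1 c.2 x)) (fun c => (V.op _).inter (V'.op _)) (fun x => ?_)
    (fun _ => inter_subset_right) (fun _ => inter_subset_left)
    (fun c => ctOn_linv ((hf.1 _ _).mono fun _ h => ⟨h, trivial⟩) fun x h =>
      (hb _ _ x h.1 h.2).1) (fun c c' x h h' => ?_)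
    fun c x h => bij_of_inv (mul_linv (hb _ _ x h.1 h.2)) (linv_mul (hb _ _ x h.1 h.2).1)
  · obtain ⟨i, hi⟩ := V.cov x
    obtain ⟨j, hj⟩ := V'.cov x
    exact ⟨(i, j), hi, hj⟩
  · have e := hf.2 _ _ _ _ x h.1 h'.1 h.2 h'.2 trivial
    calc linv (f c.1 c.2 x) * V'.g c.2 c'.2 x
        = linv (f c.1 c.2 x) * (V'.g c.2 c'.2 x * f c'.1 c'.2 x) * linv (f c'.1 c'.2 x) := by
          rw [Matrix.mul_assoc, Matrix.mul_assoc, mul_linv (hb _ _ x h'.1 h'.2), Matrix.mul_one]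
      _ = _ := by
          rw [← e, ← Matrix.mul_assoc, linv_mul (hb _ _ x h.1 h.2).1, Matrix.one_mul]

theorem VB.HomOn.comp {V : VB X n} {V' : VB X m} {V'' : VB X k} {W : Set X} {f g}
    (hf : V.HomOn V' W f) (hg : V'.HomOn V'' W g) :
    ∃ F, V.HomOn V'' W F ∧ ∀ i j l x, x ∈ V.U i → x ∈ V'.U j → x ∈ V''.U l → x ∈ W →
      F i l x = g j l x * f i j x := by
  obtain ⟨F, hF, e⟩ := V.homOn_loc V'' W
    (fun c : V.ι × V'.ι × V''.ι => V.U c.1 ∩ V'.U c.2.1 ∩ V''.U c.2.2) Prod.fst (fun c => c.2.2)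
    (fun c x => g c.2.1 c.2.2 x * f c.1 c.2.1 x)
    (fun c => ((V.op _).inter (V'.op _)).inter (V''.op _))
    (fun x _ => by
      obtain ⟨i, hi⟩ := V.cov x
      obtain ⟨j, hj⟩ := V'.cov x
      obtain ⟨l, hl⟩ := V''.cov x
      exact ⟨(i, j, l), ⟨hi, hj⟩, hl⟩)
    (fun _ _ h => h.1.1) (fun _ _ h => h.2)
    (fun c => ctOn_mul ((hg.1 _ _).mono fun _ h => ⟨⟨h.1.1.2, h.1.2⟩, h.2⟩)
      ((hf.1 _ _).mono fun _ h => ⟨h.1.1, h.2⟩)) fun c c' x h h' hx => by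
        rw [Matrix.mul_assoc, hf.2 _ _ _ _ x h.1.1 h'.1.1 h.1.2 h'.1.2 hx, ← Matrix.mul_assoc,
          hg.2 _ _ _ _ x h.1.2 h'.1.2 h.2 h'.2 hx, Matrix.mul_assoc]
  refine ⟨F, hF, fun i j l x hi hj hl hx => ?_⟩
  rw [e (i, j, l) i l x ⟨⟨hi, hj⟩, hl⟩ hi hl hx, V''.id _ x hl, V.id _ x hi, Matrix.one_mul,
    Matrix.mul_one]

theorem VB.Iso.trans {V : VB X n} {V' : VB X m} {V'' : VB X k} (h : V.Iso V') (h' : V'.Iso V'') :
    V.Iso V'' := by
  obtain ⟨f, hf, hb⟩ := h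
  obtain ⟨g, hg, hc⟩ := h'
  obtain ⟨F, hF, e⟩ := hf.comp hg
  refine ⟨F, hF, fun i l x hi hl => ?_⟩
  obtain ⟨j, hj⟩ := V'.cov x
  rw [e i j l x hi hj hl trivial]
  exact bij_mul (hc _ _ x hj hl) (hb _ _ x hi hj)

theorem VB.HomOn.pb {V : VB X n} {V' : VB X m} {W : Set X} {f} (h : V.HomOn V' W f)
    (φ : C(Y, X)) : VB.HomOn (V.pb φ) (V'.pb φ) (φ ⁻¹' W) fun i j y => f i j (φ y) :=
  ⟨fun i j => (h.1 i j).comp φ.continuous.continuousOn fun _ h => h,
    fun i i' j j' y => h.2 i i' j j' (φ y)⟩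

theorem VB.Iso.pb {V : VB X n} {V' : VB X m} (h : V.Iso V') (φ : C(Y, X)) :
    VB.Iso (V.pb φ) (V'.pb φ) := by
  obtain ⟨f, hf, hb⟩ := h
  exact ⟨_, hf.pb φ, fun i j y => hb i j (φ y)⟩

theorem VB.Ex.pb {A : VB X n} {B : VB X m} {D : VB X k} (h : A.Ex B D) (φ : C(Y, X)) :
    VB.Ex (A.pb φ) (B.pb φ) (D.pb φ) := by
  obtain ⟨a, p, ha, hp, e⟩ := h
  exact ⟨_, _, ha.pb φ, hp.pb φ, fun i j l y => e i j l (φ y)⟩

theorem VB.Iso.card {V : VB X n} {V' : VB X m} (h : V.Iso V') (x : X) :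
    Fintype.card n = Fintype.card m := by
  obtain ⟨f, -, hb⟩ := h
  obtain ⟨i, hi⟩ := V.cov x
  obtain ⟨j, hj⟩ := V'.cov x
  have := (LinearEquiv.ofBijective (f i j x).mulVecLin (hb i j x hi hj)).finrank_eq
  simpa using this

theorem bij_fromBlocks {f : Matrix m n ℂ} {g : Matrix l k ℂ} (hf : Function.Bijective f.mulVec)
    (hg : Function.Bijective g.mulVec) : Function.Bijective (fromBlocks f 0 0 g).mulVec :=
  bij_of_inv (g := fromBlocks (linv f) 0 0 (linv g))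
    (by simp [fromBlocks_multiply, linv_mul hf.1, linv_mul hg.1])
    (by simp [fromBlocks_multiply, mul_linv hf, mul_linv hg])

theorem VB.Iso.sum {A : VB X n} {A' : VB X m} {B : VB X k} {B' : VB X l} (h : A.Iso A')
    (h' : B.Iso B') : (A.sum B).Iso (A'.sum B') := by
  obtain ⟨f, hf, hb⟩ := h
  obtain ⟨g, hg, hc⟩ := h'
  refine ⟨fun i j x => fromBlocks (f i.1 j.1 x) 0 0 (g i.2 j.2 x), ⟨fun i j => ?_, ?_⟩,
    fun i j x hi hj => bij_fromBlocks (hb _ _ x hi.1 hj.1) (hc _ _ x hi.2 hj.2)⟩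
  · exact (continuous_fst.matrix_fromBlocks continuous_const continuous_const
      continuous_snd).comp_continuousOn
      (((hf.1 _ _).mono fun _ h => ⟨⟨h.1.1.1, h.1.2.1⟩, trivial⟩).prodMk
        ((hg.1 _ _).mono fun _ h => ⟨⟨h.1.1.2, h.1.2.2⟩, trivial⟩))
  · intro i i' j j' x hi hi' hj hj' _
    change fromBlocks _ 0 0 _ * fromBlocks (A.g i.1 i'.1 x) 0 0 (B.g i.2 i'.2 x) =
      fromBlocks (A'.g j.1 j'.1 x) 0 0 (B'.g j.2 j'.2 x) * fromBlocks _ 0 0 _
    simp [fromBlocks_multiply, hf.2 _ _ _ _ x hi.1 hi'.1 hj.1 hj'.1 trivial,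
      hg.2 _ _ _ _ x hi.2 hi'.2 hj.2 hj'.2 trivial]

/-- sums along a partition of unity -/
theorem ctOn_pou {κ F : Type} [NormedAddCommGroup F] [NormedSpace ℝ F]
    (ρ : PartitionOfUnity κ X univ) {O : κ → Set X} (op : ∀ c, IsOpen (O c))
    (hρ : ρ.IsSubordinate O) {s : Set X} (hs : IsOpen s) {f : κ → X → F}
    (hf : ∀ c, ContinuousOn (f c) (s ∩ O c)) :
    ContinuousOn (fun x => ∑ᶠ c, ρ c x • f c x) s := by
  intro x hx
  have h1 : ∀ᶠ y in 𝓝 x, ∑ᶠ c, ρ c y • f c y = ∑ c ∈ ρ.fintsupport x, ρ c y • f c y := by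
    filter_upwards [ρ.eventually_finsupport_subset x] with y hy
    refine finsum_eq_sum_of_support_subset _ fun c hc => hy ?_
    rw [ρ.mem_finsupport]
    exact fun h0 => hc (by simp [h0])
  refine (ContinuousAt.congr ?_ (h1.mono fun _ h => h.symm)).continuousWithinAt
  refine tendsto_finsetSum _ fun c hc => ?_
  exact (ρ c).continuous.continuousAt.smul ((hf c).continuousAt
    ((hs.inter (op c)).mem_nhds ⟨hx, hρ c ((ρ.mem_fintsupport_iff x c).1 hc)⟩))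

theorem pou_eq {κ F : Type} [AddCommGroup F] [Module ℝ F] (ρ : PartitionOfUnity κ X univ)
    {O : κ → Set X} (hρ : ρ.IsSubordinate O) {F' : Type} [AddCommGroup F'] [Module ℝ F']
    (φ : F →ₗ[ℝ] F') {x : X} {f : κ → F} {y : F'} (h : ∀ c, x ∈ O c → φ (f c) = y) :
    φ (∑ᶠ c, ρ c x • f c) = y := by
  rw [← ρ.sum_finsupport_smul_eq_finsum (x₀ := x) fun c _ => f c, map_sum]
  rw [Finset.sum_congr rfl fun c hc => (by
    rw [map_smul, h c (hρ c (subset_tsupport _ ((ρ.mem_finsupport x).1 hc)))] :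
      φ (ρ c x • f c) = ρ c x • y), ← Finset.sum_smul, ρ.sum_finsupport (mem_univ x), one_smul]

theorem pou_map {κ F : Type} [AddCommGroup F] [Module ℝ F] (ρ : PartitionOfUnity κ X univ)
    {O : κ → Set X} (hρ : ρ.IsSubordinate O) {F' F'' : Type} [AddCommGroup F'] [Module ℝ F']
    [AddCommGroup F''] [Module ℝ F''] (φ : F →ₗ[ℝ] F'') (ψ : F' →ₗ[ℝ] F'') {x : X} {f : κ → F}
    {f' : κ → F'} (h : ∀ c, x ∈ O c → φ (f c) = ψ (f' c)) :
    φ (∑ᶠ c, ρ c x • f c) = ψ (∑ᶠ c, ρ c x • f' c) := by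
  rw [← ρ.sum_finsupport_smul_eq_finsum (x₀ := x) fun c _ => f c,
    ← ρ.sum_finsupport_smul_eq_finsum (x₀ := x) fun c _ => f' c, map_sum, map_sum]
  refine Finset.sum_congr rfl fun c hc => ?_
  rw [map_smul, map_smul, h c (hρ c (subset_tsupport _ ((ρ.mem_finsupport x).1 hc)))]

/-- multiplication by matrices on both sides -/
def lr (a : Matrix k m ℂ) (b : Matrix n l ℂ) : Matrix m n ℂ →ₗ[ℝ] Matrix k l ℂ where
  toFun f := a * f * b
  map_add' f g := by rw [Matrix.mul_add, Matrix.add_mul]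
  map_smul' c f := by simp

theorem lr_apply (a : Matrix k m ℂ) (b : Matrix n l ℂ) (f : Matrix m n ℂ) :
    lr a b f = a * f * b := rfl

theorem exists_pou [Nc X] {κ : Type} (O : κ → Set X) (op : ∀ c, IsOpen (O c))
    (cov : ∀ x, ∃ c, x ∈ O c) : ∃ ρ : PartitionOfUnity κ X univ, ρ.IsSubordinate O :=
  PartitionOfUnity.exists_isSubordinate isClosed_univ O op fun x _ => mem_iUnion.2 (cov x)

/-- An injective map of bundles has a left inverse. -/
theorem VB.HomOn.retr [Nc X] {A : VB X n} {B : VB X m} {a} (ha : A.Hom B a)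
    (hi : ∀ i j x, x ∈ A.U i → x ∈ B.U j → Function.Injective (a i j x).mulVec) :
    ∃ r, B.Hom A r ∧ ∀ i j x, x ∈ A.U i → x ∈ B.U j → r j i x * a i j x = 1 := by
  obtain ⟨ρ, hρ⟩ := exists_pou (fun c : A.ι × B.ι => A.U c.1 ∩ B.U c.2)
    (fun c => (A.op _).inter (B.op _)) fun x => by
      obtain ⟨i, hi⟩ := A.cov x
      obtain ⟨j, hj⟩ := B.cov x
      exact ⟨(i, j), hi, hj⟩
  refine ⟨fun j i x => ∑ᶠ c, ρ c x • (A.g i c.1 x * linv (a c.1 c.2 x) * B.g c.2 j x),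
    ⟨fun j i => ?_, ?_⟩, ?_⟩
  · let : NormedAddCommGroup (Matrix n m ℂ) := Matrix.normedAddCommGroup
    let : NormedSpace ℝ (Matrix n m ℂ) := Matrix.normedSpace
    refine ctOn_pou ρ (fun c => (A.op _).inter (B.op _)) hρ
      (((B.op _).inter (A.op _)).inter isOpen_univ) fun c => ?_
    exact ctOn_mul (ctOn_mul ((A.ct _ _).mono fun _ h => ⟨h.1.1.2, h.2.1⟩)
      (ctOn_linv ((ha.1 _ _).mono fun _ h => ⟨h.2, trivial⟩) fun x h => hi _ _ x h.2.1 h.2.2))
      ((B.ct _ _).mono fun _ h => ⟨h.2.2, h.1.1.1⟩)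
  · intro j j' i i' x hj hj' hi hi' _
    have := pou_map ρ hρ (lr (1 : Matrix n n ℂ) (B.g j j' x)) (lr (A.g i i' x) (1 : Matrix m m ℂ))
      (x := x) (f := fun c => A.g i c.1 x * linv (a c.1 c.2 x) * B.g c.2 j x)
      (f' := fun c => A.g i' c.1 x * linv (a c.1 c.2 x) * B.g c.2 j' x) fun c hc => by
        rw [lr_apply, lr_apply, Matrix.one_mul, Matrix.mul_one, Matrix.mul_assoc, B.cc _ _ _ x hc.2 hj hj',
          ← Matrix.mul_assoc, ← Matrix.mul_assoc, A.cc _ _ _ x hi hi' hc.1]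
    simpa [lr_apply] using this
  · intro i j x hi' hj
    have := pou_eq ρ hρ (lr (1 : Matrix n n ℂ) (a i j x)) (x := x)
      (f := fun c => A.g i c.1 x * linv (a c.1 c.2 x) * B.g c.2 j x) (y := 1) fun c hc => by
        rw [lr_apply, Matrix.one_mul, Matrix.mul_assoc, ← ha.2 _ _ _ _ x hc.1 hi' hc.2 hj trivial,
          ← Matrix.mul_assoc, Matrix.mul_assoc (A.g i c.1 x), linv_mul (hi _ _ x hc.1 hc.2),
          Matrix.mul_one, A.inv hi' hc.1]
    simpa [lr_apply] using this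

/-- Exact sequences split. -/
theorem VB.Ex.split [Nc X] {A : VB X n} {B : VB X m} {D : VB X k} (h : A.Ex B D) :
    B.Iso (A.sum D) := by
  obtain ⟨a, p, ha, hp, e⟩ := h
  obtain ⟨r, hr, hra⟩ := ha.retr fun i j x hi hj => by
    obtain ⟨l, hl⟩ := D.cov x
    exact (e i j l x hi hj hl).1
  refine ⟨fun j c x => fromRows (r j c.1 x) (p j c.2 x), ⟨fun j c => ?_, ?_⟩, ?_⟩
  · refine continuousOn_pi.2 fun s => continuousOn_pi.2 fun t => ?_
    rcases s with s | s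
    · exact ctOn_ent ((hr.1 _ _).mono fun _ h => ⟨⟨h.1.1, h.1.2.1⟩, trivial⟩) s t
    · exact ctOn_ent ((hp.1 _ _).mono fun _ h => ⟨⟨h.1.1, h.1.2.2⟩, trivial⟩) s t
  · intro j j' c c' x hj hj' hc hc' _
    change fromRows _ _ * _ = fromBlocks (A.g c.1 c'.1 x) 0 0 (D.g c.2 c'.2 x) * fromRows _ _
    rw [fromRows_mul, fromBlocks_mul_fromRows, hr.2 _ _ _ _ x hj hj' hc.1 hc'.1 trivial,
      hp.2 _ _ _ _ x hj hj' hc.2 hc'.2 trivial]
    simp
  · intro j c x hj hc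
    obtain ⟨-, e2, e3⟩ := e c.1 j c.2 x hc.1 hj hc.2
    have e4 := hra c.1 j x hc.1 hj
    constructor
    · refine (injective_iff_map_eq_zero (fromRows (r j c.1 x) (p j c.2 x)).mulVecLin).2
        fun v hv => ?_
      rw [mulVecLin_apply, fromRows_mulVec] at hv
      have h1 : r j c.1 x *ᵥ v = 0 := funext fun s => congrFun hv (Sum.inl s)
      have h2 : p j c.2 x *ᵥ v = 0 := funext fun s => congrFun hv (Sum.inr s)
      obtain ⟨u, rfl⟩ := (e3 v).1 h2
      rw [mulVec_mulVec, e4, one_mulVec] at h1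
      rw [h1, mulVec_zero]
    · intro w
      obtain ⟨v, hv⟩ := e2 fun s => w (Sum.inr s)
      refine ⟨v + a c.1 j x *ᵥ ((fun s => w (Sum.inl s)) - r j c.1 x *ᵥ v), ?_⟩
      rw [fromRows_mulVec, mulVec_add, mulVec_add, mulVec_mulVec, e4, one_mulVec, hv,
        (e3 _).2 ⟨_, rfl⟩]
      funext s
      rcases s with s | s <;> simp

end P275CC
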