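import Vale.Agent.P275CC.Ln

/-! The even part of a cohomology theory, rules for the first Chern class. -/

set_option linter.unusedSectionVars false
set_option backward.isDefEq.respectTransparency false

open Set Matrix Topology Filter

noncomputable section

namespace P275CC

variable {X Y Z : Type} [TopologicalSpace X] [TopologicalSpace Y] [TopologicalSpace Z]
variable {n m k : Type} [Fintype n] [DecidableEq n] [Fintype m] [DecidableEq m] [Fintype k]
  [DecidableEq k]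

/-! ### isomorphisms of line bundles -/

theorem LB.sec_of_hom {L L' : LB X} {W : Set X} {F} (h : VB.HomOn L.vb L'.vb W F) :
    (L'.mul L.dual).Sec W fun c x => F (fun _ => c.2) (fun _ => c.1) x () () := by
  refine ⟨fun c => ctOn_ent ((h.1 _ _).mono fun x hx =>
    ⟨⟨LB.mem_vb.2 hx.1.2, LB.mem_vb.2 hx.1.1⟩, hx.2⟩) _ _, fun c c' x hc hc' hx => ?_⟩
  have := h.eq (i := fun _ => c.2) (i' := fun _ => c'.2) (j := fun _ => c.1) (j' := fun _ => c'.1)
    (LB.mem_vb.2 hc.2) (LB.mem_vb.2 hc'.2) (LB.mem_vb.2 hc.1) (LB.mem_vb.2 hc'.1) hx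
  rw [LB.vb_g, LB.vb_g] at this
  change F (fun _ => c.2) (fun _ => c.1) x () () = L'.g c.1 c'.1 x * L.g c'.2 c.2 x *
    F (fun _ => c'.2) (fun _ => c'.1) x () ()
  rw [this]
  simp
  ring

theorem unit_ne {f : Matrix Unit Unit ℂ} (h : Function.Injective f.mulVec) : f () () ≠ 0 := by
  simpa using det_of_inj h

theorem LB.iso_of_vb {L L' : LB X} (h : L.vb.Iso L'.vb) : L.Iso L' := by
  obtain ⟨F, hF, hb⟩ := h
  exact ⟨_, LB.sec_of_hom hF, fun c x hx =>
    unit_ne (hb (fun _ => c.2) (fun _ => c.1) x (LB.mem_vb.2 hx.2) (LB.mem_vb.2 hx.1)).1⟩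

theorem LB.iso_loc (L L' : LB X) {κ : Type} (O : κ → Set X)
    (a : κ → L.ι) (b : κ → L'.ι) (f : κ → X → ℂ) (op : ∀ c, IsOpen (O c))
    (cov : ∀ x, ∃ c, x ∈ O c) (ha : ∀ c, O c ⊆ L.U (a c)) (hb : ∀ c, O c ⊆ L'.U (b c))
    (ct : ∀ c, ContinuousOn (f c) (O c))
    (law : ∀ c c' x, x ∈ O c → x ∈ O c' →
      f c x * L.g (a c) (a c') x = L'.g (b c) (b c') x * f c' x)
    (nz : ∀ c, ∀ x ∈ O c, f c x ≠ 0) : L.Iso L' :=
  LB.iso_of_vb (VB.iso_loc _ _ O (fun c _ => a c) (fun c _ => b c) (fun c x => f c x • 1) op cov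
    (fun c _ h => LB.mem_vb.2 (ha c h)) (fun c _ h => LB.mem_vb.2 (hb c h))
    (fun c => (ct c).smul continuousOn_const)
    (fun c c' x h h' => by
      rw [LB.vb_g, LB.vb_g]
      simp only [smul_mul_assoc, mul_smul_comm, Matrix.one_mul, smul_smul]
      congr 1
      linear_combination law c c' x h h')
    fun c x h => bij_of_det (by simpa using nz c x h))

theorem LB.iso_ref (L L' : LB X) {κ : Type} (O : κ → Set X)
    (a : κ → L.ι) (b : κ → L'.ι) (op : ∀ c, IsOpen (O c))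
    (cov : ∀ x, ∃ c, x ∈ O c) (ha : ∀ c, O c ⊆ L.U (a c)) (hb : ∀ c, O c ⊆ L'.U (b c))
    (law : ∀ c c' x, x ∈ O c → x ∈ O c' → L.g (a c) (a c') x = L'.g (b c) (b c') x) :
    L.Iso L' :=
  L.iso_loc L' O a b (fun _ _ => 1) op cov ha hb (fun _ => continuousOn_const)
    (fun c c' x h h' => by rw [one_mul, mul_one, law c c' x h h']) fun _ _ _ => one_ne_zero

theorem LB.Iso.refl (L : LB X) : L.Iso L :=
  L.iso_ref L L.U (fun i => i) (fun i => i) L.op L.cov (fun _ => subset_rfl)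
    (fun _ => subset_rfl) fun _ _ _ _ _ => rfl

theorem LB.Iso.vb {L L' : LB X} (h : L.Iso L') : L.vb.Iso L'.vb := by
  obtain ⟨s, hs, nz⟩ := h
  refine VB.iso_loc _ _ (L'.mul L.dual).U (fun c _ => c.2) (fun c _ => c.1)
    (fun c x => s c x • 1) (L'.mul L.dual).op (L'.mul L.dual).cov
    (fun c _ h => LB.mem_vb.2 h.2) (fun c _ h => LB.mem_vb.2 h.1)
    (fun c => ((hs.1 c).mono fun _ h => ⟨h, trivial⟩).smul continuousOn_const)
    (fun c c' x h h' => ?_) fun c x h => bij_of_det (by simpa using nz c x h)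
  have e : s c x = L'.g c.1 c'.1 x * L.g c'.2 c.2 x * s c' x := hs.2 c c' x h h' trivial
  have e' := L.inv h'.2 h.2
  rw [LB.vb_g, LB.vb_g]
  simp only [smul_mul_assoc, mul_smul_comm, Matrix.one_mul, smul_smul]
  congr 1
  rw [e]
  linear_combination L'.g c.1 c'.1 x * s c' x * e'

/-- the set on which a section does not vanish -/
def LB.NZ (L : LB X) (s : L.ι → X → ℂ) : Set X := {x | ∃ i, x ∈ L.U i ∧ s i x ≠ 0}

theorem LB.Sec.isOpen_NZ {L : LB X} {s} (h : L.Sec univ s) : IsOpen (L.NZ s) := by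
  have : L.NZ s = ⋃ i, (L.U i ∩ univ) ∩ s i ⁻¹' {0}ᶜ := by
    ext x
    simp [LB.NZ]
  rw [this]
  exact isOpen_iUnion fun i =>
    (h.1 i).isOpen_inter_preimage ((L.op i).inter isOpen_univ) isOpen_compl_singleton

theorem LB.Sec.ne {L : LB X} {s} (h : L.Sec univ s) {x : X} (hx : x ∈ L.NZ s) {i : L.ι}
    (hi : x ∈ L.U i) : s i x ≠ 0 := by
  obtain ⟨j, hj, h0⟩ := hx
  rw [h.2 i j x hi hj trivial]
  exact mul_ne_zero (L.ne hi hj) h0

theorem LB.Sec.pb {L : LB X} {W : Set X} {s} (h : L.Sec W s) (f : C(Y, X)) :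
    LB.Sec (L.pb f) (f ⁻¹' W) fun i y => s i (f y) :=
  ⟨fun i => (h.1 i).comp f.continuous.continuousOn fun _ h => h, fun i j y => h.2 i j (f y)⟩

theorem LB.Iso.pb {L L' : LB X} (h : L.Iso L') (f : C(Y, X)) : LB.Iso (L.pb f) (L'.pb f) := by
  obtain ⟨s, hs, nz⟩ := h
  exact ⟨_, hs.pb f, fun i y => nz i (f y)⟩

theorem TB.Ln.iso_lb {V : VB X n} {f : C(Y, X)} (L : V.tb.Ln f) :
    L.lb.Iso (V.tb.taut.lb.pb L.lift) := by
  refine LB.iso_ref _ _ L.cv.U (fun c => c) (fun c => c) L.cv.op L.cv.cov (fun _ => subset_rfl)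
    (fun c y h => ⟨h.1, ?_⟩) fun c c' y h h' => ?_
  · change (L.lift y).1.2 c.1 c.2 c.2 ≠ 0
    rw [L.q_lift h.1]
    exact h.2
  · change _ = (V.g c.1 c'.1 (f y) *ᵥ cl ((L.lift y).1.2 c'.1) c'.2) c.2 /
      (L.lift y).1.2 c.1 c.2 c.2
    rw [L.q_lift h.1, L.q_lift h'.1]
    rfl

theorem TB.Ln.iso_vb_lift {T : TB X n} {f : C(Y, X)} (L : T.Ln f) :
    L.vb.Iso (T.taut.vb.pb L.lift) := by
  refine VB.iso_ref _ _ L.cv.U (fun c => c) (fun c => c) L.cv.op L.cv.cov (fun _ => subset_rfl)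
    (fun c y h => ⟨h.1, ?_⟩) fun c c' y h h' => ?_
  · change (L.lift y).1.2 c.1 c.2 c.2 ≠ 0
    rw [L.q_lift h.1]
    exact h.2
  · change _ = ((T.g c.1 c'.1 (f y) *ᵥ cl ((L.lift y).1.2 c'.1) c'.2) c.2 /
      (L.lift y).1.2 c.1 c.2 c.2)⁻¹ • T.g c.1 c'.1 (f y)
    rw [L.q_lift h.1, L.q_lift h'.1]
    rfl

theorem VB.Iso.det {V V' : VB X n} (h : V.Iso V') : V.det.Iso V'.det := by
  obtain ⟨f, hf, hb⟩ := h
  refine LB.iso_loc _ _ (V.prod V').U Prod.fst Prod.snd (fun c x => (f c.1 c.2 x).det)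
    (V.prod V').op (V.prod V').cov (fun _ => inter_subset_left) (fun _ => inter_subset_right)
    (fun c => ctOn_det ((hf.1 _ _).mono fun _ h => ⟨h, trivial⟩)) (fun c c' x h h' => ?_)
    fun c x h => det_of_inj (hb _ _ x h.1 h.2).1
  have := congrArg Matrix.det (hf.2 _ _ _ _ x h.1 h'.1 h.2 h'.2 trivial)
  rwa [det_mul, det_mul] at this

namespace Th

variable (τ : Th)

/-- homogeneous of degree `j` -/
def Dg (j : ℤ) (a : τ.H X) : Prop := τ.pr X j a = a

variable {τ}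

theorem dg_pr (j : ℤ) (a : τ.H X) : τ.Dg j (τ.pr X j a) := by
  rw [Dg, τ.pr_pr, if_pos rfl]

theorem Dg.pr_ne {i j : ℤ} {a : τ.H X} (h : τ.Dg j a) (hij : i ≠ j) : τ.pr X i a = 0 := by
  rw [← h, τ.pr_pr, if_neg hij]

theorem Dg.mul {i j l : ℤ} {a b : τ.H X} (ha : τ.Dg i a) (hb : τ.Dg j b) (e : i + j = l) :
    τ.Dg l (a * b) := e ▸ τ.pr_mul X i j a b ha hb

theorem Dg.add {j : ℤ} {a b : τ.H X} (ha : τ.Dg j a) (hb : τ.Dg j b) : τ.Dg j (a + b) := by
  rw [Dg, map_add, ha, hb]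

theorem Dg.sub {j : ℤ} {a b : τ.H X} (ha : τ.Dg j a) (hb : τ.Dg j b) : τ.Dg j (a - b) := by
  rw [Dg, map_sub, ha, hb]

theorem Dg.neg {j : ℤ} {a : τ.H X} (ha : τ.Dg j a) : τ.Dg j (-a) := by
  rw [Dg, map_neg, ha]

theorem Dg.smul {j : ℤ} {a : τ.H X} (ha : τ.Dg j a) (c : ℂ) : τ.Dg j (c • a) := by
  rw [Dg, map_smul, ha]

theorem dg_zero (j : ℤ) : τ.Dg j (0 : τ.H X) := map_zero _

theorem dg_one : τ.Dg 0 (1 : τ.H X) := τ.pr_one X

theorem dg_sum {ι : Type} {j : ℤ} {s : Finset ι} {a : ι → τ.H X} (h : ∀ i ∈ s, τ.Dg j (a i)) :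
    τ.Dg j (∑ i ∈ s, a i) := by
  rw [Dg, map_sum]
  exact Finset.sum_congr rfl h

theorem Dg.pow {j : ℤ} {a : τ.H X} (ha : τ.Dg j a) (r : ℕ) : τ.Dg (r * j) (a ^ r) := by
  induction r with
  | zero => simpa using dg_one
  | succ r ih =>
    rw [pow_succ]
    exact ih.mul ha (by push_cast; ring)

theorem Dg.pb {j : ℤ} {a : τ.H Y} (ha : τ.Dg j a) (f : C(X, Y)) : τ.Dg j (τ.pb f a) := by
  rw [Dg, τ.pr_pb, ha]

theorem Dg.of_pb {j : ℤ} {a : τ.H Y} {f : C(X, Y)} (hf : Function.Injective (τ.pb f))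
    (ha : τ.Dg j (τ.pb f a)) : τ.Dg j a := hf (by rw [← τ.pr_pb, ha])

theorem dg_c1 (L : LB X) : τ.Dg 2 (τ.c1 L) := τ.c1_deg L

theorem ind {P : τ.H X → Prop} (h0 : P 0) (hadd : ∀ a b, P a → P b → P (a + b)) (a : τ.H X)
    (h : ∀ j, P (τ.pr X j a)) : P a := by
  obtain ⟨s, hs⟩ := τ.pr_sum X a
  rw [← hs]
  exact Finset.sum_induction _ P hadd h0 fun j _ => h j

theorem pr_mul_right {i j l : ℤ} (a : τ.H X) {b : τ.H X} (hb : τ.Dg j b) (e : i + j = l) :
    τ.pr X l (a * b) = τ.pr X i a * b := by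
  refine ind (P := fun a => τ.pr X l (a * b) = τ.pr X i a * b) (by simp)
    (fun a a' h h' => by rw [add_mul, map_add, map_add, add_mul, h, h']) a fun i' => ?_
  by_cases hi : i = i'
  · subst hi
    rw [(dg_pr i a).mul hb e, dg_pr]
  · rw [((dg_pr i' a).mul hb rfl).pr_ne (by omega), (dg_pr i' a).pr_ne hi, zero_mul]

theorem pr_mul_left {i j l : ℤ} {a : τ.H X} (ha : τ.Dg i a) (b : τ.H X) (e : i + j = l) :
    τ.pr X l (a * b) = a * τ.pr X j b := by
  refine ind (P := fun b => τ.pr X l (a * b) = a * τ.pr X j b) (by simp)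
    (fun a a' h h' => by rw [mul_add, map_add, map_add, mul_add, h, h']) b fun j' => ?_
  by_cases hj : j = j'
  · subst hj
    rw [ha.mul (dg_pr j b) e, dg_pr]
  · rw [(ha.mul (dg_pr j' b) rfl).pr_ne (by omega), (dg_pr j' b).pr_ne hj, mul_zero]

theorem eq_zero_of_pr {a : τ.H X} (h : ∀ j, τ.pr X j a = 0) : a = 0 :=
  ind (P := fun a => a = 0) rfl (fun a b h h' => by rw [h, h', add_zero]) a h

variable (τ X) in
/-- the even part -/
def Ev : Subalgebra ℂ (τ.H X) where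
  carrier := {a | ∀ j, Odd j → τ.pr X j a = 0}
  add_mem' ha hb j hj := by rw [map_add, ha j hj, hb j hj, add_zero]
  mul_mem' {a b} ha hb l hl := by
    refine ind (P := fun b => τ.pr X l (a * b) = 0) (by simp)
      (fun b b' h h' => by rw [mul_add, map_add, h, h', add_zero]) b fun j => ?_
    rw [pr_mul_right a (dg_pr j b) (sub_add_cancel l j)]
    rcases Int.even_or_odd j with hj | hj
    · rw [ha _ (hl.sub_even hj), zero_mul]
    · rw [hb j hj, mul_zero]
  algebraMap_mem' c j hj := by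
    rw [Algebra.algebraMap_eq_smul_one]
    exact (dg_one.smul c).pr_ne fun h => by simp [h] at hj

theorem Dg.ev {j : ℤ} {a : τ.H X} (h : τ.Dg j a) (hj : Even j) : a ∈ τ.Ev X :=
  fun _ hi => h.pr_ne fun e => (Int.not_even_iff_odd.2 hi) (e ▸ hj)

theorem ev_comm [Nc X] {a : τ.H X} (ha : a ∈ τ.Ev X) (b : τ.H X) : a * b = b * a := by
  refine ind (P := fun a => a * b = b * a) (by simp)
    (fun a a' h h' => by rw [add_mul, mul_add, h, h']) a fun i => ?_
  rcases Int.even_or_odd i with hi | hi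
  · refine ind (P := fun b => τ.pr X i a * b = b * τ.pr X i a) (by simp)
      (fun a a' h h' => by rw [add_mul, mul_add, h, h']) b fun j => ?_
    rw [τ.comm X i j _ _ (dg_pr i a) (dg_pr j b), Int.negOnePow_even _ (hi.mul_right j), one_smul]
  · rw [ha i hi, zero_mul, mul_zero]

variable (τ X) in
/-- the even part, a commutative ring -/
abbrev E : Type := τ.Ev X

instance [Nc X] : CommRing (τ.E X) :=
  { (inferInstance : Ring (τ.Ev X)) with mul_comm := fun a b => Subtype.ext (ev_comm a.2 b) }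

variable (τ) in
/-- pull back on the even part -/
def pe (f : C(X, Y)) : τ.E Y →ₐ[ℂ] τ.E X :=
  ((τ.pb f).comp (τ.Ev Y).val).codRestrict (τ.Ev X) fun a j hj => by
    change τ.pr X j (τ.pb f a) = 0
    rw [τ.pr_pb, a.2 j hj, map_zero]

@[simp] theorem coe_pe (f : C(X, Y)) (a : τ.E Y) : (τ.pe f a : τ.H X) = τ.pb f a := rfl

theorem pe_comp (f : C(X, Y)) (g : C(Y, Z)) (a : τ.E Z) :
    τ.pe (g.comp f) a = τ.pe f (τ.pe g a) := Subtype.ext (τ.pb_comp f g a)

theorem pe_id (a : τ.E X) : τ.pe (ContinuousMap.id X) a = a := Subtype.ext (τ.pb_id X a)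

theorem pe_inj {f : C(X, Y)} (h : Function.Injective (τ.pb f)) : Function.Injective (τ.pe f) :=
  fun _ _ e => Subtype.ext (h (congrArg Subtype.val e))

variable (τ) in
/-- the first Chern class in the even part -/
def c (L : LB X) : τ.E X := ⟨τ.c1 L, (dg_c1 L).ev (by decide)⟩

@[simp] theorem coe_c (L : LB X) : (τ.c L : τ.H X) = τ.c1 L := rfl

section rules

variable [Nc X]

theorem c_pb [Nc Y] (f : C(X, Y)) (L : LB Y) : τ.c (L.pb f) = τ.pe f (τ.c L) :=
  Subtype.ext (τ.c1_pb f L)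

theorem c_mul (L L' : LB X) : τ.c (L.mul L') = τ.c L + τ.c L' := Subtype.ext (τ.c1_mul L L')

theorem c_triv {L : LB X} (h : L.Triv) : τ.c L = 0 := Subtype.ext (τ.c1_triv L h)

theorem c_dual (L : LB X) : τ.c L.dual = -τ.c L := by
  rw [eq_neg_iff_add_eq_zero, add_comm, ← c_mul, c_triv (LB.Iso.refl L)]

theorem c_iso {L L' : LB X} (h : L.Iso L') : τ.c L = τ.c L' := by
  have := c_triv (τ := τ) h
  rw [c_mul, c_dual, ← sub_eq_add_neg, sub_eq_zero] at this
  exact this.symm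

theorem c_one : τ.c (Co.one X ℂ) = 0 :=
  c_triv ⟨fun _ _ => 1, ⟨fun _ => continuousOn_const, fun _ _ _ _ _ _ => (one_mul 1).symm⟩,
    fun _ _ _ => one_ne_zero⟩

theorem c_pow (L : LB X) (r : ℕ) : τ.c (L.pow r) = r • τ.c L := by
  induction r with
  | zero =>
    rw [zero_smul]
    exact c_triv ⟨fun _ _ => 1, ⟨fun _ => continuousOn_const,
      fun _ _ _ _ _ _ => by simp [LB.pow, Co.map]⟩, fun _ _ _ => one_ne_zero⟩
  | succ r ih =>
    rw [succ_nsmul, ← ih, ← c_mul]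
    exact c_iso (LB.iso_ref _ _ L.U (fun i => i) (fun i => (i, i)) L.op L.cov
      (fun _ => subset_rfl) (fun _ _ h => ⟨h, h⟩) fun _ _ _ _ _ => pow_succ _ _)

theorem c_det_diag (L : k → LB X) : τ.c (VB.diag L).det = ∑ a, τ.c (L a) := by
  let φ : Finset k → (k → ℂ) →* ℂ := fun s => ∏ a ∈ s, Pi.evalMonoidHom (fun _ => ℂ) a
  have hφ : ∀ s v, φ s v = ∏ a ∈ s, v a := fun s v => by simp [φ]
  have hc : ∀ s, Continuous (φ s) := fun s => by
    rw [show (φ s : (k → ℂ) → ℂ) = fun v => ∏ a ∈ s, v a from funext (hφ s)]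
    exact continuous_finsetProd _ fun a _ => continuous_apply a
  have key : ∀ s : Finset k, τ.c ((Co.pi L).map (φ s) (hc s)) = ∑ a ∈ s, τ.c (L a) := by
    intro s
    induction s using Finset.induction_on with
    | empty =>
      rw [Finset.sum_empty]
      exact c_triv ⟨fun _ _ => 1, ⟨fun _ => continuousOn_const, fun _ _ _ _ _ _ => by
        change _ = φ ∅ _ * 1
        simp [hφ]⟩, fun _ _ _ => one_ne_zero⟩
    | insert a s ha ih =>
      rw [Finset.sum_insert ha, ← ih, ← c_mul]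
      refine c_iso (LB.iso_ref _ _ (Co.pi L).U (fun i => i) (fun i => (i a, i)) (Co.pi L).op
        (Co.pi L).cov (fun _ => subset_rfl) (fun _ _ h => ⟨mem_iInter.1 h a, h⟩)
        fun i j x _ _ => ?_)
      change φ _ _ = _ * φ s _
      rw [hφ, hφ, Finset.prod_insert ha]
      rfl
  rw [← key]
  refine c_iso (LB.iso_ref _ _ (Co.pi L).U (fun i => i) (fun i => i) (Co.pi L).op
    (Co.pi L).cov (fun _ => subset_rfl) (fun _ => subset_rfl) fun i j x _ _ => ?_)
  change (Matrix.diagonal _).det = φ _ _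
  rw [hφ, det_diagonal]

end rules

variable (τ) in
/-- the class vanishes on the set -/
def Vn (a : τ.H X) (W : Set X) : Prop := τ.pb (inc W) a = 0

theorem Vn.pb {a : τ.H X} {W : Set X} (h : τ.Vn a W) (f : C(Y, X)) (hf : ∀ y, f y ∈ W) :
    τ.pb f a = 0 := by
  have : f = (inc W).comp ⟨fun y => ⟨f y, hf y⟩, f.continuous.subtype_mk _⟩ := rfl
  rw [this, τ.pb_comp, h, map_zero]

theorem Vn.zero {a : τ.H X} (h : τ.Vn a univ) : a = 0 := by
  rw [← τ.pb_id X a, h.pb _ fun _ => trivial]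

theorem Vn.union [Nc X] {a b : τ.H X} {W W' : Set X} (hW : IsOpen W) (hW' : IsOpen W')
    (ha : τ.Vn a W) (hb : τ.Vn b W') : τ.Vn (a * b) (W ∪ W') := by
  have := Nc.opn (hW.union hW')
  rw [Vn, map_mul]
  refine τ.mv _ (Subtype.val ⁻¹' W) (Subtype.val ⁻¹' W') _ _ (hW.preimage continuous_subtype_val)
    (hW'.preimage continuous_subtype_val) (eq_univ_of_forall fun x => x.2) ?_ ?_
  · rw [← τ.pb_comp]
    exact ha.pb _ fun y => y.2
  · rw [← τ.pb_comp]
    exact hb.pb _ fun y => y.2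

theorem prod_eq_zero [Nc X] (a : k → τ.E X) (W : k → Set X) (op : ∀ i, IsOpen (W i))
    (cov : ∀ x, ∃ i, x ∈ W i) (h : ∀ i, τ.Vn (a i) (W i)) : ∏ i, a i = 0 := by
  have key : ∀ s : Finset k, τ.Vn (∏ i ∈ s, a i : τ.E X) (⋃ i ∈ s, W i) := by
    intro s
    induction s using Finset.induction_on with
    | empty =>
      have : IsEmpty (⋃ i ∈ (∅ : Finset k), W i) := ⟨fun x => by simpa using x.2⟩
      exact τ.empty _ _
    | insert i s hi ih =>
      rw [Finset.prod_insert hi, Finset.set_biUnion_insert]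
      exact (h i).union (op i) (isOpen_biUnion fun j _ => op j) ih
  have := key Finset.univ
  rw [show (⋃ i ∈ Finset.univ, W i) = univ from eq_univ_of_forall fun x => by
    simpa using cov x] at this
  exact Subtype.ext this.zero

theorem vn_sec [Nc X] {L : LB X} {s} (h : L.Sec univ s) : τ.Vn (τ.c L) (L.NZ s) := by
  have := Nc.opn h.isOpen_NZ
  rw [Vn, coe_c, ← τ.c1_pb]
  exact τ.c1_triv _ ⟨_, h.pb _, fun i y hy => h.ne y.2 hy⟩

/-- Leray-Hirsch on the even part -/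
theorem lhE [Nc X] [Nc Y] (π : C(Y, X)) (y : τ.E Y) (hy : τ.Dg 2 (y : τ.H Y)) (r : ℕ)
    (h : Function.Bijective fun a : Fin r → τ.H X => ∑ i, τ.pb π (a i) * (y : τ.H Y) ^ (i : ℕ)) :
    Function.Bijective fun a : Fin r → τ.E X => ∑ i, τ.pe π (a i) * y ^ (i : ℕ) := by
  constructor
  · intro a b e
    have := h.1 (a₁ := fun i => a i) (a₂ := fun i => b i) (by
      simpa using congrArg Subtype.val e)
    exact funext fun i => Subtype.ext (congrFun this i)
  · intro z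
    obtain ⟨a, ha⟩ := h.2 z
    have hev : ∀ i, a i ∈ τ.Ev X := fun i j hj => by
      have := h.1 (a₁ := fun i' => τ.pr X (j + 2 * i - 2 * i') (a i')) (a₂ := 0) (by
        have h0 := z.2 (j + 2 * i) (hj.add_even (even_two_mul _))
        rw [← ha] at h0
        simp only [map_sum] at h0
        simp only [Pi.zero_apply, map_zero, zero_mul, Finset.sum_const_zero]
        rw [← h0]
        refine Finset.sum_congr rfl fun i' _ => ?_
        rw [pr_mul_right (i := j + 2 * i - 2 * i') _ (hy.pow i') (by ring), τ.pr_pb])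
      simpa using congrFun this i
    exact ⟨fun i => ⟨a i, hev i⟩, Subtype.ext (by simpa using ha)⟩

theorem inj_of_lh (π : C(Y, X)) (y : τ.H Y) (r : ℕ) (h : Function.Injective
    fun a : Fin (r + 1) → τ.H X => ∑ i, τ.pb π (a i) * y ^ (i : ℕ)) :
    Function.Injective (τ.pb π) := by
  intro a b e
  have := h (a₁ := Fin.cons a 0) (a₂ := Fin.cons b 0) (by simp [Fin.sum_univ_succ, e])
  exact congrFun this 0

theorem lh_lb [Nc X] (V : VB X n) {r : ℕ} (h : Fintype.card n = r + 1) :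
    Function.Bijective fun a : Fin (r + 1) → τ.H X =>
      ∑ i, τ.pb V.tb.π (a i) * τ.c1 V.tb.taut.lb ^ (i : ℕ) :=
  τ.lh _ _ r 1 V.tb.proper one_ne_zero (pfib_lb V h)

theorem lh_lam [Nc X] (T : TB X n) {r : ℕ} (h : Fintype.card n = r + 1) :
    Function.Bijective fun a : Fin (r + 1) → τ.H X =>
      ∑ i, τ.pb T.π (a i) * τ.c1 T.taut.lam ^ (i : ℕ) :=
  τ.lh _ _ r (r + 1) T.proper r.succ_ne_zero (pfib_lam T h)

theorem inj_π [Nc X] (T : TB X n) [Nonempty n] : Function.Injective (τ.pb T.π) := by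
  obtain ⟨r, hr⟩ := Nat.exists_eq_succ_of_ne_zero (Fintype.card_ne_zero (α := n))
  exact inj_of_lh _ _ r (lh_lam T hr).1

end Th

end P275CC
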