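import Mathlib

/-! P275, block CC: topological line bundles, vector bundles and projective bundles given by
cocycles. Convention: a section is a family `s i` on `U i` with `s i = g i j * s j`. -/

set_option linter.unusedSectionVars false

open Set Matrix Topology
open scoped Kronecker

noncomputable section

namespace P275CC

variable {X Y : Type} [TopologicalSpace X] [TopologicalSpace Y]
variable {n m k : Type} [Fintype n] [DecidableEq n] [Fintype m] [DecidableEq m] [Fintype k]
  [DecidableEq k]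

/-- an open cover -/
structure Cov (X : Type) [TopologicalSpace X] : Type 1 where
  ι : Type
  U : ι → Set X
  op : ∀ i, IsOpen (U i)
  cov : ∀ x, ∃ i, x ∈ U i

/-- a cocycle with values in a topological monoid -/
structure Co (X : Type) [TopologicalSpace X] (G : Type) [Monoid G] [TopologicalSpace G] :
    Type 1 extends Cov X where
  g : ι → ι → X → G
  ct : ∀ i j, ContinuousOn (g i j) (U i ∩ U j)
  id : ∀ i, ∀ x ∈ U i, g i i x = 1
  cc : ∀ i j l x, x ∈ U i → x ∈ U j → x ∈ U l → g i j x * g j l x = g i l x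

/-- a line bundle -/
abbrev LB (X : Type) [TopologicalSpace X] : Type 1 := Co X ℂ

/-- a vector bundle -/
abbrev VB (X : Type) [TopologicalSpace X] (n : Type) [Fintype n] [DecidableEq n] : Type 1 :=
  Co X (Matrix n n ℂ)

/-- a twisted vector bundle: a cocycle up to scalars -/
structure TB (X : Type) [TopologicalSpace X] (n : Type) [Fintype n] [DecidableEq n] :
    Type 1 extends Cov X where
  g : ι → ι → X → Matrix n n ℂ
  ct : ∀ i j, ContinuousOn (g i j) (U i ∩ U j)
  nz : ∀ i j x, x ∈ U i → x ∈ U j → (g i j x).det ≠ 0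
  cc : ∀ i j l x, x ∈ U i → x ∈ U j → x ∈ U l → ∃ c : ℂ, g i j x * g j l x = c • g i l x

section co

variable {G G' : Type} [Monoid G] [TopologicalSpace G] [Monoid G'] [TopologicalSpace G']

/-- pull back of a cover -/
def Cov.pb (f : C(Y, X)) (P : Cov X) : Cov Y :=
  ⟨P.ι, fun i => f ⁻¹' P.U i, fun i => (P.op i).preimage f.continuous, fun y => P.cov (f y)⟩

/-- pull back of a cocycle -/
def Co.pb (f : C(Y, X)) (P : Co X G) : Co Y G where
  toCov := P.toCov.pb f
  g i j y := P.g i j (f y)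
  ct i j := (P.ct i j).comp f.continuous.continuousOn fun _ h => h
  id i y h := P.id i (f y) h
  cc i j l y := P.cc i j l (f y)

/-- image of a cocycle under a continuous homomorphism -/
def Co.map (φ : G →* G') (hφ : Continuous φ) (P : Co X G) : Co X G' where
  toCov := P.toCov
  g i j x := φ (P.g i j x)
  ct i j := hφ.comp_continuousOn (P.ct i j)
  id i x h := by rw [P.id i x h, map_one]
  cc i j l x hi hj hl := by rw [← map_mul, P.cc i j l x hi hj hl]

/-- two cocycles on the common refinement -/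
def Co.prod (P : Co X G) (Q : Co X G') : Co X (G × G') where
  ι := P.ι × Q.ι
  U i := P.U i.1 ∩ Q.U i.2
  op i := (P.op _).inter (Q.op _)
  cov x := by
    obtain ⟨i, hi⟩ := P.cov x
    obtain ⟨j, hj⟩ := Q.cov x
    exact ⟨(i, j), hi, hj⟩
  g i j x := (P.g i.1 j.1 x, Q.g i.2 j.2 x)
  ct i j := ((P.ct _ _).mono fun _ h => ⟨h.1.1, h.2.1⟩).prodMk
    ((Q.ct _ _).mono fun _ h => ⟨h.1.2, h.2.2⟩)
  id i x h := Prod.ext (P.id _ x h.1) (Q.id _ x h.2)
  cc i j l x hi hj hl := Prod.ext (P.cc _ _ _ x hi.1 hj.1 hl.1) (Q.cc _ _ _ x hi.2 hj.2 hl.2)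

/-- finitely many cocycles on the common refinement -/
def Co.pi (P : k → Co X G) : Co X (k → G) where
  ι := ∀ a, (P a).ι
  U i := ⋂ a, (P a).U (i a)
  op i := isOpen_iInter_of_finite fun a => (P a).op _
  cov x := by
    choose i hi using fun a => (P a).cov x
    exact ⟨i, mem_iInter.2 hi⟩
  g i j x a := (P a).g (i a) (j a) x
  ct i j := continuousOn_pi.2 fun a => ((P a).ct _ _).mono fun _ h =>
    ⟨mem_iInter.1 h.1 a, mem_iInter.1 h.2 a⟩
  id i x h := funext fun a => (P a).id _ x (mem_iInter.1 h a)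
  cc i j l x hi hj hl := funext fun a =>
    (P a).cc _ _ _ x (mem_iInter.1 hi a) (mem_iInter.1 hj a) (mem_iInter.1 hl a)

/-- the trivial cocycle -/
def Co.one (X : Type) [TopologicalSpace X] (G : Type) [Monoid G] [TopologicalSpace G] :
    Co X G where
  ι := Unit
  U _ := univ
  op _ := isOpen_univ
  cov x := ⟨(), mem_univ x⟩
  g _ _ _ := 1
  ct _ _ := continuousOn_const
  id _ _ _ := rfl
  cc _ _ _ _ _ _ _ := one_mul 1

theorem Co.inv (P : Co X G) {i j : P.ι} {x : X} (hi : x ∈ P.U i) (hj : x ∈ P.U j) :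
    P.g i j x * P.g j i x = 1 := by rw [P.cc i j i x hi hj hi, P.id i x hi]

end co

/-! ### line bundles -/

theorem LB.ne (L : LB X) {i j : L.ι} {x : X} (hi : x ∈ L.U i) (hj : x ∈ L.U j) :
    L.g i j x ≠ 0 := left_ne_zero_of_mul_eq_one (L.inv hi hj)

/-- tensor product of line bundles -/
def LB.mul (L L' : LB X) : LB X :=
  (L.prod L').map ((MonoidHom.fst ℂ ℂ) * (MonoidHom.snd ℂ ℂ)) (continuous_fst.mul continuous_snd)

/-- tensor power of a line bundle -/
def LB.pow (L : LB X) (r : ℕ) : LB X := L.map (powMonoidHom r) (continuous_pow r)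

/-- the dual line bundle -/
def LB.dual (L : LB X) : LB X where
  toCov := L.toCov
  g i j := L.g j i
  ct i j := (L.ct j i).mono fun _ h => ⟨h.2, h.1⟩
  id := L.id
  cc i j l x hi hj hl := by rw [mul_comm, L.cc l j i x hl hj hi]

/-- a continuous section of a line bundle over the open set `W` -/
def LB.Sec (L : LB X) (W : Set X) (s : L.ι → X → ℂ) : Prop :=
  (∀ i, ContinuousOn (s i) (L.U i ∩ W)) ∧
    ∀ i j x, x ∈ L.U i → x ∈ L.U j → x ∈ W → s i x = L.g i j x * s j x

/-- a line bundle with a nowhere vanishing section -/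
def LB.Triv (L : LB X) : Prop :=
  ∃ s, L.Sec univ s ∧ ∀ i, ∀ x ∈ L.U i, s i x ≠ 0

/-- isomorphic line bundles -/
def LB.Iso (L L' : LB X) : Prop := (L'.mul L.dual).Triv

/-! ### vector bundles -/

theorem VB.nz (V : VB X n) {i j : V.ι} {x : X} (hi : x ∈ V.U i) (hj : x ∈ V.U j) :
    (V.g i j x).det ≠ 0 := by
  have := congrArg Matrix.det (V.inv hi hj)
  rw [det_mul, det_one] at this
  exact left_ne_zero_of_mul_eq_one this

/-- a vector bundle as a twisted bundle -/
def VB.tb (V : VB X n) : TB X n where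
  toCov := V.toCov
  g := V.g
  ct := V.ct
  nz _ _ _ hi hj := V.nz hi hj
  cc i j l x hi hj hl := ⟨1, by rw [V.cc i j l x hi hj hl, one_smul]⟩

/-- the determinant line bundle -/
def VB.det (V : VB X n) : LB X :=
  V.map Matrix.detMonoidHom (continuous_id.matrix_det)

/-- block diagonal matrices -/
def blk (n m : Type) [Fintype n] [DecidableEq n] [Fintype m] [DecidableEq m] :
    Matrix n n ℂ × Matrix m m ℂ →* Matrix (n ⊕ m) (n ⊕ m) ℂ where
  toFun p := fromBlocks p.1 0 0 p.2
  map_one' := fromBlocks_one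
  map_mul' p q := by simp [fromBlocks_multiply]

/-- direct sum -/
def VB.sum (V : VB X n) (W : VB X m) : VB X (n ⊕ m) :=
  (V.prod W).map (blk n m)
    (continuous_fst.matrix_fromBlocks continuous_const continuous_const continuous_snd)

/-- diagonal matrices -/
def dg (k : Type) [Fintype k] [DecidableEq k] : (k → ℂ) →* Matrix k k ℂ where
  toFun := diagonal
  map_one' := diagonal_one
  map_mul' p q := (diagonal_mul_diagonal p q).symm

/-- direct sum of line bundles -/
def VB.diag (L : k → LB X) : VB X k :=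
  (Co.pi L).map (dg k) continuous_id.matrix_diagonal

/-- scalar times matrix -/
def scl (n : Type) [Fintype n] [DecidableEq n] : ℂ × Matrix n n ℂ →* Matrix n n ℂ where
  toFun p := p.1 • p.2
  map_one' := one_smul _ _
  map_mul' p q := by simp [smul_smul, mul_comm]

/-- tensor product with a line bundle -/
def VB.tw (L : LB X) (V : VB X n) : VB X n :=
  (L.prod V).map (scl n) (continuous_fst.smul continuous_snd)

/-- a map of vector bundles over the open set `W` -/
def VB.HomOn (V : VB X n) (V' : VB X m) (W : Set X) (f : V.ι → V'.ι → X → Matrix m n ℂ) : Prop :=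
  (∀ i j, ContinuousOn (f i j) (V.U i ∩ V'.U j ∩ W)) ∧
    ∀ i i' j j' x, x ∈ V.U i → x ∈ V.U i' → x ∈ V'.U j → x ∈ V'.U j' → x ∈ W →
      f i j x * V.g i i' x = V'.g j j' x * f i' j' x

/-- a map of vector bundles -/
abbrev VB.Hom (V : VB X n) (V' : VB X m) (f : V.ι → V'.ι → X → Matrix m n ℂ) : Prop :=
  V.HomOn V' univ f

/-- isomorphic vector bundles -/
def VB.Iso (V : VB X n) (V' : VB X m) : Prop :=
  ∃ f, V.Hom V' f ∧ ∀ i j x, x ∈ V.U i → x ∈ V'.U j → Function.Bijective (f i j x).mulVec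

/-- a short exact sequence of vector bundles -/
def VB.Ex (A : VB X n) (B : VB X m) (D : VB X k) : Prop :=
  ∃ a p, A.Hom B a ∧ B.Hom D p ∧ ∀ i j l x, x ∈ A.U i → x ∈ B.U j → x ∈ D.U l →
    Function.Injective (a i j x).mulVec ∧ Function.Surjective (p j l x).mulVec ∧
      Function.Exact (a i j x).mulVec (p j l x).mulVec

/-- a line bundle as a vector bundle -/
def LB.vb (L : LB X) : VB X Unit := VB.diag fun _ => L

/-! ### twisted bundles -/

/-- pull back of a twisted bundle -/
def TB.pb (f : C(Y, X)) (T : TB X n) : TB Y n where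
  toCov := T.toCov.pb f
  g i j y := T.g i j (f y)
  ct i j := (T.ct i j).comp f.continuous.continuousOn fun _ h => h
  nz i j y := T.nz i j (f y)
  cc i j l y := T.cc i j l (f y)

/-- isomorphic twisted bundles -/
def TB.Iso (T T' : TB X n) : Prop :=
  ∃ f : T.ι → T'.ι → X → Matrix n n ℂ, (∀ i j, ContinuousOn (f i j) (T.U i ∩ T'.U j)) ∧
    (∀ i j x, x ∈ T.U i → x ∈ T'.U j → (f i j x).det ≠ 0) ∧
    ∀ i i' j j' x, x ∈ T.U i → x ∈ T.U i' → x ∈ T'.U j → x ∈ T'.U j' →
      ∃ c : ℂ, f i j x * T.g i i' x = c • (T'.g j j' x * f i' j' x)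

/-- the matrix of `a ↦ g a g⁻¹` -/
def adj (g : Matrix n n ℂ) : Matrix (n × n) (n × n) ℂ := g ⊗ₖ (g⁻¹)ᵀ

theorem adj_mul (g h : Matrix n n ℂ) : adj (g * h) = adj g * adj h := by
  rw [adj, adj, adj, Matrix.mul_inv_rev, transpose_mul, mul_kronecker_mul]

theorem adj_one : adj (1 : Matrix n n ℂ) = 1 := by
  rw [adj, inv_one, transpose_one, one_kronecker_one]

theorem adj_smul {c : ℂ} (hc : c ≠ 0) {g : Matrix n n ℂ} (hg : g.det ≠ 0) :
    adj (c • g) = adj g := by
  have : (c • g)⁻¹ = c⁻¹ • g⁻¹ := by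
    refine Matrix.inv_eq_right_inv ?_
    rw [Matrix.smul_mul, Matrix.mul_smul, smul_smul, mul_inv_cancel₀ hc, one_smul,
      Matrix.mul_nonsing_inv _ (Ne.isUnit hg)]
  rw [adj, adj, this, transpose_smul, smul_kronecker, kronecker_smul, smul_smul,
    mul_inv_cancel₀ hc, one_smul]

theorem adj_of_eq {c : ℂ} {g h : Matrix n n ℂ} (hg : g.det ≠ 0) (e : g = c • h) :
    adj g = adj h := by
  rcases isEmpty_or_nonempty n with hn | hn
  · exact Subsingleton.elim _ _
  have h1 := e ▸ hg
  rw [det_smul] at h1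
  have hc : c ≠ 0 := fun h0 => by
    simp [h0, Fintype.card_ne_zero] at h1
  rw [e, adj_smul hc (right_ne_zero_of_mul h1)]

theorem ctOn_inv {s : Set X} {g : X → Matrix n n ℂ} (hg : ContinuousOn g s)
    (h : ∀ x ∈ s, (g x).det ≠ 0) : ContinuousOn (fun x => (g x)⁻¹) s := by
  have h1 : ContinuousOn (fun x => ((g x).det)⁻¹ • (g x).adjugate) s :=
    ((continuous_id.matrix_det.comp_continuousOn hg).inv₀ h).smul
      (continuous_id.matrix_adjugate.comp_continuousOn hg)
  refine h1.congr fun x _ => ?_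
  rw [Matrix.inv_def, Ring.inverse_eq_inv']

theorem ctOn_adj {s : Set X} {g : X → Matrix n n ℂ} (hg : ContinuousOn g s)
    (h : ∀ x ∈ s, (g x).det ≠ 0) : ContinuousOn (fun x => adj (g x)) s := by
  refine continuousOn_pi.2 fun a => continuousOn_pi.2 fun b => ?_
  exact ((continuousOn_pi.1 (continuousOn_pi.1 hg a.1) b.1)).mul
    (continuousOn_pi.1 (continuousOn_pi.1 (ctOn_inv hg h) b.2) a.2)

/-- the bundle of endomorphisms of a twisted bundle -/
def TB.End (T : TB X n) : VB X (n × n) where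
  toCov := T.toCov
  g i j x := adj (T.g i j x)
  ct i j := ctOn_adj (T.ct i j) fun x h => T.nz i j x h.1 h.2
  id i x h := by
    obtain ⟨c, hc⟩ := T.cc i i i x h h h
    have h1 := T.nz i i x h h
    have h2 : T.g i i x = c • (1 : Matrix n n ℂ) := by
      have := congrArg (· * (T.g i i x)⁻¹) hc
      simpa [Matrix.mul_assoc, Matrix.mul_nonsing_inv _ (Ne.isUnit h1)] using this
    rw [adj_of_eq h1 h2, adj_one]
  cc i j l x hi hj hl := by
    obtain ⟨c, hc⟩ := T.cc i j l x hi hj hl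
    rw [← adj_mul]
    refine adj_of_eq ?_ hc
    rw [det_mul]
    exact mul_ne_zero (T.nz i j x hi hj) (T.nz j l x hj hl)

/-! ### fibres which are projective spaces -/

/-- `F ⊆ Y` is a projective space of dimension `r` on which `L` is the power `e` of the
tautological bundle -/
def PFib (L : LB Y) (F : Set Y) (r e : ℕ) : Prop :=
  ∃ (q : (Fin (r + 1) → ℂ) → Y) (s : L.ι → (Fin (r + 1) → ℂ) → ℂ),
    ContinuousOn q {0}ᶜ ∧ q '' {0}ᶜ = F ∧
    (∀ v w, v ≠ 0 → w ≠ 0 → (q v = q w ↔ ∃ c : ℂ, v = c • w)) ∧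
    (∀ i, ContinuousOn (s i) ({0}ᶜ ∩ q ⁻¹' L.U i)) ∧
    (∀ i v, v ≠ 0 → q v ∈ L.U i → s i v ≠ 0) ∧
    (∀ i v (c : ℂ), v ≠ 0 → c ≠ 0 → q v ∈ L.U i → s i (c • v) = c ^ e * s i v) ∧
    ∀ i j v, v ≠ 0 → q v ∈ L.U i → q v ∈ L.U j → s i v = L.g i j (q v) * s j v

/-- locally compact, Hausdorff, second countable -/
class Nc (X : Type) [TopologicalSpace X] : Prop where
  lc : LocallyCompactSpace X
  t2 : T2Space X
  sc : SecondCountableTopology X

instance [h : Nc X] : LocallyCompactSpace X := h.lc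
instance [h : Nc X] : T2Space X := h.t2
instance [h : Nc X] : SecondCountableTopology X := h.sc

/-- the inclusion of a subset -/
def inc (W : Set X) : C(W, X) := ⟨Subtype.val, continuous_subtype_val⟩

/-- A cohomology theory with first Chern classes. -/
structure Th : Type 2 where
  H : (X : Type) → [TopologicalSpace X] → Type
  ring : ∀ (X : Type) [TopologicalSpace X], Ring (H X)
  alg : ∀ (X : Type) [TopologicalSpace X], Algebra ℂ (H X)
  pb : ∀ {X Y : Type} [TopologicalSpace X] [TopologicalSpace Y], C(X, Y) → H Y →ₐ[ℂ] H X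
  pb_id : ∀ (X : Type) [TopologicalSpace X] (a : H X), pb (ContinuousMap.id X) a = a
  pb_comp : ∀ {X Y Z : Type} [TopologicalSpace X] [TopologicalSpace Y] [TopologicalSpace Z]
    (f : C(X, Y)) (g : C(Y, Z)) (a : H Z), pb (g.comp f) a = pb f (pb g a)
  pr : ∀ (X : Type) [TopologicalSpace X], ℤ → H X →ₗ[ℂ] H X
  pr_pb : ∀ {X Y : Type} [TopologicalSpace X] [TopologicalSpace Y] (f : C(X, Y)) (j : ℤ)
    (a : H Y), pr X j (pb f a) = pb f (pr Y j a)
  pr_pr : ∀ (X : Type) [TopologicalSpace X] (i j : ℤ) (a : H X),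
    pr X i (pr X j a) = if i = j then pr X j a else 0
  pr_sum : ∀ (X : Type) [TopologicalSpace X] (a : H X),
    ∃ s : Finset ℤ, ∑ j ∈ s, pr X j a = a
  pr_one : ∀ (X : Type) [TopologicalSpace X], pr X 0 1 = 1
  pr_neg : ∀ (X : Type) [TopologicalSpace X] (j : ℤ) (a : H X), j < 0 → pr X j a = 0
  pr_mul : ∀ (X : Type) [TopologicalSpace X] (i j : ℤ) (a b : H X),
    pr X i a = a → pr X j b = b → pr X (i + j) (a * b) = a * b
  comm : ∀ (X : Type) [TopologicalSpace X] [Nc X] (i j : ℤ) (a b : H X),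
    pr X i a = a → pr X j b = b → a * b = (i * j).negOnePow • (b * a)
  empty : ∀ (X : Type) [TopologicalSpace X] [IsEmpty X] (a : H X), a = 0
  mv : ∀ (X : Type) [TopologicalSpace X] [Nc X] (W W' : Set X) (a b : H X), IsOpen W → IsOpen W' →
    W ∪ W' = univ → pb (inc W) a = 0 → pb (inc W') b = 0 → a * b = 0
  c1 : ∀ {X : Type} [TopologicalSpace X], LB X → H X
  c1_deg : ∀ {X : Type} [TopologicalSpace X] (L : LB X), pr X 2 (c1 L) = c1 L
  c1_pb : ∀ {X Y : Type} [TopologicalSpace X] [TopologicalSpace Y] [Nc X] [Nc Y] (f : C(X, Y))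
    (L : LB Y), c1 (L.pb f) = pb f (c1 L)
  c1_mul : ∀ {X : Type} [TopologicalSpace X] [Nc X] (L L' : LB X), c1 (L.mul L') = c1 L + c1 L'
  c1_triv : ∀ {X : Type} [TopologicalSpace X] [Nc X] (L : LB X), L.Triv → c1 L = 0
  lh : ∀ {X Y : Type} [TopologicalSpace X] [TopologicalSpace Y] [Nc X] [Nc Y] (π : C(Y, X))
    (L : LB Y) (r e : ℕ), IsProperMap π → e ≠ 0 → (∀ x, PFib L (π ⁻¹' {x}) r e) →
    Function.Bijective fun a : Fin (r + 1) → H X => ∑ i, pb π (a i) * c1 L ^ (i : ℕ)

attribute [instance] Th.ring Th.alg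

end P275CC
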