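import Vale.Agent.P275CC.Tw

/-! Elementary transformations of vector bundles and their characteristic classes. -/

set_option linter.unusedSectionVars false
set_option backward.isDefEq.respectTransparency false

open Set Matrix Topology Filter

noncomputable section

namespace P275CC

variable {X : Type} [TopologicalSpace X]
variable {n m k : Type} [Fintype n] [DecidableEq n] [Fintype m] [DecidableEq m] [Fintype k]
  [DecidableEq k]

theorem VB.ex_loc (A : VB X n) (B : VB X m) (D : VB X k) {κ : Type} (O : κ → Set X)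
    (a : κ → A.ι) (b : κ → B.ι) (d : κ → D.ι) (f : κ → X → Matrix m n ℂ)
    (p : κ → X → Matrix k m ℂ) (op : ∀ c, IsOpen (O c)) (cov : ∀ x, ∃ c, x ∈ O c)
    (ha : ∀ c, O c ⊆ A.U (a c)) (hb : ∀ c, O c ⊆ B.U (b c)) (hd : ∀ c, O c ⊆ D.U (d c))
    (cf : ∀ c, ContinuousOn (f c) (O c)) (cp : ∀ c, ContinuousOn (p c) (O c))
    (lf : ∀ c c' x, x ∈ O c → x ∈ O c' →
      f c x * A.g (a c) (a c') x = B.g (b c) (b c') x * f c' x)
    (lp : ∀ c c' x, x ∈ O c → x ∈ O c' →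
      p c x * B.g (b c) (b c') x = D.g (d c) (d c') x * p c' x)
    (ex : ∀ c, ∀ x ∈ O c, Function.Injective (f c x).mulVec ∧
      Function.Surjective (p c x).mulVec ∧ Function.Exact (f c x).mulVec (p c x).mulVec) :
    A.Ex B D := by
  obtain ⟨F, hF, e⟩ := A.homOn_loc B univ O a b f op (fun x _ => cov x) ha hb
    (fun c => (cf c).mono inter_subset_left) fun c c' x h h' _ => lf c c' x h h'
  obtain ⟨P, hP, e'⟩ := B.homOn_loc D univ O b d p op (fun x _ => cov x) hb hd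
    (fun c => (cp c).mono inter_subset_left) fun c c' x h h' _ => lp c c' x h h'
  refine ⟨F, P, hF, hP, fun i j l x hi hj hl => ?_⟩
  obtain ⟨c, hc⟩ := cov x
  obtain ⟨e1, e2, e3⟩ := ex c x hc
  rw [e c i j x hc hi hj trivial, e' c j l x hc hj hl trivial]
  simp only [mulVec_mul]
  refine ⟨((B.bij hj (hb c hc)).1.comp e1).comp (A.bij (ha c hc) hi).1,
    ((D.bij hl (hd c hc)).2.comp e2).comp (B.bij (hb c hc) hj).2, fun v => ?_⟩
  have h0 : ∀ w, D.g l (d c) x *ᵥ w = 0 ↔ w = 0 := fun w =>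
    map_eq_zero_iff (D.g l (d c) x).mulVecLin (D.bij hl (hd c hc)).1
  simp only [Function.comp_apply, h0, e3 _, mem_range]
  constructor
  · rintro ⟨u, hu⟩
    obtain ⟨u, rfl⟩ := (A.bij (ha c hc) hi).2 u
    exact ⟨u, by rw [hu, mulVec_mulVec, B.inv hj (hb c hc), one_mulVec]⟩
  · rintro ⟨u, rfl⟩
    exact ⟨_, by rw [mulVec_mulVec _ (B.g _ _ x), B.inv (hb c hc) hj, one_mulVec]⟩

theorem adjugate_ne {M : Matrix n n ℂ} {s : n → ℂ} (hs : s ≠ 0)
    (h : ∀ v, M *ᵥ v = 0 ↔ ∃ c : ℂ, v = c • s) : ∃ a b, M.adjugate a b ≠ 0 := by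
  obtain ⟨a, ha⟩ := Function.ne_iff.1 hs
  obtain ⟨w, hw, h1⟩ := exists_vecMul_eq_zero_iff.2
    (exists_mulVec_eq_zero_iff.1 ⟨s, hs, (h s).2 ⟨1, (one_smul _ _).symm⟩⟩)
  obtain ⟨b, hb⟩ := Function.ne_iff.1 hw
  refine ⟨a, b, ?_⟩
  rw [adjugate_apply]
  intro h0
  obtain ⟨v, hv, h2⟩ := exists_mulVec_eq_zero_iff.2 h0
  have h3 : ∀ c, c ≠ b → (M *ᵥ v) c = 0 := fun c hc => by
    have := congrFun h2 c
    rwa [mulVec, updateRow_ne hc] at this
  have h4 : v a = 0 := by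
    have := congrFun h2 b
    rwa [mulVec, updateRow_self, single_dotProduct, one_mul] at this
  have h5 : w b * (M *ᵥ v) b = 0 := by
    rw [← Finset.sum_eq_single (s := Finset.univ) (f := fun c => w c * (M *ᵥ v) c) b
      (fun c _ hc => by rw [h3 c hc, mul_zero]) (by simp)]
    change w ⬝ᵥ M *ᵥ v = 0
    rw [dotProduct_mulVec, h1, zero_dotProduct]
  obtain ⟨c, rfl⟩ := (h v).1 (funext fun c => by
    by_cases e : c = b
    · exact e ▸ (mul_eq_zero.1 h5).resolve_left hb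
    · exact h3 c e)
  exact hv (by rw [(mul_eq_zero.1 h4).resolve_right ha, zero_smul])

theorem adjugate_of_inv {g h : Matrix n n ℂ} (e : g * h = 1) : g.adjugate = g.det • h := by
  rw [← Matrix.mul_one g.adjugate, ← e, ← Matrix.mul_assoc, adjugate_mul, Matrix.smul_mul,
    Matrix.one_mul]

/-- the pointwise exact sequence -/
theorem hk_exact {M : Matrix n n ℂ} {w : n → ℂ} (h : M.det ≠ 0 ∨ (M.adjugate *ᵥ w ≠ 0 ∧
    ∀ v, M *ᵥ v = 0 → ∃ c : ℂ, v = c • M.adjugate *ᵥ w)) :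
    Function.Injective (fromRows (cm (M.adjugate *ᵥ w)) (-M.det • 1 : Matrix Unit Unit ℂ)).mulVec ∧
    Function.Surjective (fromCols M (cm w)).mulVec ∧
    Function.Exact (fromRows (cm (M.adjugate *ᵥ w)) (-M.det • 1 : Matrix Unit Unit ℂ)).mulVec
      (fromCols M (cm w)).mulVec := by
  set f := fromRows (cm (M.adjugate *ᵥ w)) (-M.det • 1 : Matrix Unit Unit ℂ) with hf
  have e1 : ∀ u, (f *ᵥ u) ∘ Sum.inl = u () • M.adjugate *ᵥ w := fun u => by
    rw [hf, fromRows_mulVec, Sum.elim_comp_inl, cm_mulVec]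
  have e2 : ∀ u, (f *ᵥ u) (Sum.inr ()) = -M.det * u () := fun u => by
    rw [hf, fromRows_mulVec, Sum.elim_inr, smul_mulVec, one_mulVec, Pi.smul_apply, smul_eq_mul]
  have e3 : ∀ v, fromCols M (cm w) *ᵥ v = M *ᵥ (v ∘ Sum.inl) + v (Sum.inr ()) • w := fun v => by
    rw [fromCols_mulVec, cm_mulVec]
    rfl
  have e4 : M *ᵥ (M.adjugate *ᵥ w) = M.det • w := by
    rw [mulVec_mulVec, mul_adjugate, smul_mulVec, one_mulVec]
  have i1 : Function.Injective f.mulVecLin := (injective_iff_map_eq_zero _).2 fun u hu => by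
    have a := e1 u
    have b := e2 u
    rw [mulVecLin_apply] at hu
    rw [hu] at a b
    refine funext fun _ => ?_
    rcases h with h | h
    · exact (mul_eq_zero.1 b.symm).resolve_left (neg_ne_zero.2 h)
    · exact (smul_eq_zero.1 a.symm).resolve_right h.1
  have i2 : Function.Exact f.mulVecLin (fromCols M (cm w)).mulVecLin := fun v => by
    constructor
    · intro hv
      rw [mulVecLin_apply, e3] at hv
      have a := congrArg (M.adjugate *ᵥ ·) hv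
      simp only [mulVec_add, mulVec_mulVec, adjugate_mul, smul_mulVec, one_mulVec, mulVec_smul,
        mulVec_zero] at a
      have key : ∃ c : ℂ, c • M.adjugate *ᵥ w = v ∘ Sum.inl ∧ -M.det * c = v (Sum.inr ()) := by
        by_cases hd : M.det = 0
        · obtain ⟨h1, h2⟩ := h.resolve_left (not_not.2 hd)
          rw [hd, zero_smul, zero_add] at a
          have b := (smul_eq_zero.1 a).resolve_right h1
          rw [b, zero_smul, add_zero] at hv
          obtain ⟨c, hc⟩ := h2 _ hv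
          exact ⟨c, hc.symm, by rw [hd, b, neg_zero, zero_mul]⟩
        · refine ⟨-v (Sum.inr ()) / M.det, smul_right_injective _ hd ?_, by field_simp⟩
          simp only [smul_smul]
          rw [mul_div_cancel₀ _ hd, neg_smul, eq_neg_of_add_eq_zero_left a]
      obtain ⟨c, h1, h2⟩ := key
      refine ⟨fun _ => c, funext fun s => ?_⟩
      rcases s with s | s
      · exact congrFun ((e1 fun _ => c).trans h1) s
      · exact (e2 fun _ => c).trans h2
    · rintro ⟨u, rfl⟩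
      rw [mulVecLin_apply, mulVecLin_apply, e3, e1, e2, mulVec_smul, e4, smul_smul, ← add_smul]
      simp [mul_comm]
  refine ⟨i1, ?_, i2⟩
  have r1 := (fromCols M (cm w)).mulVecLin.finrank_range_add_finrank_ker
  rw [i2.linearMap_ker_eq, LinearMap.finrank_range_of_inj i1] at r1
  exact LinearMap.range_eq_top.1 (Submodule.eq_top_of_finrank_eq
    (S := (fromCols M (cm w)).mulVecLin.range) (by simpa using r1))

/-- **Elementary transformation.** -/
theorem VB.hk_ex [Nc X] {V V' : VB X n} {ι} (hι : V.Hom V' ι) {D : Set X} (hD : IsClosed D)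
    (off : ∀ i j x, x ∈ V.U i → x ∈ V'.U j → x ∉ D → (ι i j x).det ≠ 0)
    (s : V.ι → X → n → ℂ) (Ω : V.ι → Set X) (op : ∀ i, IsOpen (Ω i))
    (sub : ∀ i, V.U i ∩ D ⊆ Ω i) (ct : ∀ i, ContinuousOn (s i) (Ω i))
    (law : ∀ i j x, x ∈ V.U i → x ∈ V.U j → x ∈ D → s i x = V.g i j x *ᵥ s j x)
    (ne : ∀ i x, x ∈ V.U i → x ∈ D → s i x ≠ 0)
    (ker : ∀ i j x, x ∈ V.U i → x ∈ V'.U j → x ∈ D →
      ∀ v, ι i j x *ᵥ v = 0 ↔ ∃ c : ℂ, v = c • s i x) :
    (LB.vb (Co.one X ℂ)).Ex (V.sum (V'.det.mul V.det.dual).vb) V' := by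
  have cι : ∀ i j, ContinuousOn (ι i j) (V.U i ∩ V'.U j) := fun i j =>
    (hι.1 i j).mono fun _ h => ⟨h, trivial⟩
  have cα : ∀ i j, ContinuousOn (fun x => (ι i j x).adjugate) (V.U i ∩ V'.U j) := fun i j =>
    continuous_id.matrix_adjugate.comp_continuousOn (cι i j)
  have loc : ∀ x₀, ∃ (i : V.ι) (j : V'.ι) (O : Set X) (u : X → n → ℂ), IsOpen O ∧ x₀ ∈ O ∧
      O ⊆ V.U i ∩ V'.U j ∧ ContinuousOn u O ∧
      ∀ x ∈ O, x ∈ D → (ι i j x).adjugate *ᵥ u x = s i x := fun x₀ => by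
    obtain ⟨i, hi⟩ := V.cov x₀
    obtain ⟨j, hj⟩ := V'.cov x₀
    by_cases h : x₀ ∈ D
    · obtain ⟨a, b, hab⟩ := adjugate_ne (ne i x₀ hi h) (ker i j x₀ hi hj h)
      refine ⟨i, j, (V.U i ∩ V'.U j ∩ (fun x => (ι i j x).adjugate a b) ⁻¹' {0}ᶜ) ∩ Ω i,
        fun x => (s i x a / (ι i j x).adjugate a b) • Pi.single b 1,
        ((ctOn_ent (cα i j) a b).isOpen_inter_preimage ((V.op i).inter (V'.op j))
          isOpen_compl_singleton).inter (op i), ⟨⟨⟨hi, hj⟩, hab⟩, sub i ⟨hi, h⟩⟩,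
        fun _ h => h.1.1, (((continuousOn_pi.1 (ct i) a).mono inter_subset_right).div
          ((ctOn_ent (cα i j) a b).mono fun _ h => h.1.1) fun _ h => h.1.2).smul
          continuousOn_const, fun x hx hd => ?_⟩
      have k := ker i j x hx.1.1.1 hx.1.1.2 hd
      have d0 : (ι i j x).det = 0 := exists_mulVec_eq_zero_iff.1
        ⟨_, ne i x hx.1.1.1 hd, (k _).2 ⟨1, (one_smul _ _).symm⟩⟩
      obtain ⟨c, hc⟩ := (k ((ι i j x).adjugate *ᵥ Pi.single b 1)).1 (by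
        rw [mulVec_mulVec, mul_adjugate, d0, zero_smul, zero_mulVec])
      have e : (ι i j x).adjugate a b = c * s i x a := by simpa using congrFun hc a
      have e0 : c * s i x a ≠ 0 := e ▸ hx.1.2
      rw [mulVec_smul, hc, smul_smul, e, mul_comm c, div_mul_eq_mul_div, div_self
        (by rwa [mul_comm]), one_smul]
    · exact ⟨i, j, V.U i ∩ V'.U j ∩ Dᶜ, fun _ => 0,
        ((V.op i).inter (V'.op j)).inter hD.isOpen_compl, ⟨⟨hi, hj⟩, h⟩, inter_subset_left,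
        continuousOn_const, fun x hx hd => (hx.2 hd).elim⟩
  choose I J O u op' mem sub' cu hu using loc
  obtain ⟨ρ, hρ⟩ := exists_pou O op' fun x => ⟨x, mem x⟩
  set N := V'.det.mul V.det.dual with hN
  have Ng : ∀ j i j' i' x, N.g (j, i) (j', i') x = (V'.g j j' x).det * (V.g i' i x).det :=
    fun _ _ _ _ _ => rfl
  have adj : ∀ {i i' j j' x}, x ∈ V.U i → x ∈ V.U i' → x ∈ V'.U j → x ∈ V'.U j' → ∀ v,
      (ι i j x).adjugate *ᵥ (N.g (j', i') (j, i) x • V'.g j j' x *ᵥ v) =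
        V.g i i' x *ᵥ ((ι i' j' x).adjugate *ᵥ v) := by
    intro i i' j j' x hi hi' hj hj' v
    rw [hι.eq hi hi' hj hj' trivial, adjugate_mul_distrib, adjugate_mul_distrib,
      adjugate_of_inv (V.inv hi' hi), adjugate_of_inv (V'.inv hj hj'), mulVec_smul, mulVec_mulVec,
      mulVec_mulVec]
    simp only [Matrix.smul_mul, Matrix.mul_smul, smul_mulVec, smul_smul, Matrix.mul_assoc,
      V'.inv hj' hj, Matrix.mul_one]
    rw [← Ng, N.inv (i := (j', i')) (j := (j, i)) ⟨hj', hi'⟩ ⟨hj, hi⟩,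
      one_smul]
  set W : V.ι × V'.ι → X → n → ℂ := fun c x =>
    ∑ᶠ y, ρ y x • (N.g (J y, I y) (c.2, c.1) x • V'.g c.2 (J y) x *ᵥ u y x) with hW
  have cW : ∀ c, ContinuousOn (W c) (V.U c.1 ∩ V'.U c.2) := fun c =>
    ctOn_pou ρ op' hρ ((V.op _).inter (V'.op _)) fun y =>
      ((N.ct (J y, I y) (c.2, c.1)).mono fun x h =>
        ⟨⟨(sub' y h.2).2, (sub' y h.2).1⟩, h.1.2, h.1.1⟩).smul
        (ctOn_mulVec ((V'.ct _ _).mono fun x h => ⟨h.1.2, (sub' y h.2).2⟩)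
          ((cu y).mono inter_subset_right))
  have lW : ∀ c c' x, x ∈ V.U c.1 ∩ V'.U c.2 → x ∈ V.U c'.1 ∩ V'.U c'.2 →
      N.g (c.2, c.1) (c'.2, c'.1) x • W c x = V'.g c.2 c'.2 x *ᵥ W c' x := fun c c' x h h' =>
    pou_map ρ hρ
      ((LinearMap.lsmul ℂ (n → ℂ) (N.g (c.2, c.1) (c'.2, c'.1) x)).restrictScalars ℝ)
      ((V'.g c.2 c'.2 x).mulVecLin.restrictScalars ℝ) (x := x)
      (f := fun y => N.g (J y, I y) (c.2, c.1) x • V'.g c.2 (J y) x *ᵥ u y x)
      (f' := fun y => N.g (J y, I y) (c'.2, c'.1) x • V'.g c'.2 (J y) x *ᵥ u y x) fun y hy => by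
        change N.g (c.2, c.1) (c'.2, c'.1) x • _ • _ = V'.g c.2 c'.2 x *ᵥ _
        rw [mulVec_smul, mulVec_mulVec, V'.cc _ _ _ x h.2 h'.2 (sub' y hy).2, smul_smul, mul_comm,
          N.cc (J y, I y) (c.2, c.1) (c'.2, c'.1) x ⟨(sub' y hy).2, (sub' y hy).1⟩ ⟨h.2, h.1⟩
            ⟨h'.2, h'.1⟩]
  refine VB.ex_loc _ _ _ (κ := V.ι × V'.ι) (fun c => V.U c.1 ∩ V'.U c.2) (fun _ _ => ())
    (fun c => (c.1, fun _ => (c.2, c.1))) Prod.snd
    (fun c x => fromRows (cm ((ι c.1 c.2 x).adjugate *ᵥ W c x)) (-(ι c.1 c.2 x).det • 1))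
    (fun c x => fromCols (ι c.1 c.2 x) (cm (W c x))) (fun c => (V.op _).inter (V'.op _))
    (fun x => ?_) (fun _ _ _ => LB.mem_vb.2 trivial)
    (fun c x h => ⟨h.1, LB.mem_vb.2 ⟨h.2, h.1⟩⟩) (fun _ => inter_subset_right) ?_ ?_ ?_ ?_
    fun c x hx => hk_exact ?_
  · obtain ⟨i, hi⟩ := V.cov x
    obtain ⟨j, hj⟩ := V'.cov x
    exact ⟨(i, j), hi, hj⟩
  rotate_left 4
  · by_cases hd : x ∈ D
    · have e := pou_eq ρ hρ ((ι c.1 c.2 x).adjugate.mulVecLin.restrictScalars ℝ) (x := x)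
        (f := fun y => N.g (J y, I y) (c.2, c.1) x • V'.g c.2 (J y) x *ᵥ u y x) (y := s c.1 x)
        fun y hy => (adj hx.1 (sub' y hy).1 hx.2 (sub' y hy).2 _).trans (by
          rw [hu y x hy hd, ← law _ _ x hx.1 (sub' y hy).1 hd])
      have e' : (ι c.1 c.2 x).adjugate *ᵥ W c x = s c.1 x := e
      rw [e']
      exact Or.inr ⟨ne _ x hx.1 hd, fun v => (ker _ _ x hx.1 hx.2 hd v).1⟩
    · exact Or.inl (off _ _ x hx.1 hx.2 hd)
  · refine fun c => continuousOn_pi.2 fun a => continuousOn_pi.2 fun b => ?_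
    rcases a with a | a
    · exact ctOn_ent (ctOn_cm (ctOn_mulVec (cα _ _) (cW c))) a b
    · exact ctOn_ent ((ctOn_det (cι _ _)).neg.smul continuousOn_const) a b
  · refine fun c => continuousOn_pi.2 fun a => continuousOn_pi.2 fun b => ?_
    rcases b with b | b
    · exact ctOn_ent (cι _ _) a b
    · exact ctOn_ent (ctOn_cm (cW c)) a b
  · intro c c' x h h'
    change _ = fromBlocks (V.g c.1 c'.1 x) 0 0 (N.vb.g _ _ x) * fromRows _ _
    rw [fromBlocks_mul_fromRows, LB.vb_g, LB.vb_g, show (Co.one X ℂ).g () () x = 1 from rfl,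
      one_smul, Matrix.mul_one, Matrix.zero_mul, Matrix.zero_mul, add_zero, zero_add, mul_cm,
      ← adj h.1 h'.1 h.2 h'.2, ← lW c c' x h h', smul_smul,
      N.inv (i := (c'.2, c'.1)) (j := (c.2, c.1)) ⟨h'.2, h'.1⟩ ⟨h.2, h.1⟩, one_smul, Ng,
      hι.eq h.1 h'.1 h.2 h'.2 trivial, det_mul, det_mul, Matrix.smul_mul, Matrix.one_mul,
      smul_smul]
    congr 2
    ring
  · intro c c' x h h'
    change fromCols _ _ * fromBlocks (V.g c.1 c'.1 x) 0 0 (N.vb.g _ _ x) = _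
    rw [fromCols_mul_fromBlocks, LB.vb_g, Matrix.mul_zero, Matrix.mul_zero, add_zero, zero_add,
      Matrix.mul_smul, Matrix.mul_one, ← cm_smul, lW c c' x h h', mul_fromCols, mul_cm,
      hι.2 _ _ _ _ x h.1 h'.1 h.2 h'.2 trivial]

theorem Th.p2_hk {τ : Th} [Nc X] {V V' : VB X n}
    (h : (LB.vb (Co.one X ℂ)).Ex (V.sum (V'.det.mul V.det.dual).vb) V') :
    τ.p2 V'.tb.End = τ.p2 V.tb.End + (2 * Fintype.card n - 2) * (τ.p1 V' - τ.p1 V) ^ 2 -
      4 * τ.p1 V * (τ.p1 V' - τ.p1 V) := by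
  have := Th.p2_ex (τ := τ) h
  rw [Th.p2_sum, Th.p2_vb, Th.p2_vb, Th.c_one, Th.c_mul, Th.c_dual, ← Th.p1_det, ← Th.p1_det,
    zero_pow two_ne_zero, zero_add] at this
  rw [Th.p2_end, Th.p2_end, ← this, nsmul_eq_mul, nsmul_eq_mul]
  ring

end P275CC
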