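import Vale.Agent.P275CC.Pj

/-! Bundles attached to a line: the untwisted bundle, the tautological line bundles, the
quotient. -/

set_option linter.unusedSectionVars false

open Set Matrix Topology Filter

noncomputable section

namespace P275CC

variable {X Y Z : Type} [TopologicalSpace X] [TopologicalSpace Y] [TopologicalSpace Z]
variable {n m : Type} [Fintype n] [DecidableEq n] [Fintype m] [DecidableEq m]

namespace TB.Ln

variable {T : TB X n} {f : C(Y, X)} (L : T.Ln f)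

/-- the cover on which the line has a generator -/
def cv : Cov Y where
  ι := T.ι × n
  U c := f ⁻¹' T.U c.1 ∩ (fun y => L.q c.1 y c.2 c.2) ⁻¹' {0}ᶜ
  op c := (ctOn_ent (L.ct c.1) c.2 c.2).isOpen_inter_preimage
    ((T.op _).preimage f.continuous) isOpen_compl_singleton
  cov y := by
    obtain ⟨i, hi⟩ := T.cov (f y)
    obtain ⟨a, ha⟩ := PJ.ex (L.mem i y hi)
    exact ⟨(i, a), hi, ha⟩

/-- the local generator of the line -/
def vec (c : T.ι × n) (y : Y) : n → ℂ := cl (L.q c.1 y) c.2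

/-- the transition functions of the local generators -/
def co (c c' : T.ι × n) (y : Y) : ℂ :=
  (T.g c.1 c'.1 (f y) *ᵥ L.vec c' y) c.2 / L.q c.1 y c.2 c.2

variable {L}

theorem vec_ne {c : T.ι × n} {y : Y} (h : y ∈ L.cv.U c) : L.vec c y ≠ 0 := cl_ne h.2

theorem vec_self {c : T.ι × n} {y : Y} (h : y ∈ L.cv.U c) : L.vec c y c.2 ≠ 0 := h.2

theorem prj_vec {c : T.ι × n} {y : Y} (h : y ∈ L.cv.U c) : prj (L.vec c y) = L.q c.1 y :=
  PJ.prj_cl (L.mem _ y h.1) h.2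

theorem prj_g_vec {c : T.ι × n} {y : Y} (h : y ∈ L.cv.U c) {i : T.ι} (hi : f y ∈ T.U i) :
    prj (T.g i c.1 (f y) *ᵥ L.vec c y) = L.q i y := by
  rw [← act_prj _ (vec_ne h), prj_vec h, ← L.law i c.1 y hi h.1]

theorem g_vec {c c' : T.ι × n} {y : Y} (h : y ∈ L.cv.U c) (h' : y ∈ L.cv.U c') :
    T.g c.1 c'.1 (f y) *ᵥ L.vec c' y = L.co c c' y • L.vec c y :=
  eq_cl (mulVec_ne (T.inj h.1 h'.1) (vec_ne h')) (prj_g_vec h' h.1) h.2

theorem co_ne {c c' : T.ι × n} {y : Y} (h : y ∈ L.cv.U c) (h' : y ∈ L.cv.U c') :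
    L.co c c' y ≠ 0 := fun h0 =>
  mulVec_ne (T.inj h.1 h'.1) (vec_ne h') (by rw [g_vec h h', h0, zero_smul])

theorem ct_vec (c : T.ι × n) : ContinuousOn (L.vec c) (L.cv.U c) :=
  continuousOn_pi.2 fun b => (ctOn_ent (L.ct c.1) b c.2).mono inter_subset_left

theorem ct_g (c c' : T.ι × n) :
    ContinuousOn (fun y => T.g c.1 c'.1 (f y)) (L.cv.U c ∩ L.cv.U c') :=
  (T.ct _ _).comp f.continuous.continuousOn fun _ h => ⟨h.1.1, h.2.1⟩

theorem ct_co (c c' : T.ι × n) : ContinuousOn (L.co c c') (L.cv.U c ∩ L.cv.U c') :=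
  (continuousOn_pi.1 (ctOn_mulVec (ct_g c c') ((ct_vec c').mono inter_subset_right)) c.2).div
    ((ctOn_ent (L.ct c.1) c.2 c.2).mono fun _ h => h.1.1) fun _ h => h.1.2

theorem co_co {c c' c'' : T.ι × n} {y : Y} (h : y ∈ L.cv.U c) (h' : y ∈ L.cv.U c')
    (h'' : y ∈ L.cv.U c'') {κ : ℂ}
    (e : T.g c.1 c'.1 (f y) * T.g c'.1 c''.1 (f y) = κ • T.g c.1 c''.1 (f y)) :
    L.co c c' y * L.co c' c'' y = κ * L.co c c'' y := by
  have h1 := congrArg (· *ᵥ L.vec c'' y) e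
  simp only [← mulVec_mulVec, smul_mulVec] at h1
  rw [g_vec h' h'', mulVec_smul, g_vec h h', g_vec h h'', smul_smul, smul_smul] at h1
  rw [mul_comm]
  exact smul_left_injective ℂ (vec_ne h) h1

theorem co_self {c : T.ι × n} {y : Y} (h : y ∈ L.cv.U c) {κ : ℂ}
    (e : T.g c.1 c.1 (f y) = κ • (1 : Matrix n n ℂ)) : L.co c c y = κ := by
  have h1 := g_vec h h
  rw [e, smul_mulVec, one_mulVec] at h1
  exact (smul_left_injective ℂ (vec_ne h) h1).symm

variable (L)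

/-- the vector bundle `f^* T ⊗ L⁻¹` -/
def vb : VB Y n where
  toCov := L.cv
  g c c' y := (L.co c c' y)⁻¹ • T.g c.1 c'.1 (f y)
  ct c c' := ((ct_co c c').inv₀ fun _ h => co_ne h.1 h.2).smul (ct_g c c')
  id c y h := by
    obtain ⟨κ, e⟩ := T.self h.1
    have := co_ne h h
    rw [co_self h e] at this
    rw [co_self h e, e, smul_smul, inv_mul_cancel₀ this, one_smul]
  cc c c' c'' y h h' h'' := by
    obtain ⟨κ, e⟩ := T.cc _ _ _ _ h.1 h'.1 h''.1
    have h1 := co_co h h' h'' e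
    have h2 := co_ne h h'
    have h3 := co_ne h' h''
    have h4 := co_ne h h''
    rw [Matrix.smul_mul, Matrix.mul_smul, e, smul_smul, smul_smul]
    congr 1
    field_simp
    rw [h1]

/-- the line bundle `L ^ n ⊗ (det T)⁻¹` -/
def lam : LB Y := L.vb.det.dual

theorem vb_vec {c c' : T.ι × n} {y : Y} (h : y ∈ L.cv.U c) (h' : y ∈ L.cv.U c') :
    L.vb.g c c' y *ᵥ L.vec c' y = L.vec c y := by
  change ((L.co c c' y)⁻¹ • T.g c.1 c'.1 (f y)) *ᵥ _ = _
  rw [smul_mulVec, g_vec h h', smul_smul, inv_mul_cancel₀ (co_ne h h'), one_smul]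

theorem iso_vb : (T.pb f).Iso L.vb.tb := by
  refine ⟨fun i c y => T.g c.1 i (f y), fun i c => (T.ct _ _).comp f.continuous.continuousOn
    fun _ h => ⟨h.2.1, h.1⟩, fun i c y hi hc => T.nz _ _ _ hc.1 hi, ?_⟩
  intro i i' c c' y hi hi' hc hc'
  obtain ⟨κ, e⟩ := T.cc c.1 i i' _ hc.1 hi hi'
  obtain ⟨κ', e'⟩ := T.cc c.1 c'.1 i' _ hc.1 hc'.1 hi'
  have h0 : κ' ≠ 0 := by
    rintro rfl
    have := mulVec_ne (T.inj hc.1 hc'.1) (mulVec_ne (T.inj hc'.1 hi') (vec_ne hc))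
    rw [mulVec_mulVec, e'] at this
    simp at this
  refine ⟨κ * L.co c c' y / κ', ?_⟩
  change T.g c.1 i (f y) * T.g i i' (f y) =
    _ • (((L.co c c' y)⁻¹ • T.g c.1 c'.1 (f y)) * T.g c'.1 i' (f y))
  rw [e, Matrix.smul_mul, e', smul_smul, smul_smul]
  congr 1
  have := co_ne hc hc'
  field_simp

end TB.Ln

/-- the line bundle of a line in a vector bundle -/
def TB.Ln.lb {V : VB X n} {f : C(Y, X)} (L : V.tb.Ln f) : LB Y where
  toCov := L.cv
  g := L.co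
  ct := TB.Ln.ct_co
  id c y h := TB.Ln.co_self h (by rw [one_smul]; exact V.id _ _ h.1)
  cc c c' c'' y h h' h'' := by
    rw [TB.Ln.co_co h h' h'' (κ := 1) (by rw [one_smul]; exact V.cc _ _ _ _ h.1 h'.1 h''.1),
      one_mul]

/-! ### the quotient by a line -/

variable {r : ℕ}

/-- the quotient by the line of `v` -/
def pm (v : Fin (r + 1) → ℂ) (a : Fin (r + 1)) : Matrix (Fin r) (Fin (r + 1)) ℂ :=
  Matrix.of fun t s => (if s = a.succAbove t then 1 else 0) -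
    (if s = a then v (a.succAbove t) / v a else 0)

/-- a section of the quotient map -/
def jm (a : Fin (r + 1)) : Matrix (Fin (r + 1)) (Fin r) ℂ :=
  Matrix.of fun s t => if s = a.succAbove t then 1 else 0

theorem pm_mulVec (v w : Fin (r + 1) → ℂ) (a : Fin (r + 1)) (t : Fin r) :
    (pm v a *ᵥ w) t = w (a.succAbove t) - v (a.succAbove t) / v a * w a := by
  simp [pm, mulVec, dotProduct, sub_mul, Finset.sum_sub_distrib]

theorem jm_self (u : Fin r → ℂ) (a : Fin (r + 1)) : (jm a *ᵥ u) a = 0 := by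
  simp [jm, mulVec, dotProduct, (Fin.succAbove_ne a _).symm]

theorem jm_succ (u : Fin r → ℂ) (a : Fin (r + 1)) (t : Fin r) :
    (jm a *ᵥ u) (a.succAbove t) = u t := by
  simp [jm, mulVec, dotProduct]

theorem pm_jm (v : Fin (r + 1) → ℂ) (a : Fin (r + 1)) : pm v a * jm a = 1 :=
  ext_mulVec fun u => funext fun t => by
    rw [← mulVec_mulVec, pm_mulVec, jm_self, jm_succ, one_mulVec, mul_zero, sub_zero]

theorem jm_pm {v : Fin (r + 1) → ℂ} {a : Fin (r + 1)} (h : v a ≠ 0) (w : Fin (r + 1) → ℂ) :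
    jm a *ᵥ (pm v a *ᵥ w) = w - (w a / v a) • v := by
  funext s
  refine a.succAboveCases ?_ (fun t => ?_) s
  · rw [jm_self]
    simp [h]
  · rw [jm_succ, pm_mulVec]
    simp only [Pi.sub_apply, Pi.smul_apply, smul_eq_mul]
    ring

theorem pm_self {v : Fin (r + 1) → ℂ} {a : Fin (r + 1)} (h : v a ≠ 0) : pm v a *ᵥ v = 0 :=
  funext fun t => by rw [pm_mulVec, div_mul_cancel₀ _ h, sub_self]; rfl

theorem pm_eq_zero {v w : Fin (r + 1) → ℂ} {a : Fin (r + 1)} (h : v a ≠ 0)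
    (e : pm v a *ᵥ w = 0) : w = (w a / v a) • v := by
  have := jm_pm h w
  rw [e, mulVec_zero] at this
  exact sub_eq_zero.1 this.symm

theorem ctOn_pm {s : Set X} {v : X → Fin (r + 1) → ℂ} {a : Fin (r + 1)} (hv : ContinuousOn v s)
    (h : ∀ x ∈ s, v x a ≠ 0) : ContinuousOn (fun x => pm (v x) a) s := by
  refine continuousOn_pi.2 fun t => continuousOn_pi.2 fun b => continuousOn_const.sub ?_
  by_cases e : b = a
  · simp only [if_pos e]
    exact (continuousOn_pi.1 hv _).div (continuousOn_pi.1 hv _) h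
  · simp only [if_neg e]
    exact continuousOn_const

namespace TB.Ln

variable {V : VB X (Fin (r + 1))} {f : C(Y, X)} (L : V.tb.Ln f)

theorem pm_g {c c' : V.ι × Fin (r + 1)} {y : Y} (h : y ∈ L.cv.U c) (h' : y ∈ L.cv.U c') :
    pm (L.vec c y) c.2 * V.g c.1 c'.1 (f y) * jm c'.2 * pm (L.vec c' y) c'.2 =
      pm (L.vec c y) c.2 * V.g c.1 c'.1 (f y) := by
  refine ext_mulVec fun w => ?_
  have e : V.g c.1 c'.1 (f y) *ᵥ L.vec c' y = L.co c c' y • L.vec c y := g_vec h h'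
  simp only [← mulVec_mulVec]
  rw [jm_pm (vec_self h'), mulVec_sub, mulVec_smul, e, mulVec_sub, mulVec_smul, mulVec_smul,
    pm_self (vec_self h), smul_zero, smul_zero, sub_zero]

/-- the quotient of `f^* V` by the line -/
def quo : VB Y (Fin r) where
  toCov := L.cv
  g c c' y := pm (L.vec c y) c.2 * V.g c.1 c'.1 (f y) * jm c'.2
  ct c c' := ctOn_mul (ctOn_mul (ctOn_pm ((ct_vec c).mono inter_subset_left)
    fun _ h => vec_self h.1) (ct_g c c')) continuousOn_const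
  id c y h := by rw [V.id _ _ h.1, Matrix.mul_one, pm_jm]
  cc c c' c'' y h h' h'' := by
    rw [← Matrix.mul_assoc, ← Matrix.mul_assoc, L.pm_g h h', Matrix.mul_assoc (pm _ _),
      V.cc _ _ _ _ h.1 h'.1 h''.1]

end TB.Ln

theorem LB.mem_vb {L : LB X} {i : L.vb.ι} {x : X} : x ∈ L.vb.U i ↔ x ∈ L.U (i ()) :=
  ⟨fun h => mem_iInter.1 h (), fun h => mem_iInter.2 fun _ => h⟩

theorem LB.vb_g (L : LB X) (i j : L.vb.ι) (x : X) :
    L.vb.g i j x = L.g (i ()) (j ()) x • (1 : Matrix Unit Unit ℂ) := by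
  ext a b
  change diagonal (fun a => L.g (i a) (j a) x) a b = _
  simp

/-- the matrix with one column -/
def cm (v : n → ℂ) : Matrix n Unit ℂ := Matrix.of fun a _ => v a

theorem cm_mulVec (v : n → ℂ) (u : Unit → ℂ) : cm v *ᵥ u = u () • v := by
  funext a
  simp [cm, mulVec, dotProduct, mul_comm]

theorem mul_cm (g : Matrix m n ℂ) (v : n → ℂ) : g * cm v = cm (g *ᵥ v) := rfl

theorem cm_smul (c : ℂ) (v : n → ℂ) : cm (c • v) = c • cm v := rfl

theorem ctOn_cm {s : Set X} {v : X → n → ℂ} (hv : ContinuousOn v s) :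
    ContinuousOn (fun x => cm (v x)) s :=
  continuousOn_pi.2 fun a => continuousOn_pi.2 fun _ => continuousOn_pi.1 hv a

theorem inj_cm {v : n → ℂ} (h : v ≠ 0) : Function.Injective (cm v).mulVec := fun u u' e => by
  rw [cm_mulVec, cm_mulVec] at e
  exact funext fun _ => smul_left_injective ℂ h e

theorem TB.Ln.hom_lb {V : VB X n} {f : C(Y, X)} (L : V.tb.Ln f) :
    VB.Hom L.lb.vb (V.pb f) fun i j y => cm (V.g j (i ()).1 (f y) *ᵥ L.vec (i ()) y) := by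
  refine ⟨fun i j => ctOn_cm (ctOn_mulVec ((V.ct _ _).comp f.continuous.continuousOn
    fun _ h => ⟨h.1.2, (LB.mem_vb.1 h.1.1).1⟩)
    ((TB.Ln.ct_vec _).mono fun _ h => LB.mem_vb.1 h.1.1)), ?_⟩
  intro i i' j j' y hi hi' hj hj' _
  have h := LB.mem_vb.1 hi
  have h' := LB.mem_vb.1 hi'
  have e : V.g (i ()).1 (i' ()).1 (f y) *ᵥ L.vec (i' ()) y =
    L.co (i ()) (i' ()) y • L.vec (i ()) y := TB.Ln.g_vec h h'
  rw [LB.vb_g, Matrix.mul_smul, Matrix.mul_one, mul_cm, ← cm_smul, mulVec_mulVec]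
  change cm (L.co _ _ y • _) = cm ((V.g j j' (f y) * _) *ᵥ _)
  rw [V.cc _ _ _ _ hj hj' h'.1, ← mulVec_smul, ← e, mulVec_mulVec, V.cc _ _ _ _ hj h.1 h'.1]

theorem TB.Ln.ex {V : VB X (Fin (r + 1))} {f : C(Y, X)} (L : V.tb.Ln f) :
    VB.Ex L.lb.vb (V.pb f) L.quo := by
  refine ⟨_, fun j c y => pm (L.vec c y) c.2 * V.g c.1 j (f y), L.hom_lb, ⟨fun j c => ?_, ?_⟩, ?_⟩
  · exact ctOn_mul (ctOn_pm ((TB.Ln.ct_vec c).mono fun _ h => h.1.2)
      fun _ h => TB.Ln.vec_self h.1.2)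
      ((V.ct _ _).comp f.continuous.continuousOn fun _ h => ⟨h.1.2.1, h.1.1⟩)
  · intro j j' c c' y hj hj' hc hc' _
    change _ * V.g j j' (f y) = pm _ _ * V.g c.1 c'.1 (f y) * jm c'.2 * _
    rw [← Matrix.mul_assoc, L.pm_g hc hc', Matrix.mul_assoc, Matrix.mul_assoc,
      V.cc _ _ _ _ hc.1 hj hj', V.cc _ _ _ _ hc.1 hc'.1 hj']
  · intro i j c y hi hj hc
    have h := LB.mem_vb.1 hi
    have e : V.g c.1 (i ()).1 (f y) *ᵥ L.vec (i ()) y =
      L.co c (i ()) y • L.vec c y := TB.Ln.g_vec hc h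
    refine ⟨inj_cm (mulVec_ne (V.bij hj h.1).1 (TB.Ln.vec_ne h)), fun u => ?_, fun w => ?_⟩
    · refine ⟨V.g j c.1 (f y) *ᵥ (jm c.2 *ᵥ u), ?_⟩
      rw [mulVec_mulVec, Matrix.mul_assoc, V.inv hc.1 hj, Matrix.mul_one, mulVec_mulVec, pm_jm,
        one_mulVec]
    · constructor
      · intro h0
        rw [← mulVec_mulVec] at h0
        have h1 := pm_eq_zero (TB.Ln.vec_self hc) h0
        refine ⟨fun _ => (V.g c.1 j (f y) *ᵥ w) c.2 / L.vec c y c.2 / L.co c (i ()) y,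
          (V.bij hc.1 hj).1 ?_⟩
        rw [cm_mulVec, mulVec_smul, mulVec_mulVec, V.cc _ _ _ _ hc.1 hj h.1, e, smul_smul,
          div_mul_cancel₀ _ (TB.Ln.co_ne hc h), ← h1]
      · rintro ⟨u, rfl⟩
        rw [cm_mulVec, mulVec_smul, mulVec_mulVec, Matrix.mul_assoc, V.cc _ _ _ _ hc.1 hj h.1,
          ← mulVec_mulVec, e, mulVec_smul, pm_self (TB.Ln.vec_self hc), smul_zero, smul_zero]

/-! ### the fibres of the projective bundle -/

open Classical in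
/-- the point of the projective space given by a vector -/
def pj (P₀ : PJ n) (v : n → ℂ) : PJ n := if h : v = 0 then P₀ else ⟨prj v, v, h, rfl⟩

theorem pj_val (P₀ : PJ n) {v : n → ℂ} (h : v ≠ 0) : (pj P₀ v).1 = prj v := by
  rw [pj, dif_neg h]

theorem exists_fib0 (T : TB X n) [Nonempty n] {x : X} {i : T.ι} (hi : x ∈ T.U i) :
    ∃ q : (n → ℂ) → T.P, ContinuousOn q {0}ᶜ ∧ (∀ v, T.π (q v) = x) ∧
      ∀ v, v ≠ 0 → ∀ j, x ∈ T.U j → (q v).1.2 j = prj (T.g j i x *ᵥ v) := by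
  have P₀ : PJ n := ⟨prj 1, 1, one_ne_zero, rfl⟩
  refine ⟨fun v => T.par i (⟨x, hi⟩, pj P₀ v), ?_, fun v => T.π_par i _, fun v hv j hj => ?_⟩
  · refine (T.par i).continuous.comp_continuousOn (continuousOn_const.prodMk ?_)
    refine IsInducing.subtypeVal.continuousOn_iff.2 ?_
    exact (ctOn_prj continuousOn_id fun v hv => hv).congr fun v hv => pj_val _ hv
  · rw [T.q_par i _ hj, pj_val _ hv, act_prj _ hv]

theorem exists_fib (T : TB X n) (e : Fin (r + 1) ≃ n) {x : X} {i : T.ι} (hi : x ∈ T.U i) :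
    ∃ q : (Fin (r + 1) → ℂ) → T.P, ContinuousOn q {0}ᶜ ∧ q '' {0}ᶜ = T.π ⁻¹' {x} ∧
      (∀ v w, v ≠ 0 → w ≠ 0 → (q v = q w ↔ ∃ c : ℂ, v = c • w)) ∧ (∀ v, T.π (q v) = x) ∧
      ∀ v, v ≠ 0 → ∀ j, x ∈ T.U j → (q v).1.2 j = prj (T.g j i x *ᵥ (v ∘ e.symm)) := by
  have hne : ∀ v : Fin (r + 1) → ℂ, v ≠ 0 → v ∘ e.symm ≠ 0 := fun v hv h0 =>
    hv (funext fun a => by simpa using congrFun h0 (e a))
  have : Nonempty n := ⟨e 0⟩
  obtain ⟨q, h1, h2, h3⟩ := exists_fib0 T hi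
  have hq : ∀ v, v ≠ 0 → (q v).1.2 i = prj v := fun v hv => by
    rw [h3 v hv i hi, ← act_prj _ hv, T.act_self hi ⟨v, hv, rfl⟩]
  refine ⟨fun v => q (v ∘ e.symm), h1.comp
    (continuous_pi fun a => continuous_apply _).continuousOn hne, ?_, ?_, fun _ => h2 _,
    fun v hv => h3 _ (hne v hv)⟩
  · refine subset_antisymm (by rintro _ ⟨v, -, rfl⟩; exact h2 _) fun p hp => ?_
    have hp' : T.π p = x := hp
    obtain ⟨v, hv, h⟩ := p.2.1 i (show T.π p ∈ T.U i from hp' ▸ hi)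
    have h4 : (v ∘ e) ∘ e.symm = v := funext fun a => by simp
    have h5 : v ∘ e ≠ 0 := fun h0 => hv (by rw [← h4, h0]; rfl)
    refine ⟨v ∘ e, h5, ?_⟩
    simp only [h4]
    exact TB.P.ext ((h2 v).trans hp'.symm) ((h2 v).symm ▸ hi) ((hq v hv).trans h)
  · intro v w hv hw
    constructor
    · intro h
      have := hq _ (hne v hv)
      rw [show q (v ∘ e.symm) = _ from h, hq _ (hne w hw)] at this
      obtain ⟨c, hc⟩ := (prj_eq_iff (hne v hv) (hne w hw)).1 this.symm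
      exact ⟨c, funext fun a => by simpa using congrFun hc (e a)⟩
    · rintro ⟨c, rfl⟩
      refine TB.P.ext ((h2 _).trans (h2 _).symm) ((h2 _).symm ▸ hi) ?_
      rw [hq _ (hne _ hv), hq _ (hne _ hw)]
      exact prj_smul (fun h => hv (by simp [h])) _

theorem exists_fib' (T : TB X n) (e : Fin (r + 1) ≃ n) {x : X} {i : T.ι} (hi : x ∈ T.U i) :
    ∃ (q : (Fin (r + 1) → ℂ) → T.P) (s : T.ι × n → (Fin (r + 1) → ℂ) → ℂ),
      ContinuousOn q {0}ᶜ ∧ q '' {0}ᶜ = T.π ⁻¹' {x} ∧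
      (∀ v w, v ≠ 0 → w ≠ 0 → (q v = q w ↔ ∃ c : ℂ, v = c • w)) ∧ (∀ v, T.π (q v) = x) ∧
      (∀ c, ContinuousOn (s c) ({0}ᶜ ∩ q ⁻¹' T.taut.cv.U c)) ∧
      (∀ c v, v ≠ 0 → q v ∈ T.taut.cv.U c → s c v ≠ 0) ∧
      (∀ c v (a : ℂ), v ≠ 0 → a ≠ 0 → s c (a • v) = a * s c v) ∧
      ∀ c c' v κ, v ≠ 0 → q v ∈ T.taut.cv.U c → q v ∈ T.taut.cv.U c' →
        T.g c.1 c'.1 x * T.g c'.1 i x = κ • T.g c.1 i x →
        κ * s c v = T.taut.co c c' (q v) * s c' v := by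
  obtain ⟨q, h1, h2, h3, h4, h5⟩ := exists_fib T e hi
  have hne : ∀ v : Fin (r + 1) → ℂ, v ≠ 0 → v ∘ e.symm ≠ 0 := fun v hv h0 =>
    hv (funext fun a => by simpa using congrFun h0 (e a))
  have hm : ∀ c v, q v ∈ T.taut.cv.U c → x ∈ T.U c.1 := fun c v h => h4 v ▸ h.1
  have key : ∀ c v, v ≠ 0 → q v ∈ T.taut.cv.U c → T.g c.1 i x *ᵥ (v ∘ e.symm) =
      ((T.g c.1 i x *ᵥ (v ∘ e.symm)) c.2 / (q v).1.2 c.1 c.2 c.2) • T.taut.vec c (q v) :=
    fun c v hv h => eq_cl (mulVec_ne (T.inj (hm c v h) hi) (hne v hv))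
      (h5 v hv _ (hm c v h)).symm h.2
  refine ⟨q, fun c v => (T.g c.1 i x *ᵥ (v ∘ e.symm)) c.2 / (q v).1.2 c.1 c.2 c.2, h1, h2, h3, h4,
    fun c => ?_, fun c v hv h h0 => ?_, fun c v a hv ha => ?_, ?_⟩
  · refine ContinuousOn.div (continuousOn_pi.1 (ctOn_mulVec continuousOn_const
      (continuous_pi fun a => continuous_apply _).continuousOn) _) ?_ fun v hv => hv.2.2
    exact (ctOn_ent (T.ct_q c.1) c.2 c.2).comp (h1.mono inter_subset_left) fun v hv => hv.2.1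
  · have := key c v hv h
    rw [show _ / _ = (0 : ℂ) from h0, zero_smul] at this
    exact mulVec_ne (T.inj (hm c v h) hi) (hne v hv) this
  · have : q (a • v) = q v := (h3 _ _ (smul_ne_zero ha hv) hv).2 ⟨a, rfl⟩
    simp only [this]
    rw [show (a • v) ∘ e.symm = a • (v ∘ e.symm) from rfl, mulVec_smul, Pi.smul_apply,
      smul_eq_mul, mul_div_assoc]
  · intro c c' v κ hv h h' hκ
    have e1 := congrArg (· *ᵥ (v ∘ e.symm)) hκ
    have e2 := TB.Ln.g_vec h h'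
    rw [h4] at e2
    simp only [← mulVec_mulVec, smul_mulVec] at e1
    rw [key c v hv h, key c' v hv h', mulVec_smul, e2, smul_smul, smul_smul] at e1
    exact (smul_left_injective ℂ (TB.Ln.vec_ne h) e1).symm.trans (mul_comm _ _)

theorem pfib_lb (V : VB X n) (h : Fintype.card n = r + 1) (x : X) :
    PFib V.tb.taut.lb (V.tb.π ⁻¹' {x}) r 1 := by
  obtain ⟨i, hi⟩ := V.cov x
  obtain ⟨q, s, h1, h2, h3, h4, h5, h6, h7, h8⟩ :=
    exists_fib' V.tb (Fintype.equivFinOfCardEq h).symm (i := i) hi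
  refine ⟨q, s, h1, h2, h3, h5, h6, fun c v a hv ha _ => by rw [h7 c v a hv ha, pow_one],
    fun c c' v hv hc hc' => ?_⟩
  have := h8 c c' v 1 hv hc hc' (by
    rw [one_smul]
    exact V.cc _ _ _ _ (h4 v ▸ hc.1) (h4 v ▸ hc'.1) hi)
  rwa [one_mul] at this

theorem pfib_lam (T : TB X n) (h : Fintype.card n = r + 1) (x : X) :
    PFib T.taut.lam (T.π ⁻¹' {x}) r (r + 1) := by
  obtain ⟨i, hi⟩ := T.cov x
  obtain ⟨q, s, h1, h2, h3, h4, h5, h6, h7, h8⟩ :=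
    exists_fib' T (Fintype.equivFinOfCardEq h).symm (i := i) hi
  refine ⟨q, fun c v => s c v ^ (r + 1) / (T.g c.1 i x).det, h1, h2, h3,
    fun c => ((h5 c).pow _).div_const _, fun c v hv hc => div_ne_zero
      (pow_ne_zero _ (h6 c v hv hc)) (T.nz _ _ _ (h4 v ▸ hc.1) hi),
    fun c v a hv ha _ => by simp only [h7 c v a hv ha, mul_pow, mul_div_assoc],
    fun c c' v hv hc hc' => ?_⟩
  have m1 : x ∈ T.U c.1 := h4 v ▸ hc.1
  have m2 : x ∈ T.U c'.1 := h4 v ▸ hc'.1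
  obtain ⟨κ, hκ⟩ := T.cc c'.1 c.1 i x m2 m1 hi
  have e1 := h8 c' c v κ hv hc' hc hκ
  have e2 := congrArg Matrix.det hκ
  rw [det_mul, det_smul, h] at e2
  change _ = ((T.taut.co c' c (q v))⁻¹ • T.g c'.1 c.1 (T.π (q v))).det * _
  rw [h4, det_smul, h]
  have n1 := T.nz _ _ _ m1 hi
  have n2 := T.nz _ _ _ m2 hi
  have n3 := TB.Ln.co_ne hc' hc
  have e3 := congrArg (· ^ (r + 1)) e1
  simp only [mul_pow] at e3
  rw [inv_pow]
  field_simp
  linear_combination (-(T.g c'.1 i x).det) * e3 - s c' v ^ (r + 1) * e2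

end P275CC
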