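import Vale.Agent.P275CC.Hom

/-! The projective bundle of a twisted bundle; lines in a twisted bundle. -/

set_option linter.unusedSectionVars false

open Set Matrix Topology Filter
open scoped ComplexOrder

noncomputable section

namespace P275CC

variable {X Y Z : Type} [TopologicalSpace X] [TopologicalSpace Y] [TopologicalSpace Z]
variable {n m : Type} [Fintype n] [DecidableEq n] [Fintype m] [DecidableEq m]

/-- the orthogonal projector on the line of `v` -/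
def prj (v : n → ℂ) : Matrix n n ℂ := (star v ⬝ᵥ v)⁻¹ • vecMulVec v (star v)

/-- the projective space, as the set of orthogonal projectors of rank one -/
def PJ (n : Type) [Fintype n] : Set (Matrix n n ℂ) := prj '' {0}ᶜ

/-- the action of a matrix on projectors -/
def act (g : Matrix m n ℂ) (P : Matrix n n ℂ) : Matrix m m ℂ :=
  (g * P * gᴴ).trace⁻¹ • (g * P * gᴴ)

theorem nsq_ne {v : n → ℂ} (h : v ≠ 0) : star v ⬝ᵥ v ≠ 0 := fun h0 =>
  h (dotProduct_star_self_eq_zero.1 h0)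

theorem prj_smul {c : ℂ} (hc : c ≠ 0) (v : n → ℂ) : prj (c • v) = prj v := by
  have hc' : star c ≠ 0 := star_ne_zero.2 hc
  rw [prj, prj, star_smul, smul_dotProduct, dotProduct_smul, smul_vecMulVec, vecMulVec_smul,
    smul_smul, smul_smul]
  congr 1
  simp only [smul_eq_mul]
  rcases eq_or_ne (star v ⬝ᵥ v) 0 with h | h
  · simp [h]
  · field_simp

theorem prj_mulVec (v w : n → ℂ) :
    prj v *ᵥ w = ((star v ⬝ᵥ v)⁻¹ * (star v ⬝ᵥ w)) • v := by
  rw [prj, smul_mulVec, vecMulVec_mulVec, op_smul_eq_smul, smul_smul]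

theorem prj_self {v : n → ℂ} (h : v ≠ 0) : prj v *ᵥ v = v := by
  rw [prj_mulVec, inv_mul_cancel₀ (nsq_ne h), one_smul]

theorem prj_eq_iff {v w : n → ℂ} (hv : v ≠ 0) (_hw : w ≠ 0) :
    prj v = prj w ↔ ∃ c : ℂ, v = c • w := by
  constructor
  · intro h
    exact ⟨_, by rw [← prj_mulVec, ← h, prj_self hv]⟩
  · rintro ⟨c, rfl⟩
    exact prj_smul (fun h => hv (by simp [h])) w

theorem conj_prj (g : Matrix m n ℂ) (v : n → ℂ) :
    g * prj v * gᴴ = (star v ⬝ᵥ v)⁻¹ • vecMulVec (g *ᵥ v) (star (g *ᵥ v)) := by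
  rw [prj, Matrix.mul_smul, Matrix.smul_mul, mul_vecMulVec, vecMulVec_mul, star_mulVec]

theorem tr_conj (g : Matrix m n ℂ) (v : n → ℂ) :
    (g * prj v * gᴴ).trace = (star v ⬝ᵥ v)⁻¹ * (star (g *ᵥ v) ⬝ᵥ (g *ᵥ v)) := by
  rw [conj_prj, trace_smul, trace_vecMulVec, dotProduct_comm (g *ᵥ v), smul_eq_mul]

theorem act_prj (g : Matrix m n ℂ) {v : n → ℂ} (h : v ≠ 0) : act g (prj v) = prj (g *ᵥ v) := by
  rw [act, tr_conj, conj_prj, smul_smul, prj]
  congr 1
  have := nsq_ne h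
  field_simp

theorem mulVec_ne {g : Matrix m n ℂ} (hg : Function.Injective g.mulVec) {v : n → ℂ} (h : v ≠ 0) :
    g *ᵥ v ≠ 0 := fun h0 => h (hg (by rw [h0, mulVec_zero]))

theorem act_mem {g : Matrix m n ℂ} (hg : Function.Injective g.mulVec) {P : Matrix n n ℂ}
    (h : P ∈ PJ n) : act g P ∈ PJ m := by
  obtain ⟨v, hv, rfl⟩ := h
  exact ⟨_, mulVec_ne hg hv, (act_prj g hv).symm⟩

theorem ctOn_act {s : Set X} {g : X → Matrix m n ℂ} {P : X → Matrix n n ℂ}
    (hg : ContinuousOn g s) (hP : ContinuousOn P s)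
    (h1 : ∀ x ∈ s, Function.Injective (g x).mulVec) (h2 : ∀ x ∈ s, P x ∈ PJ n) :
    ContinuousOn (fun x => act (g x) (P x)) s := by
  have h3 := ctOn_mul (ctOn_mul hg hP) (ctOn_ct hg)
  refine ((continuous_id.matrix_trace.comp_continuousOn h3).inv₀ fun x hx => ?_).smul h3
  obtain ⟨v, hv, e⟩ := h2 x hx
  change (g x * P x * (g x)ᴴ).trace ≠ 0
  rw [← e, tr_conj]
  exact mul_ne_zero (inv_ne_zero (nsq_ne hv)) (nsq_ne (mulVec_ne (h1 x hx) hv))

theorem ctOn_prj {s : Set X} {v : X → n → ℂ} (hv : ContinuousOn v s) (h : ∀ x ∈ s, v x ≠ 0) :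
    ContinuousOn (fun x => prj (v x)) s := by
  have h1 : Continuous fun w : n → ℂ => star w ⬝ᵥ w := continuous_star.dotProduct continuous_id
  have h2 : Continuous fun w : n → ℂ => vecMulVec w (star w) :=
    continuous_id.matrix_vecMulVec continuous_star
  exact ((h1.comp_continuousOn hv).inv₀ fun x hx => nsq_ne (h x hx)).smul
    (h2.comp_continuousOn hv)

theorem isCompact_PJ : IsCompact (PJ n) := by
  have : PJ n = prj '' Metric.sphere (0 : n → ℂ) 1 := by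
    refine subset_antisymm ?_ (image_mono fun v hv h0 => ?_)
    · rintro _ ⟨v, hv, rfl⟩
      have h1 : ‖v‖ ≠ 0 := norm_ne_zero_iff.2 hv
      refine ⟨((‖v‖ : ℂ)⁻¹) • v, ?_, prj_smul (inv_ne_zero (by exact_mod_cast h1)) v⟩
      simp [norm_smul, h1]
    · rw [mem_singleton_iff.1 h0] at hv
      simp at hv
  rw [this]
  refine (isCompact_sphere _ _).image_of_continuousOn (ctOn_prj continuousOn_id fun v hv h0 => ?_)
  rw [show v = 0 from h0] at hv
  simp at hv

/-- a column -/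
def cl (P : Matrix n n ℂ) (a : n) : n → ℂ := fun b => P b a

theorem cl_prj (v : n → ℂ) (a : n) : cl (prj v) a = ((star v ⬝ᵥ v)⁻¹ * star (v a)) • v := by
  funext b
  simp [cl, prj, vecMulVec_apply]
  ring

theorem PJ.ex {P : Matrix n n ℂ} (h : P ∈ PJ n) : ∃ a, P a a ≠ 0 := by
  obtain ⟨v, hv, rfl⟩ := h
  obtain ⟨a, ha⟩ := Function.ne_iff.1 hv
  refine ⟨a, ?_⟩
  change cl (prj v) a a ≠ 0
  rw [cl_prj]
  exact mul_ne_zero (mul_ne_zero (inv_ne_zero (nsq_ne hv)) (star_ne_zero.2 ha)) ha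

theorem cl_ne {P : Matrix n n ℂ} {a : n} (h : P a a ≠ 0) : cl P a ≠ 0 :=
  fun h0 => h (congrFun h0 a)

theorem PJ.prj_cl {P : Matrix n n ℂ} (h : P ∈ PJ n) {a : n} (ha : P a a ≠ 0) :
    prj (cl P a) = P := by
  obtain ⟨v, hv, rfl⟩ := h
  exact (prj_eq_iff (cl_ne ha) hv).2 ⟨_, cl_prj v a⟩

theorem eq_cl {w : n → ℂ} {P : Matrix n n ℂ} (hw : w ≠ 0) (h : prj w = P) {a : n}
    (ha : P a a ≠ 0) : w = (w a / P a a) • cl P a := by
  obtain ⟨c, hc⟩ := (prj_eq_iff hw (cl_ne ha)).1 (h.trans (PJ.prj_cl ⟨w, hw, h⟩ ha).symm)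
  have : w a = c * P a a := congrFun hc a
  rw [this, mul_div_cancel_right₀ _ ha, ← hc]

theorem TB.inj (T : TB X n) {i j : T.ι} {x : X} (hi : x ∈ T.U i) (hj : x ∈ T.U j) :
    Function.Injective (T.g i j x).mulVec := (bij_of_det (T.nz i j x hi hj)).1

theorem act_of_eq {g g' : Matrix m n ℂ} {c : ℂ} (e : g = c • g')
    (hg : Function.Injective g.mulVec) {P : Matrix n n ℂ} (h : P ∈ PJ n) :
    act g P = act g' P := by
  obtain ⟨v, hv, rfl⟩ := h
  have h1 := mulVec_ne hg hv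
  rw [e, smul_mulVec] at h1
  rw [act_prj _ hv, act_prj _ hv, e, smul_mulVec, prj_smul fun h0 => h1 (by simp [h0])]

theorem act_mul {k : Type} [Fintype k] [DecidableEq k] (g : Matrix k m ℂ) {g' : Matrix m n ℂ}
    (hg : Function.Injective g'.mulVec) {P : Matrix n n ℂ} (h : P ∈ PJ n) :
    act g (act g' P) = act (g * g') P := by
  obtain ⟨v, hv, rfl⟩ := h
  rw [act_prj _ hv, act_prj _ hv, act_prj _ (mulVec_ne hg hv), mulVec_mulVec]

theorem act_one {P : Matrix n n ℂ} (h : P ∈ PJ n) : act (1 : Matrix n n ℂ) P = P := by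
  obtain ⟨v, hv, rfl⟩ := h
  rw [act_prj _ hv, one_mulVec]

theorem TB.act_act (T : TB X n) {i j l : T.ι} {x : X} (hi : x ∈ T.U i) (hj : x ∈ T.U j)
    (hl : x ∈ T.U l) {P : Matrix n n ℂ} (h : P ∈ PJ n) :
    act (T.g i j x) (act (T.g j l x) P) = act (T.g i l x) P := by
  obtain ⟨c, hc⟩ := T.cc i j l x hi hj hl
  rw [act_mul _ (T.inj hj hl) h]
  refine act_of_eq hc ?_ h
  rw [mulVec_mul]
  exact (T.inj hi hj).comp (T.inj hj hl)

theorem TB.self (T : TB X n) {i : T.ι} {x : X} (h : x ∈ T.U i) :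
    ∃ c : ℂ, T.g i i x = c • (1 : Matrix n n ℂ) := by
  obtain ⟨c, hc⟩ := T.cc i i i x h h h
  have := congrArg (· * (T.g i i x)⁻¹) hc
  exact ⟨c, by
    simpa [Matrix.mul_assoc, Matrix.mul_nonsing_inv _ (Ne.isUnit (T.nz i i x h h))] using this⟩

theorem TB.act_self (T : TB X n) {i : T.ι} {x : X} (hi : x ∈ T.U i) {P : Matrix n n ℂ}
    (h : P ∈ PJ n) : act (T.g i i x) P = P := by
  obtain ⟨c, hc⟩ := T.self hi
  rw [act_of_eq hc (T.inj hi hi) h, act_one h]

/-- a line in the pull back of `T` along `f` -/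
structure TB.Ln (T : TB X n) (f : C(Y, X)) where
  q : T.ι → Y → Matrix n n ℂ
  mem : ∀ i y, f y ∈ T.U i → q i y ∈ PJ n
  ct : ∀ i, ContinuousOn (q i) (f ⁻¹' T.U i)
  law : ∀ i j y, f y ∈ T.U i → f y ∈ T.U j → q i y = act (T.g i j (f y)) (q j y)

/-- the projective bundle -/
def TB.P (T : TB X n) : Type :=
  {p : X × (T.ι → Matrix n n ℂ) // (∀ i, p.1 ∈ T.U i → p.2 i ∈ PJ n) ∧
    (∀ i j, p.1 ∈ T.U i → p.1 ∈ T.U j → p.2 i = act (T.g i j p.1) (p.2 j)) ∧
    ∀ i, p.1 ∉ T.U i → p.2 i = 0}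

namespace TB

variable (T : TB X n)

instance : TopologicalSpace T.P := TopologicalSpace.generateFrom
  {s | (∃ O, IsOpen O ∧ s = {p | p.1.1 ∈ O}) ∨
    ∃ i O, IsOpen O ∧ s = {p | p.1.1 ∈ T.U i ∧ p.1.2 i ∈ O}}

/-- the projection of the projective bundle -/
def π : C(T.P, X) := ⟨fun p => p.1.1, continuous_def.2 fun O hO =>
  TopologicalSpace.isOpen_generateFrom_of_mem (Or.inl ⟨O, hO, rfl⟩)⟩

theorem ct_q (i : T.ι) : ContinuousOn (fun p : T.P => p.1.2 i) (T.π ⁻¹' T.U i) :=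
  (continuousOn_open_iff ((T.op i).preimage T.π.continuous)).2 fun O hO =>
    TopologicalSpace.isOpen_generateFrom_of_mem (Or.inr ⟨i, O, hO, rfl⟩)

/-- the tautological line -/
def taut : T.Ln T.π := ⟨fun i p => p.1.2 i, fun i p => p.2.1 i, T.ct_q, fun i j p => p.2.2.1 i j⟩

variable {T}

theorem P.ext {p p' : T.P} (h : T.π p = T.π p') {i : T.ι} (hi : T.π p ∈ T.U i)
    (e : p.1.2 i = p'.1.2 i) : p = p' := by
  refine Subtype.ext (Prod.ext h (funext fun j => ?_))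
  have h' : p.1.1 = p'.1.1 := h
  by_cases hj : p.1.1 ∈ T.U j
  · rw [p.2.2.1 j i hj hi, p'.2.2.1 j i (h' ▸ hj) (h' ▸ hi), e, h']
  · rw [p.2.2.2 j hj, p'.2.2.2 j (h' ▸ hj)]

theorem continuous_P {φ : Y → T.P} (h1 : Continuous fun y => T.π (φ y))
    (h2 : ∀ i, ContinuousOn (fun y => (φ y).1.2 i) {y | T.π (φ y) ∈ T.U i}) : Continuous φ := by
  refine continuous_generateFrom_iff.2 ?_
  rintro s (⟨O, hO, rfl⟩ | ⟨i, O, hO, rfl⟩)
  · exact hO.preimage h1
  · exact (h2 i).isOpen_inter_preimage ((T.op i).preimage h1) hO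

open Classical in
/-- the map to the projective bundle given by a line -/
def Ln.lift {f : C(Y, X)} (L : T.Ln f) : C(Y, T.P) :=
  ⟨fun y => ⟨(f y, fun i => if f y ∈ T.U i then L.q i y else 0),
    fun i h => by simpa [h] using L.mem i y h,
    fun i j hi hj => by simpa [hi, hj] using L.law i j y hi hj,
    fun i h => by simp [h]⟩,
  continuous_P f.continuous fun i => (L.ct i).congr fun y hy => if_pos hy⟩

theorem Ln.π_lift {f : C(Y, X)} (L : T.Ln f) (y : Y) : T.π (L.lift y) = f y := rfl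

theorem Ln.π_comp {f : C(Y, X)} (L : T.Ln f) : T.π.comp L.lift = f := rfl

theorem Ln.q_lift {f : C(Y, X)} (L : T.Ln f) {i : T.ι} {y : Y} (h : f y ∈ T.U i) :
    (L.lift y).1.2 i = L.q i y := if_pos h

/-- pull back of a line -/
def Ln.pb {f : C(Y, X)} (L : T.Ln f) (φ : C(Z, Y)) : T.Ln (f.comp φ) :=
  ⟨fun i z => L.q i (φ z), fun i z => L.mem i (φ z),
    fun i => (L.ct i).comp φ.continuous.continuousOn fun _ h => h, fun i j z => L.law i j (φ z)⟩

/-- a line as a line in the pulled back bundle -/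
def Ln.up {f : C(Y, X)} {φ : C(Z, Y)} (L : T.Ln (f.comp φ)) : (T.pb f).Ln φ :=
  ⟨L.q, L.mem, L.ct, L.law⟩

/-- a line in the pulled back bundle as a line in the bundle -/
def Ln.down {f : C(Y, X)} {φ : C(Z, Y)} (L : (T.pb f).Ln φ) : T.Ln (f.comp φ) :=
  ⟨L.q, L.mem, L.ct, L.law⟩

/-- the line given in one chart -/
def lnOf (T : TB X n) (f : C(Y, X)) (i : T.ι) (hf : ∀ y, f y ∈ T.U i) (Q : Y → Matrix n n ℂ)
    (hQ : Continuous Q) (hm : ∀ y, Q y ∈ PJ n) : T.Ln f where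
  q j y := act (T.g j i (f y)) (Q y)
  mem _ y h := act_mem (T.inj h (hf y)) (hm y)
  ct j := ctOn_act ((T.ct j i).comp f.continuous.continuousOn fun y h => ⟨h, hf y⟩)
    hQ.continuousOn (fun y h => T.inj h (hf y)) fun y _ => hm y
  law _ _ y hj hl := (T.act_act hj hl (hf y) (hm y)).symm

/-- the local parametrisation of the projective bundle -/
def par (T : TB X n) (i : T.ι) : C(T.U i × PJ n, T.P) :=
  (T.lnOf ((inc (T.U i)).comp ContinuousMap.fst) i (fun y => y.1.2) (fun y => y.2.1)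
    (continuous_subtype_val.comp continuous_snd) fun y => y.2.2).lift

theorem π_par (T : TB X n) (i : T.ι) (y : T.U i × PJ n) : T.π (T.par i y) = y.1 := rfl

theorem q_par (T : TB X n) (i : T.ι) (y : T.U i × PJ n) {j : T.ι} (h : y.1.1 ∈ T.U j) :
    (T.par i y).1.2 j = act (T.g j i y.1) y.2 := Ln.q_lift _ h

theorem q_par_self (T : TB X n) (i : T.ι) (y : T.U i × PJ n) : (T.par i y).1.2 i = y.2 :=
  (T.q_par i y y.1.2).trans (T.act_self y.1.2 y.2.2)

theorem par_eq (T : TB X n) {i : T.ι} (p : T.P) (h : T.π p ∈ T.U i) :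
    T.par i (⟨T.π p, h⟩, ⟨p.1.2 i, p.2.1 i h⟩) = p :=
  P.ext rfl h (T.q_par_self i _)

/-- the local trivialisation of the projective bundle -/
def triv (T : TB X n) (i : T.ι) : (T.π ⁻¹' T.U i) ≃ₜ T.U i × PJ n where
  toFun p := (⟨T.π p, p.2⟩, ⟨p.1.1.2 i, p.1.2.1 i p.2⟩)
  invFun y := ⟨T.par i y, y.1.2⟩
  left_inv p := Subtype.ext (T.par_eq p.1 p.2)
  right_inv y := Prod.ext rfl (Subtype.ext (T.q_par_self i y))
  continuous_toFun := ((T.π.continuous.comp continuous_subtype_val).subtype_mk _).prodMk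
    ((T.ct_q i).domRestrict.subtype_mk _)
  continuous_invFun := (T.par i).continuous.subtype_mk _

theorem proper (T : TB X n) : IsProperMap T.π := by
  refine isProperMap_iff_ultrafilter.2 ⟨T.π.continuous, fun 𝒰 x hx => ?_⟩
  obtain ⟨i, hi⟩ := T.cov x
  have h1 : ∀ᶠ p in (𝒰 : Filter T.P), T.π p ∈ T.U i := hx ((T.op i).mem_nhds hi)
  obtain ⟨Q, hQ, h2⟩ := isCompact_PJ.ultrafilter_le_nhds (𝒰.map fun p : T.P => p.1.2 i)
    (le_principal_iff.2 (h1.mono fun p hp => p.2.1 i hp))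
  refine ⟨T.par i (⟨x, hi⟩, ⟨Q, hQ⟩), rfl, ?_⟩
  classical
  let ψ : T.P → T.U i × PJ n := fun p =>
    if h : T.π p ∈ T.U i then (⟨T.π p, h⟩, ⟨p.1.2 i, p.2.1 i h⟩) else (⟨x, hi⟩, ⟨Q, hQ⟩)
  have h3 : Tendsto ψ 𝒰 (𝓝 (⟨x, hi⟩, ⟨Q, hQ⟩)) := by
    rw [Prod.tendsto_iff, tendsto_subtype_rng, tendsto_subtype_rng]
    exact ⟨hx.congr' (h1.mono fun p hp => by simp only [ψ, dif_pos hp]),
      Tendsto.congr' (f₁ := fun p : T.P => p.1.2 i)
        (h1.mono fun p hp => by simp only [ψ, dif_pos hp]) h2⟩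
  exact (((T.par i).continuous.tendsto _).comp h3).congr' (f₂ := id) (h1.mono fun p hp => by
    simp only [Function.comp, ψ, dif_pos hp]
    exact T.par_eq p hp)

instance [Nc X] : Nc T.P := by
  have t2 : T2Space T.P := by
    refine ⟨fun p p' hne => ?_⟩
    by_cases h : T.π p = T.π p'
    · obtain ⟨i, hi⟩ := T.cov (T.π p)
      obtain ⟨O, O', hO, hO', h1, h2, hd⟩ := t2_separation fun e => hne (P.ext h hi e)
      have ho := (T.op i).preimage T.π.continuous
      exact ⟨_, _, (T.ct_q i).isOpen_inter_preimage ho hO, (T.ct_q i).isOpen_inter_preimage ho hO',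
        ⟨hi, h1⟩, ⟨show T.π p' ∈ T.U i from h ▸ hi, h2⟩,
        Set.disjoint_left.2 fun _ a b => Set.disjoint_left.1 hd a.2 b.2⟩
    · exact separated_by_continuous T.π.continuous h
  have wl : WeaklyLocallyCompactSpace T.P := ⟨fun p => by
    obtain ⟨K, hK, h⟩ := exists_compact_mem_nhds (T.π p)
    exact ⟨_, T.proper.isCompact_preimage hK, T.π.continuous.continuousAt h⟩⟩
  refine ⟨inferInstance, t2, ?_⟩
  choose i hi using T.cov
  obtain ⟨s, hs, e⟩ := TopologicalSpace.countable_cover_nhds (f := fun x => T.U (i x))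
    fun x => (T.op _).mem_nhds (hi x)
  have := hs.to_subtype
  have : SecondCountableTopology (Matrix n n ℂ) :=
    inferInstanceAs (SecondCountableTopology (n → n → ℂ))
  have : ∀ a : s, SecondCountableTopology (T.π ⁻¹' T.U (i a)) := fun a =>
    (T.triv (i a)).secondCountableTopology
  refine TopologicalSpace.secondCountableTopology_of_countable_cover
    (U := fun a : s => T.π ⁻¹' T.U (i a)) (fun a => (T.op _).preimage T.π.continuous)
    (eq_univ_of_forall fun p => ?_)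
  obtain ⟨a, ha, h⟩ := mem_iUnion₂.1 (e ▸ mem_univ (T.π p))
  exact mem_iUnion.2 ⟨⟨a, ha⟩, h⟩

end TB

instance [Nc X] [Nc Y] : Nc (X × Y) := ⟨inferInstance, inferInstance, inferInstance⟩

theorem Nc.opn [Nc X] {W : Set X} (h : IsOpen W) : Nc W :=
  ⟨h.locallyCompactSpace, inferInstance, inferInstance⟩

theorem Nc.cls [Nc X] {W : Set X} (h : IsClosed W) : Nc W :=
  ⟨h.locallyCompactSpace, inferInstance, inferInstance⟩

end P275CC
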