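import Vale.Agent.P275CC.Chi

/-! Local isomorphisms of twisted bundles, endomorphisms, twists, characters and triangular
cocycles. -/

set_option linter.unusedSectionVars false
set_option backward.isDefEq.respectTransparency false

open Set Matrix Topology Filter Polynomial
open scoped Kronecker

noncomputable section

namespace P275CC

variable {X Y Z : Type} [TopologicalSpace X] [TopologicalSpace Y] [TopologicalSpace Z]
variable {n m k : Type} [Fintype n] [DecidableEq n] [Fintype m] [DecidableEq m] [Fintype k]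
  [DecidableEq k]

/-- locally isomorphic twisted bundles, by matrices in `H` -/
def TB.LI (H : Set (Matrix n n ℂ)) (T T' : TB X n) : Prop :=
  ∃ (κ : Type) (O : κ → Set X) (a : κ → T.ι) (b : κ → T'.ι) (f : κ → X → Matrix n n ℂ),
    (∀ c, IsOpen (O c)) ∧ (∀ x, ∃ c, x ∈ O c) ∧ (∀ c, O c ⊆ T.U (a c)) ∧
    (∀ c, O c ⊆ T'.U (b c)) ∧ (∀ c, ContinuousOn (f c) (O c)) ∧
    (∀ c, ∀ x ∈ O c, f c x ∈ H ∧ (f c x).det ≠ 0) ∧
    ∀ c c' x, x ∈ O c → x ∈ O c' →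
      ∃ s : ℂ, f c x * T.g (a c) (a c') x = s • (T'.g (b c) (b c') x * f c' x)

/-- the cocycle has values in `H` -/
def TB.In (H : Set (Matrix n n ℂ)) (T : TB X n) : Prop :=
  ∀ i j x, x ∈ T.U i → x ∈ T.U j → T.g i j x ∈ H

theorem det_mul_ne {g h : Matrix n n ℂ} (hg : g.det ≠ 0) (hh : h.det ≠ 0) : (g * h).det ≠ 0 := by
  rw [det_mul]
  exact mul_ne_zero hg hh

theorem det_inv_ne {g : Matrix n n ℂ} (hg : g.det ≠ 0) : g⁻¹.det ≠ 0 := by
  rw [det_nonsing_inv, Ring.inverse_eq_inv']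
  exact inv_ne_zero hg

theorem smul_ne_of_det {s : ℂ} {g h : Matrix n n ℂ} [Nonempty n] (hg : g.det ≠ 0)
    (e : g = s • h) : s ≠ 0 := by
  rintro rfl
  rw [e, zero_smul, det_zero] at hg
  exact hg rfl

theorem ex_smul_symm {s : ℂ} {g h : Matrix n n ℂ} (hg : g.det ≠ 0) (e : g = s • h) :
    ∃ t : ℂ, h = t • g := by
  rcases isEmpty_or_nonempty n with hn | hn
  · exact ⟨0, Subsingleton.elim _ _⟩
  · exact ⟨s⁻¹, by rw [e, smul_smul, inv_mul_cancel₀ (smul_ne_of_det hg e), one_smul]⟩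

namespace TB

variable {H H' : Set (Matrix n n ℂ)} {T T' T'' : TB X n}

theorem In.pb (h : T.In H) (f : C(Y, X)) : (T.pb f).In H := fun i j y => h i j (f y)

theorem In.mono (h : T.In H) (e : H ⊆ H') : T.In H' := fun i j x hi hj => e (h i j x hi hj)

theorem LI.mono (h : LI H T T') (e : H ⊆ H') : LI H' T T' := by
  obtain ⟨κ, O, a, b, f, h1, h2, h3, h4, h5, h6, h7⟩ := h
  exact ⟨κ, O, a, b, f, h1, h2, h3, h4, h5, fun c x hx => ⟨e (h6 c x hx).1, (h6 c x hx).2⟩, h7⟩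

theorem LI.pb (h : LI H T T') (φ : C(Y, X)) : LI H (T.pb φ) (T'.pb φ) := by
  obtain ⟨κ, O, a, b, f, h1, h2, h3, h4, h5, h6, h7⟩ := h
  exact ⟨κ, fun c => φ ⁻¹' O c, a, b, fun c y => f c (φ y), fun c => (h1 c).preimage φ.continuous,
    fun y => h2 _, fun c y hy => h3 c hy, fun c y hy => h4 c hy,
    fun c => (h5 c).comp φ.continuous.continuousOn fun _ h => h, fun c y => h6 c _,
    fun c c' y => h7 c c' _⟩

theorem li_ref (h1 : 1 ∈ H) (T T' : TB X n) (e : T.ι → T'.ι) (hU : ∀ i, T.U i ⊆ T'.U (e i))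
    (law : ∀ i j x, x ∈ T.U i → x ∈ T.U j → ∃ s : ℂ, T.g i j x = s • T'.g (e i) (e j) x) :
    LI H T T' :=
  ⟨T.ι, T.U, fun i => i, e, fun _ _ => 1, T.op, T.cov, fun _ => subset_rfl, hU,
    fun _ => continuousOn_const, fun _ _ _ => ⟨h1, by simp⟩, fun i j x hi hj => by
      rw [Matrix.one_mul, Matrix.mul_one]
      exact law i j x hi hj⟩

theorem LI.refl (h1 : 1 ∈ H) (T : TB X n) : LI H T T :=
  li_ref h1 T T (fun i => i) (fun _ => subset_rfl) fun _ _ _ _ _ => ⟨1, (one_smul _ _).symm⟩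

theorem LI.symm' (hH : ∀ g ∈ H, g.det ≠ 0 → g⁻¹ ∈ H) (h : LI H T T') : LI H T' T := by
  obtain ⟨κ, O, a, b, f, h1, h2, h3, h4, h5, h6, h7⟩ := h
  refine ⟨κ, O, b, a, fun c x => (f c x)⁻¹, h1, h2, h4, h3,
    fun c => ctOn_inv (h5 c) fun x hx => (h6 c x hx).2,
    fun c x hx => ⟨hH _ (h6 c x hx).1 (h6 c x hx).2, det_inv_ne (h6 c x hx).2⟩,
    fun c c' x hc hc' => ?_⟩
  obtain ⟨s, hs⟩ := h7 c c' x hc hc'
  obtain ⟨t, ht⟩ := ex_smul_symm (det_mul_ne (h6 c x hc).2 (T.nz _ _ x (h3 c hc) (h3 c' hc'))) hs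
  refine ⟨t, ?_⟩
  have u := (h6 c x hc).2.isUnit
  have u' := (h6 c' x hc').2.isUnit
  rw [← mul_nonsing_inv_cancel_right (f c' x) (T'.g (b c) (b c') x) u', ht, Matrix.smul_mul,
    Matrix.mul_smul, Matrix.mul_assoc, nonsing_inv_mul_cancel_left _ _ u]

theorem LI.symm (h : LI univ T T') : LI univ T' T := h.symm' fun _ _ _ => trivial

theorem LI.trans' (hH : ∀ g ∈ H, ∀ g' ∈ H, g * g' ∈ H) (hT : T'.In H) (h : LI H T T')
    (h' : LI H T' T'') : LI H T T'' := by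
  obtain ⟨κ, O, a, b, f, h1, h2, h3, h4, h5, h6, h7⟩ := h
  obtain ⟨κ', O', a', b', f', h1', h2', h3', h4', h5', h6', h7'⟩ := h'
  refine ⟨κ × κ', fun c => O c.1 ∩ O' c.2, fun c => a c.1, fun c => b' c.2,
    fun c x => f' c.2 x * T'.g (a' c.2) (b c.1) x * f c.1 x, fun c => (h1 _).inter (h1' _),
    fun x => ?_, fun c x hx => h3 _ hx.1, fun c x hx => h4' _ hx.2, fun c => ?_,
    fun c x hx => ⟨hH _ (hH _ (h6' _ x hx.2).1 _ (hT _ _ x (h3' _ hx.2) (h4 _ hx.1))) _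
      (h6 _ x hx.1).1, det_mul_ne (det_mul_ne (h6' _ x hx.2).2
      (T'.nz _ _ x (h3' _ hx.2) (h4 _ hx.1))) (h6 _ x hx.1).2⟩, fun c c' x hc hc' => ?_⟩
  · obtain ⟨c, hc⟩ := h2 x
    obtain ⟨c', hc'⟩ := h2' x
    exact ⟨(c, c'), hc, hc'⟩
  · exact ctOn_mul (ctOn_mul ((h5' _).mono inter_subset_right)
      ((T'.ct _ _).mono fun x hx => ⟨h3' _ hx.2, h4 _ hx.1⟩)) ((h5 _).mono inter_subset_left)
  · obtain ⟨s, hs⟩ := h7 c.1 c'.1 x hc.1 hc'.1
    obtain ⟨s', hs'⟩ := h7' c.2 c'.2 x hc.2 hc'.2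
    obtain ⟨t, ht⟩ := T'.cc _ _ _ x (h3' _ hc.2) (h4 _ hc.1) (h4 _ hc'.1)
    obtain ⟨t', ht'⟩ := T'.cc _ _ _ x (h3' _ hc.2) (h3' _ hc'.2) (h4 _ hc'.1)
    obtain ⟨u, hu⟩ := ex_smul_symm (det_mul_ne (T'.nz _ _ x (h3' _ hc.2) (h3' _ hc'.2))
      (T'.nz _ _ x (h3' _ hc'.2) (h4 _ hc'.1))) ht'
    refine ⟨s * t * u * s', ?_⟩
    calc _ = f' c.2 x * T'.g (a' c.2) (b c.1) x * (f c.1 x * T.g (a c.1) (a c'.1) x) :=
          Matrix.mul_assoc _ _ _
      _ = s • (f' c.2 x * (T'.g (a' c.2) (b c.1) x * T'.g (b c.1) (b c'.1) x) * f c'.1 x) := by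
          rw [hs]
          simp only [Matrix.mul_smul, Matrix.mul_assoc]
      _ = (s * t * u) • (f' c.2 x * T'.g (a' c.2) (a' c'.2) x *
            (T'.g (a' c'.2) (b c'.1) x * f c'.1 x)) := by
          rw [ht, hu]
          simp only [Matrix.mul_smul, Matrix.smul_mul, smul_smul, mul_assoc]
      _ = _ := by
          rw [hs']
          simp only [Matrix.smul_mul, Matrix.mul_assoc, smul_smul]

theorem LI.trans (h : LI univ T T') (h' : LI univ T' T'') : LI univ T T'' :=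
  h.trans' (fun _ _ _ _ => trivial) (fun _ _ _ _ _ => trivial) h'

theorem Iso.li (h : T.Iso T') : LI univ T T' := by
  obtain ⟨f, h1, h2, h3⟩ := h
  refine ⟨T.ι × T'.ι, fun c => T.U c.1 ∩ T'.U c.2, Prod.fst, Prod.snd, fun c => f c.1 c.2,
    fun c => (T.op _).inter (T'.op _), fun x => ?_, fun _ => inter_subset_left,
    fun _ => inter_subset_right, fun c => h1 _ _, fun c x hx => ⟨trivial, h2 _ _ x hx.1 hx.2⟩,
    fun c c' x hc hc' => h3 _ _ _ _ x hc.1 hc'.1 hc.2 hc'.2⟩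
  obtain ⟨i, hi⟩ := T.cov x
  obtain ⟨j, hj⟩ := T'.cov x
  exact ⟨(i, j), hi, hj⟩

theorem LI.End (h : LI H T T') : T.End.Iso T'.End := by
  obtain ⟨κ, O, a, b, f, h1, h2, h3, h4, h5, h6, h7⟩ := h
  refine VB.iso_loc _ _ O a b (fun c x => adj (f c x)) h1 h2 h3 h4
    (fun c => ctOn_adj (h5 c) fun x hx => (h6 c x hx).2) (fun c c' x hc hc' => ?_)
    fun c x hx => bij_of_inv (g := adj (f c x)⁻¹) ?_ ?_
  · obtain ⟨s, hs⟩ := h7 c c' x hc hc'
    exact (adj_mul _ _).symm.trans ((adj_of_eq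
      (det_mul_ne (h6 c x hc).2 (T.nz _ _ x (h3 c hc) (h3 c' hc'))) hs).trans (adj_mul _ _))
  · rw [← adj_mul, nonsing_inv_mul _ (h6 c x hx).2.isUnit, adj_one]
  · rw [← adj_mul, mul_nonsing_inv _ (h6 c x hx).2.isUnit, adj_one]

end TB

theorem VB.Iso.li {V V' : VB X n} (h : V.Iso V') : TB.LI univ V.tb V'.tb := by
  obtain ⟨f, h1, h2⟩ := h
  exact TB.Iso.li ⟨f, fun i j => (h1.1 i j).mono fun _ h => ⟨h, trivial⟩,
    fun i j x hi hj => det_of_inj (h2 i j x hi hj).1,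
    fun i i' j j' x hi hi' hj hj' => ⟨1, by
      rw [one_smul]
      exact h1.2 i i' j j' x hi hi' hj hj' trivial⟩⟩

/-! ### twists -/

theorem VB.tw_g (L : LB X) (V : VB X n) (i j : (VB.tw L V).ι) (x : X) :
    (VB.tw L V).g i j x = L.g i.1 j.1 x • V.g i.2 j.2 x := rfl

theorem VB.li_tw (L : LB X) (V : VB X n) : TB.LI univ (VB.tw L V).tb V.tb :=
  TB.li_ref (mem_univ _) _ _ Prod.snd (fun _ => inter_subset_right) fun _ _ _ _ _ => ⟨_, rfl⟩

theorem VB.Iso.tw {V : VB X n} {V' : VB X m} (h : V.Iso V') (L : LB X) :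
    (VB.tw L V).Iso (VB.tw L V') := by
  obtain ⟨f, h1, h2⟩ := h
  refine VB.iso_loc _ _ (κ := L.ι × V.ι × V'.ι) (fun c => L.U c.1 ∩ (V.U c.2.1 ∩ V'.U c.2.2))
    (fun c => (c.1, c.2.1)) (fun c => (c.1, c.2.2)) (fun c => f c.2.1 c.2.2)
    (fun c => (L.op _).inter ((V.op _).inter (V'.op _))) (fun x => ?_)
    (fun c x h => ⟨h.1, h.2.1⟩) (fun c x h => ⟨h.1, h.2.2⟩)
    (fun c => (h1.1 _ _).mono fun x h => ⟨h.2, trivial⟩) (fun c c' x hc hc' => ?_)
    fun c x h => h2 _ _ x h.2.1 h.2.2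
  · obtain ⟨i, hi⟩ := L.cov x
    obtain ⟨j, hj⟩ := V.cov x
    obtain ⟨l, hl⟩ := V'.cov x
    exact ⟨(i, j, l), hi, hj, hl⟩
  · rw [VB.tw_g, VB.tw_g, Matrix.mul_smul, Matrix.smul_mul,
      h1.2 _ _ _ _ x hc.2.1 hc'.2.1 hc.2.2 hc'.2.2 trivial]

theorem VB.tw_diag (M : LB X) (L : n → LB X) :
    (VB.tw M (VB.diag L)).Iso (VB.diag fun a => M.mul (L a)) :=
  VB.iso_ref _ _ (VB.tw M (VB.diag L)).U (fun i => i) (fun i a => (i.1, i.2 a))
    (VB.tw M (VB.diag L)).op (VB.tw M (VB.diag L)).cov (fun _ => subset_rfl)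
    (fun _ _ h => VB.mem_diag.2 fun a => ⟨h.1, VB.mem_diag.1 h.2 a⟩) fun i j x _ _ => by
      rw [VB.tw_g, VB.diag_g, VB.diag_g, ← diagonal_smul]
      rfl

/-- honest bundles with the same projective bundle differ by a line bundle -/
theorem VB.ex_tw [Nonempty n] {V V' : VB X n} (h : TB.LI univ V.tb V'.tb) :
    ∃ L : LB X, V.Iso (VB.tw L V') := by
  obtain ⟨κ, O, a, b, f, h1, h2, h3, h4, h5, h6, h7⟩ := h
  have hd : ∀ {c c' x}, x ∈ O c → x ∈ O c' → (V'.g (b c) (b c') x * f c' x).det ≠ 0 :=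
    fun hc hc' => det_mul_ne (V'.nz (h4 _ hc) (h4 _ hc')) (h6 _ _ hc').2
  set s : κ → κ → X → ℂ := fun c c' x => (Fintype.card n : ℂ)⁻¹ *
    (f c x * V.g (a c) (a c') x * (V'.g (b c) (b c') x * f c' x)⁻¹).trace with hs
  have key : ∀ {c c' x}, x ∈ O c → x ∈ O c' →
      f c x * V.g (a c) (a c') x = s c c' x • (V'.g (b c) (b c') x * f c' x) := by
    intro c c' x hc hc'
    obtain ⟨t, ht⟩ := h7 c c' x hc hc'
    have ht' : f c x * V.g (a c) (a c') x = t • (V'.g (b c) (b c') x * f c' x) := ht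
    simp only [hs]
    rw [ht', Matrix.smul_mul, mul_nonsing_inv _ (hd hc hc').isUnit, trace_smul, trace_one,
      smul_eq_mul, mul_comm t, inv_mul_cancel_left₀ (Nat.cast_ne_zero.2 Fintype.card_ne_zero)]
  have can : ∀ {t t' : ℂ} {g : Matrix n n ℂ}, g.det ≠ 0 → t • g = t' • g → t = t' :=
    fun hg e => smul_left_injective ℂ (fun h0 => hg (by rw [h0, det_zero])) e
  let L : LB X :=
    { ι := κ, U := O, op := h1, cov := h2, g := s
      ct := fun c c' => continuousOn_const.mul (continuous_id.matrix_trace.comp_continuousOn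
        (ctOn_mul (ctOn_mul ((h5 c).mono inter_subset_left)
          ((V.ct _ _).mono fun x h => ⟨h3 _ h.1, h3 _ h.2⟩))
          (ctOn_inv (ctOn_mul ((V'.ct _ _).mono fun x h => ⟨h4 _ h.1, h4 _ h.2⟩)
            ((h5 c').mono inter_subset_right)) fun x h => hd h.1 h.2)))
      id := fun c x hc => can (h6 c x hc).2 (by
        have := key hc hc
        rw [V.id _ x (h3 _ hc), V'.id _ x (h4 _ hc), Matrix.mul_one, Matrix.one_mul] at this
        rw [← this, one_smul])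
      cc := fun c c' c'' x hc hc' hc'' => can (hd hc hc'') (by
        rw [← key hc hc'', ← V.cc _ _ _ x (h3 _ hc) (h3 _ hc') (h3 _ hc''), ← Matrix.mul_assoc,
          key hc hc', Matrix.smul_mul, Matrix.mul_assoc, key hc' hc'', Matrix.mul_smul,
          ← Matrix.mul_assoc, V'.cc _ _ _ x (h4 _ hc) (h4 _ hc') (h4 _ hc''), smul_smul]) }
  refine ⟨L, VB.iso_loc _ _ O a (fun c => (c, b c)) f h1 h2 h3 (fun c x h => ⟨h, h4 c h⟩) h5
    (fun c c' x hc hc' => ?_) fun c x hx => bij_of_det (h6 c x hx).2⟩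
  rw [VB.tw_g, Matrix.smul_mul]
  exact key hc hc'

theorem VB.end_diag (L : n → LB X) :
    (VB.diag L).tb.End.Iso (VB.diag fun p : n × n => (L p.1).mul (L p.2).dual) :=
  VB.iso_ref _ _ (VB.diag L).U (fun i => i) (fun i p => (i p.1, i p.2)) (VB.diag L).op
    (VB.diag L).cov (fun _ => subset_rfl)
    (fun _ _ h => VB.mem_diag.2 fun p => ⟨VB.mem_diag.1 h p.1, VB.mem_diag.1 h p.2⟩)
    fun i j x hi hj => by
      change adj ((VB.diag L).g i j x) = _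
      rw [adj, Matrix.inv_eq_right_inv ((VB.diag L).inv hi hj), VB.diag_g, VB.diag_g, VB.diag_g,
        diagonal_transpose, diagonal_kronecker_diagonal]
      rfl

/-! ### characters -/

/-- a character of degree `d` of the group of units in `H` -/
structure Chr (H : Set (Matrix n n ℂ)) (d : ℕ) (χ : Matrix n n ℂ → ℂ) : Prop where
  ct : ContinuousOn χ {g | g ∈ H ∧ g.det ≠ 0}
  mul : ∀ g ∈ H, ∀ h ∈ H, g.det ≠ 0 → h.det ≠ 0 → χ (g * h) = χ g * χ h
  smul : ∀ (s : ℂ) g, χ (s • g) = s ^ d * χ g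
  ne : ∀ g ∈ H, g.det ≠ 0 → χ g ≠ 0

/-- the cocycle of `L` is `χ / χ'` of the cocycle of `T` -/
def TB.Ch (T : TB X n) (χ χ' : Matrix n n ℂ → ℂ) (L : LB X) : Prop :=
  ∃ e : T.ι → L.ι, (∀ i, T.U i ⊆ L.U (e i)) ∧
    ∀ i j x, x ∈ T.U i → x ∈ T.U j → L.g (e i) (e j) x = χ (T.g i j x) / χ' (T.g i j x)

section chr

variable {H : Set (Matrix n n ℂ)} {d d' : ℕ} {χ χ' ψ : Matrix n n ℂ → ℂ} {T T' : TB X n}

theorem Chr.ctOn (h : Chr H d χ) {s : Set X} {g : X → Matrix n n ℂ} (hg : ContinuousOn g s)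
    (h1 : ∀ x ∈ s, g x ∈ H ∧ (g x).det ≠ 0) : ContinuousOn (fun x => χ (g x)) s :=
  h.ct.comp hg h1

theorem Chr.mono (h : Chr H d χ) {H' : Set (Matrix n n ℂ)} (e : H' ⊆ H) : Chr H' d χ :=
  ⟨h.ct.mono fun _ a => ⟨e a.1, a.2⟩, fun g a k b => h.mul g (e a) k (e b), h.smul,
    fun g a => h.ne g (e a)⟩

theorem chr_det (H : Set (Matrix n n ℂ)) : Chr H (Fintype.card n) Matrix.det :=
  ⟨continuous_id.matrix_det.continuousOn, fun _ _ _ _ _ _ => det_mul _ _,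
    fun s g => det_smul g s, fun _ _ h => h⟩

theorem chr_one (H : Set (Matrix n n ℂ)) : Chr H 0 fun _ => 1 :=
  ⟨continuousOn_const, fun _ _ _ _ _ _ => (one_mul _).symm, fun _ _ => by simp,
    fun _ _ _ => one_ne_zero⟩

theorem Chr.pow (h : Chr H d χ) (r : ℕ) : Chr H (d * r) fun g => χ g ^ r :=
  ⟨h.ct.pow r, fun g a k b c e => by rw [h.mul g a k b c e, mul_pow],
    fun s g => by rw [h.smul, mul_pow, pow_mul], fun g a b => pow_ne_zero _ (h.ne g a b)⟩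

theorem Chr.div_eq (h : Chr H d χ) (h' : Chr H d χ') {g₁ g₂ g₃ g₄ : Matrix n n ℂ} {s : ℂ}
    (h1 : g₁ ∈ H ∧ g₁.det ≠ 0) (h2 : g₂ ∈ H ∧ g₂.det ≠ 0) (h3 : g₃ ∈ H ∧ g₃.det ≠ 0)
    (h4 : g₄ ∈ H ∧ g₄.det ≠ 0) (e : g₁ * g₂ = s • (g₃ * g₄)) :
    χ g₁ / χ' g₁ * (χ g₂ / χ' g₂) = χ g₃ / χ' g₃ * (χ g₄ / χ' g₄) := by
  have a := congrArg χ e
  have a' := congrArg χ' e
  rw [h.smul, h.mul _ h1.1 _ h2.1 h1.2 h2.2, h.mul _ h3.1 _ h4.1 h3.2 h4.2] at a
  rw [h'.smul, h'.mul _ h1.1 _ h2.1 h1.2 h2.2, h'.mul _ h3.1 _ h4.1 h3.2 h4.2] at a'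
  have hs : s ^ d ≠ 0 := left_ne_zero_of_mul
    (a' ▸ mul_ne_zero (h'.ne _ h1.1 h1.2) (h'.ne _ h2.1 h2.2))
  rw [div_mul_div_comm, div_mul_div_comm, a, a', mul_div_mul_left _ _ hs]

theorem Chr.div_cc (h : Chr H d χ) (h' : Chr H d χ') (hT : T.In H) {i j l : T.ι} {x : X}
    (hi : x ∈ T.U i) (hj : x ∈ T.U j) (hl : x ∈ T.U l) :
    χ (T.g i j x) / χ' (T.g i j x) * (χ (T.g j l x) / χ' (T.g j l x)) =
      χ (T.g i l x) / χ' (T.g i l x) := by
  obtain ⟨s, e⟩ := T.cc i j l x hi hj hl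
  have a := congrArg χ e
  have a' := congrArg χ' e
  have m1 := hT i j x hi hj
  have m2 := hT j l x hj hl
  have d1 := T.nz i j x hi hj
  have d2 := T.nz j l x hj hl
  rw [h.smul, h.mul _ m1 _ m2 d1 d2] at a
  rw [h'.smul, h'.mul _ m1 _ m2 d1 d2] at a'
  have hs : s ^ d ≠ 0 := left_ne_zero_of_mul (a' ▸ mul_ne_zero (h'.ne _ m1 d1) (h'.ne _ m2 d2))
  rw [div_mul_div_comm, a, a', mul_div_mul_left _ _ hs]

/-- the line bundle of two characters of the same degree -/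
def TB.lb (T : TB X n) (hT : T.In H) (h : Chr H d χ) (h' : Chr H d χ') : LB X where
  toCov := T.toCov
  g i j x := χ (T.g i j x) / χ' (T.g i j x)
  ct i j := (h.ctOn (T.ct i j) fun x a => ⟨hT i j x a.1 a.2, T.nz i j x a.1 a.2⟩).div
    (h'.ctOn (T.ct i j) fun x a => ⟨hT i j x a.1 a.2, T.nz i j x a.1 a.2⟩)
    fun x a => h'.ne _ (hT i j x a.1 a.2) (T.nz i j x a.1 a.2)
  id i x hi := (mul_eq_left₀ (div_ne_zero (h.ne _ (hT i i x hi hi) (T.nz i i x hi hi))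
    (h'.ne _ (hT i i x hi hi) (T.nz i i x hi hi)))).1 (h.div_cc h' hT hi hi hi)
  cc _ _ _ _ hi hj hl := h.div_cc h' hT hi hj hl

theorem TB.ch_lb (hT : T.In H) (h : Chr H d χ) (h' : Chr H d χ') : T.Ch χ χ' (T.lb hT h h') :=
  ⟨fun i => i, fun _ => subset_rfl, fun _ _ _ _ _ => rfl⟩

theorem TB.Ch.pb {L : LB X} (h : T.Ch χ χ' L) (f : C(Y, X)) : (T.pb f).Ch χ χ' (L.pb f) := by
  obtain ⟨e, h1, h2⟩ := h
  exact ⟨e, fun i y hy => h1 i hy, fun i j y => h2 i j (f y)⟩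

theorem TB.Ch.iso {L L' : LB X} (hL : T.Ch χ χ' L) (hL' : T'.Ch χ χ' L') (h : Chr H d χ)
    (h' : Chr H d χ') (hT : T.In H) (hT' : T'.In H) (li : TB.LI H T T') : L.Iso L' := by
  obtain ⟨κ, O, a, b, f, h1, h2, h3, h4, h5, h6, h7⟩ := li
  obtain ⟨e, e1, e2⟩ := hL
  obtain ⟨e', e1', e2'⟩ := hL'
  refine LB.iso_loc _ _ O (fun c => e (a c)) (fun c => e' (b c)) (fun c x => χ (f c x) / χ' (f c x))
    h1 h2 (fun c => (h3 c).trans (e1 _)) (fun c => (h4 c).trans (e1' _))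
    (fun c => (h.ctOn (h5 c) (h6 c)).div (h'.ctOn (h5 c) (h6 c))
      fun x hx => h'.ne _ (h6 c x hx).1 (h6 c x hx).2) (fun c c' x hc hc' => ?_)
    fun c x hx => div_ne_zero (h.ne _ (h6 c x hx).1 (h6 c x hx).2)
      (h'.ne _ (h6 c x hx).1 (h6 c x hx).2)
  obtain ⟨s, hs⟩ := h7 c c' x hc hc'
  rw [e2 _ _ x (h3 _ hc) (h3 _ hc'), e2' _ _ x (h4 _ hc) (h4 _ hc')]
  exact h.div_eq h' (h6 c x hc) ⟨hT _ _ x (h3 _ hc) (h3 _ hc'), T.nz _ _ x (h3 _ hc) (h3 _ hc')⟩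
    ⟨hT' _ _ x (h4 _ hc) (h4 _ hc'), T'.nz _ _ x (h4 _ hc) (h4 _ hc')⟩ (h6 c' x hc') hs

/-- the honest bundle given by a character of degree one -/
def TB.nm (T : TB X n) (hT : T.In H) (h : Chr H 1 ψ) : VB X n where
  toCov := T.toCov
  g i j x := (ψ (T.g i j x))⁻¹ • T.g i j x
  ct i j := ((h.ctOn (T.ct i j) fun x a => ⟨hT i j x a.1 a.2, T.nz i j x a.1 a.2⟩).inv₀
    fun x a => h.ne _ (hT i j x a.1 a.2) (T.nz i j x a.1 a.2)).smul (T.ct i j)
  id i x hi := by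
    obtain ⟨s, e⟩ := T.cc i i i x hi hi hi
    have m := hT i i x hi hi
    have d := T.nz i i x hi hi
    have a := congrArg ψ e
    rw [h.smul, h.mul _ m _ m d d, pow_one] at a
    rw [mul_right_cancel₀ (h.ne _ m d) a]
    have := congrArg (· * (T.g i i x)⁻¹) e
    simp only [Matrix.mul_assoc, Matrix.smul_mul, mul_nonsing_inv _ d.isUnit,
      Matrix.mul_one] at this
    have hs : s ≠ 0 := mul_right_cancel₀ (h.ne _ m d) a ▸ h.ne _ m d
    rw [this, smul_smul, inv_mul_cancel₀ hs, one_smul]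
  cc i j l x hi hj hl := by
    obtain ⟨s, e⟩ := T.cc i j l x hi hj hl
    have m1 := hT i j x hi hj
    have m2 := hT j l x hj hl
    have d1 := T.nz i j x hi hj
    have d2 := T.nz j l x hj hl
    have a := congrArg ψ e
    rw [h.smul, h.mul _ m1 _ m2 d1 d2, pow_one] at a
    have hs : s ≠ 0 := left_ne_zero_of_mul (a ▸ mul_ne_zero (h.ne _ m1 d1) (h.ne _ m2 d2))
    rw [Matrix.smul_mul, Matrix.mul_smul, smul_smul, ← mul_inv, a, e, smul_smul, mul_inv,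
      mul_right_comm, inv_mul_cancel₀ hs, one_mul]

theorem TB.li_nm {H' : Set (Matrix n n ℂ)} (h1 : 1 ∈ H') (hT : T.In H) (h : Chr H 1 ψ) :
    TB.LI H' (T.nm hT h).tb T :=
  TB.li_ref h1 _ _ (fun i => i) (fun _ => subset_rfl) fun _ _ _ _ _ => ⟨_, rfl⟩

end chr

/-! ### triangular cocycles -/

/-- upper triangular matrices -/
def tri (n : Type) [LinearOrder n] : Set (Matrix n n ℂ) := {g | g.BlockTriangular id}

theorem tri_mul [LinearOrder n] {g : Matrix n n ℂ} (hg : g ∈ tri n) {h : Matrix n n ℂ}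
    (hh : h ∈ tri n) (a : n) : (g * h) a a = g a a * h a a := by
  rw [Matrix.mul_apply, Finset.sum_eq_single a]
  · intro b _ hb
    rcases lt_or_gt_of_ne hb with e | e
    · rw [hg e, zero_mul]
    · rw [hh e, mul_zero]
  · simp

theorem chr_tri [LinearOrder n] (a : n) : Chr (tri n) 1 fun g => g a a :=
  ⟨((continuous_apply a).comp (continuous_apply a)).continuousOn,
    fun _ hg _ hh _ _ => tri_mul hg hh a, fun s g => by simp, fun g hg hd => by
      rw [det_of_isUpperTriangular hg] at hd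
      exact Finset.prod_ne_zero_iff.1 hd a (Finset.mem_univ a)⟩

/-- a triangular cocycle is the sum of its diagonal entries -/
theorem VB.tri_iso [LinearOrder n] [Nc X] (V : VB X n) (h : V.tb.In (tri n)) {L : n → LB X}
    (hL : ∀ a, V.tb.Ch (fun g => g a a) (fun _ => 1) (L a)) : V.Iso (VB.diag L) := by
  obtain ⟨ρ, hρ⟩ := exists_pou V.U V.op V.cov
  choose e e1 e2 using hL
  have h' : ∀ {i j x}, x ∈ V.U i → x ∈ V.U j → V.g i j x ∈ tri n := fun a b => h _ _ _ a b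
  refine VB.iso_loc _ _ V.U (fun i => i) (fun i a => e a i)
    (fun j x => ∑ᶠ i, ρ i x • (Matrix.diagonal (V.g j i x).diag * V.g i j x)) V.op V.cov
    (fun _ => subset_rfl) (fun i x hx => VB.mem_diag.2 fun a => e1 a i hx) (fun j => ?_)
    (fun j l x hj hl => ?_) fun j x hj => bij_of_det ?_
  · let : NormedAddCommGroup (Matrix n n ℂ) := Matrix.normedAddCommGroup
    let : NormedSpace ℝ (Matrix n n ℂ) := Matrix.normedSpace
    refine ctOn_pou ρ V.op hρ (V.op j) fun i => ?_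
    exact ctOn_mul (continuous_id.matrix_diagonal.comp_continuousOn
        (continuous_id.matrix_diag.comp_continuousOn (V.ct j i)))
      ((V.ct i j).mono fun _ a => ⟨a.2, a.1⟩)
  · have := pou_map ρ hρ (lr 1 (V.g j l x)) (lr (Matrix.diagonal (V.g j l x).diag) 1) (x := x)
      (f := fun i => Matrix.diagonal (V.g j i x).diag * V.g i j x)
      (f' := fun i => Matrix.diagonal (V.g l i x).diag * V.g i l x) fun i hi => by
        rw [lr_apply, lr_apply, Matrix.one_mul, Matrix.mul_one, Matrix.mul_assoc,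
          V.cc _ _ _ x hi hj hl, ← Matrix.mul_assoc, diagonal_mul_diagonal,
          ← V.cc _ _ _ x hj hl hi]
        congr 2
        exact funext fun a => tri_mul (h' hj hl) (h' hl hi) a
    rw [lr_apply, lr_apply, Matrix.one_mul, Matrix.mul_one] at this
    rw [this, VB.diag_g]
    congr 2
    exact funext fun a => ((e2 a j l x hj hl).trans (div_one _)).symm
  · have key : ∀ a b, b ≤ a → (∑ᶠ i, ρ i x • (Matrix.diagonal (V.g j i x).diag * V.g i j x)) a b =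
        (1 : Matrix n n ℂ) a b := fun a b hab =>
      pou_eq ρ hρ (Matrix.entryLinearMap ℝ ℂ a b) fun i hi => by
        change (Matrix.diagonal (V.g j i x).diag * V.g i j x) a b = _
        rw [diagonal_mul]
        rcases hab.lt_or_eq with hab | rfl
        · rw [h' hi hj hab, mul_zero, one_apply_ne hab.ne']
        · rw [← V.inv hj hi, tri_mul (h' hj hi) (h' hi hj)]
          rfl
    rw [det_of_isUpperTriangular fun a b hab => (key a b (le_of_lt hab)).trans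
      (one_apply_ne (ne_of_gt hab))]
    exact Finset.prod_ne_zero_iff.2 fun a _ => by
      rw [key a a le_rfl, one_apply_eq]
      exact one_ne_zero

namespace Th

variable {τ : Th} [Nc X]

theorem p1_tw (L : LB X) (V : VB X n) :
    τ.p1 (VB.tw L V) = Fintype.card n • τ.c L + τ.p1 V := by
  obtain ⟨Y, _, _, f, hf, M, hM⟩ := split τ V
  refine pe_inj hf ?_
  rw [map_add, map_nsmul, ← p1_pb, ← p1_pb, ← c_pb, p1_diag hM,
    p1_diag (V := (VB.tw L V).pb f) ((hM.tw (L.pb f)).trans (VB.tw_diag _ _))]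
  simp [c_mul, Finset.sum_add_distrib]

theorem p2_tw (L : LB X) (V : VB X n) :
    τ.p2 (VB.tw L V) = Fintype.card n • τ.c L ^ 2 + 2 * τ.c L * τ.p1 V + τ.p2 V := by
  obtain ⟨Y, _, _, f, hf, M, hM⟩ := split τ V
  refine pe_inj hf ?_
  rw [map_add, map_add, map_nsmul, map_mul, map_mul, map_pow, map_ofNat, ← p2_pb, ← p2_pb,
    ← p1_pb, ← c_pb, p1_diag hM, p2_diag hM,
    p2_diag (V := (VB.tw L V).pb f) ((hM.tw (L.pb f)).trans (VB.tw_diag _ _))]
  simp [c_mul, add_sq, Finset.sum_add_distrib, Finset.mul_sum]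

theorem p2_li {H : Set (Matrix n n ℂ)} {T T' : TB X n} (h : TB.LI H T T') :
    τ.p2 T.End = τ.p2 T'.End := p2_iso h.End

theorem p2_end_pb [Nc Y] (T : TB X n) (f : C(Y, X)) :
    τ.p2 (T.pb f).End = τ.pe f (τ.p2 T.End) := p2_pb T.End f

theorem p2_end_diag {H : Set (Matrix n n ℂ)} {T : TB X n} {L : n → LB X}
    (h : TB.LI H T (VB.diag L).tb) : τ.p2 T.End = ∑ a, ∑ b, (τ.c (L a) - τ.c (L b)) ^ 2 := by
  rw [p2_diag (h.End.trans (VB.end_diag L)), Fintype.sum_prod_type]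
  simp only [c_mul, c_dual, sub_eq_add_neg]

theorem sum_sub_sq {R : Type} [CommRing R] (x : n → R) : ∑ a, ∑ b, (x a - x b) ^ 2 =
    2 * (Fintype.card n • ∑ a, x a ^ 2) - 2 * (∑ a, x a) ^ 2 := by
  simp only [sub_sq, Finset.sum_add_distrib, Finset.sum_sub_distrib, Finset.sum_const,
    Finset.card_univ, ← Finset.mul_sum, ← Finset.sum_mul, ← Finset.smul_sum]
  ring

theorem p2_end (V : VB X n) :
    τ.p2 V.tb.End = 2 * (Fintype.card n • τ.p2 V) - 2 * τ.p1 V ^ 2 := by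
  obtain ⟨Y, _, _, f, hf, M, hM⟩ := split τ V
  refine pe_inj hf ?_
  rw [map_sub, map_mul, map_mul, map_nsmul, map_pow, map_ofNat, ← p2_end_pb, ← p2_pb,
    ← p1_pb, p1_diag hM, p2_diag hM, p2_end_diag (T := V.tb.pb f) hM.li, sum_sub_sq]

end Th

end P275CC
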